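import Vale.Agent.P236K.Core
import Vale.Agent.P236Z.Det.All

/-!
# P236K: the Bockstein of a lift of `t_1 ^ (3 ^ (j + 1))` is `b_j`
-/

namespace Vale.Agent.P236K

open Vale.Agent.P251.F Vale.Agent.P251.I Vale.Agent.P251.S Vale.Agent.P251.F.Cob
  Vale.Agent.P236Z.Det MvPolynomial

/-- the cochain `b_j` in the cobar complex of the Lazard ring -/
noncomputable def bj (t : Cob Laz 1) (j : ℕ) : Cob Laz 2 :=
  bp (3 ^ j) (Cob.map (Fin.succAbove (2 : Fin 3)) t) (Cob.map (Fin.succAbove (0 : Fin 3)) t)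

theorem add_pow_three {A : Type*} [CommRing A] (x y : A) (j : ℕ) : ∃ r, (x + y) ^ 3 ^ (j + 1) =
    x ^ 3 ^ (j + 1) + y ^ 3 ^ (j + 1) + 3 * bp (3 ^ j) x y + 9 * r := by
  induction j with
  | zero => exact ⟨0, by simp only [bp]; ring⟩
  | succ j ih =>
    obtain ⟨r, hr⟩ := ih
    rw [pow_succ 3 (j + 1), pow_mul, pow_mul, pow_mul, hr, bp.eq_1 (3 ^ (j + 1))]
    generalize x ^ 3 ^ (j + 1) = a
    generalize y ^ 3 ^ (j + 1) = b
    generalize bp (3 ^ j) x y = s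
    exact ⟨(a + b) ^ 2 * (s + 3 * r) + 3 * (a + b) * (s + 3 * r) ^ 2 + 3 * (s + 3 * r) ^ 3,
      by ring⟩

variable {t1 : Cob Laz 1} (ht : IsT1 3 t1)

include ht

theorem isWt_bj (j : ℕ) : IsWt (w0 j) (bj t1 j) := by
  have hx := ((isWt_t1 ht).map (Fin.succAbove (2 : Fin 3))).pow (3 ^ j)
  have hy := ((isWt_t1 ht).map (Fin.succAbove (0 : Fin 3))).pow (3 ^ j)
  exact (isWt_cast ((hx.mul hx).mul hy) (by rw [w0]; push_cast; ring)).add
    (isWt_cast (hx.mul (hy.mul hy)) (by rw [w0]; push_cast; ring))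

theorem d_pow (j : ℕ) : ∃ r, d 1 (t1 ^ 3 ^ (j + 1)) = -3 * bj t1 j + 9 * r := by
  have h := (BCocycle 3 (by norm_num) t1 ht).2.1
  obtain ⟨r, hr⟩ := add_pow_three (Cob.map (Fin.succAbove (2 : Fin 3)) t1)
    (Cob.map (Fin.succAbove (0 : Fin 3)) t1) j
  refine ⟨-r, ?_⟩
  rw [d_apply, Fin.sum_univ_three] at h ⊢
  simp only [Fin.val_zero, pow_zero, one_smul, Fin.val_one, pow_one, neg_smul, Fin.val_two,
    even_two, Even.neg_pow, one_pow, map_pow] at h ⊢
  rw [show Cob.map (Fin.succAbove (1 : Fin 3)) t1 = Cob.map (Fin.succAbove (2 : Fin 3)) t1 +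
    Cob.map (Fin.succAbove (0 : Fin 3)) t1 by linear_combination -h, hr, bj]
  ring

/-- evaluation on the automorphism `x + x ^ 3` of the additive law -/
theorem exists_eval : ∃ ε : Cob Laz 1 →+* ZMod 3, (∀ n, ∀ x ∈ IC 3 n 1, ε x = 0) ∧
    (∀ z, ε (D z) = 0) ∧ ε t1 = -1 := by
  let c : Chain Laz 1 (ZMod 3) :=
    { pt := Laz.lift (P251.F.addLaw _)
      g := ![1, strictMk (sc 1)]
      strict := fun i => by
        fin_cases i
        · exact one_mem _
        · exact strictMk_mem _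
      zero := rfl }
  have h3 : ((3 : ℕ) : ZMod 3) = 0 := rfl
  refine ⟨ev c, fun n x hx => ?_, fun z => ?_, ?_⟩
  · have h1 : IC 3 n 1 ≤ RingHom.ker (ev c) := by
      rw [CobCompl.IC_eq_span, Ideal.span_le]
      rintro _ ⟨k, -, rfl⟩
      rw [SetLike.mem_coe, RingHom.mem_ker, ev_C, Laz.map_v, Laz.univ_map_lift]
      exact P257.H604.vv_addLaw h3 k
    exact h1 hx
  · have h1 : (strictMk (sc (1 : ZMod 3))) • P251.F.addLaw (ZMod 3) = P251.F.addLaw _ := by
      rw [P257.H604.smul_addLaw_iff (p := 3) h3 (strictMk_mem _)]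
      rintro (_ | n) hn
      · exact absurd ⟨0, rfl⟩ hn
      · rw [c_succ_strictMk, sc, if_neg]
        rintro rfl
        exact hn ⟨1, rfl⟩
    rw [D, map_sub, ev_eR, ev_C, Laz.act_eq, Laz.univ_map_lift]
    exact sub_eq_zero.2 (congrArg (fun L => Laz.lift L z) h1)
  · obtain ⟨q, rfl⟩ := t1_eq ht
    have h1 : ∀ m, ev c (X (0, m)) = sc 1 m := fun m => by
      rw [ev_X]
      exact c_succ_strictMk _ m
    rw [map_add, map_mul, map_mul, h1, h1, map_ofNat]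
    simp [sc]
    rfl

/-- If `h` is a cocycle modulo `3` which lifts `c t_1 ^ (3 ^ (j + 1))`, then `d h / 3` lifts
`- c b_j`, up to a coboundary. -/
theorem exists_bj {j n : ℕ} {h : Cob Laz 1} {y : Cob Laz 2} {c : ℤ} (hw : IsWt (w0 j) h)
    (hy : d 1 h = 3 * y) (hc : h - c * t1 ^ 3 ^ (j + 1) ∈ IC 3 n 1) :
    ∃ g, IsWt (w0 j) g ∧ y - d 1 g - ((-c : ℤ) : Cob Laz 2) * bj t1 j ∈ IC 3 3 2 := by
  obtain ⟨dd⟩ := exists_dat norm evp ht
  obtain ⟨c', Z, G, h', hG, e⟩ := listA land hone ht dd (j := j) (isWt_cast hw (w0_eq j)) ⟨y, hy⟩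
  obtain ⟨ε, e1, e2, e3⟩ := exists_eval ht
  obtain ⟨k, hk⟩ : (3 : ℤ) ∣ c' - c := by
    have h1 := e1 _ _ hc
    have h2 : ε (G + 3 * h') = 0 :=
      e1 3 _ (Ideal.add_mem _ (Ideal.pow_le_self two_ne_zero hG) (three_mul_mem _))
    rw [← e] at h2
    simp only [map_sub, map_mul, map_pow, map_intCast, e2, e3,
      Odd.neg_one_pow (Odd.pow (by decide : Odd 3))] at h1 h2
    refine (ZMod.intCast_zmod_eq_zero_iff_dvd _ 3).1 ?_
    push_cast
    linear_combination h2 - h1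
  obtain ⟨r, hr⟩ := d_pow ht j
  have hyw : IsWt (w0 j) y := Cob.isWt_of_smul (m := 3) (by norm_num) (by
    rw [zsmul_eq_mul]
    push_cast
    rw [← hy]
    exact hw.d)
  have h1 := congrArg (d 1) e
  rw [map_sub, map_sub, d_D, d_int_mul, hr, hy, map_add, d_three_mul] at h1
  have h2 : y - d 1 h' + c' * bj t1 j - 3 * (c' * r) ∈ II 2 := by
    apply mem_II_of_three
    have h3 := d_mem_sq hG
    rwa [show 3 * (y - d 1 h' + c' * bj t1 j - 3 * (c' * r)) = d 1 G by linear_combination h1]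
  have h3 : y - d 1 h' - ((-c : ℤ) : Cob Laz 2) * bj t1 j ∈ II 2 := by
    have h4 := Ideal.add_mem _ h2
      (three_mul_mem ((c' : Cob Laz 2) * r - (k : Cob Laz 2) * bj t1 j))
    have h5 : (c' : Cob Laz 2) - c = 3 * k := by exact_mod_cast congrArg Int.cast hk
    rwa [show y - d 1 h' + c' * bj t1 j - 3 * (c' * r) + 3 * (c' * r - k * bj t1 j) =
      y - d 1 h' - ((-c : ℤ) : Cob Laz 2) * bj t1 j by
        push_cast
        linear_combination bj t1 j * h5] at h4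
  refine ⟨proj (w0 j) h', isWt_proj _ _, ?_⟩
  have h4 := proj_mem_II (w0 j) h3
  rwa [proj_sub, proj_sub, proj_self hyw, proj_d,
    proj_self (isWt_int_mul _ (isWt_bj ht j))] at h4

end Vale.Agent.P236K
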