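import Vale.Agent.P236Z.Top.St

/-!
# P236, statement layer: the classes `b_j` in the mod three Adams spectral sequence

The dual Steenrod algebra is `π_* (H ∧ H)`, the cobar complex is `π_* (H ∧ ⋯ ∧ H)`, and the
`E_1`-term of the Adams tower is `E_1^{s, n + s} = π_n (H ∧ X s)`.
-/

open CategoryTheory MonoidalCategory

noncomputable section

namespace Vale.Agent.P236K

open P251.St P251.St.SHCat P236Z.St

variable {T : SHCat} {A B C : T.C}

/-- A homotopy commutative ring spectrum. -/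
structure RingSp (T : SHCat) where
  /-- the underlying spectrum -/
  obj : T.C
  [mon : MonObj obj]
  [comm : IsCommMonObj obj]

attribute [instance] RingSp.mon RingSp.comm

/-- the multiplication -/
abbrev RingSp.mul (H : RingSp T) : Hom (ten H.obj H.obj) H.obj := MonObj.mul

/-- the unit -/
abbrev RingSp.unit (H : RingSp T) : Hom T.one H.obj := MonObj.one

/-- the suspension `Σ f` of a morphism -/
abbrev susMap (f : Hom A B) : Hom (sus A) (sus B) := f⟦(1 : ℤ)⟧'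

/-- the associativity `A ∧ (B ∧ C) ⟶ (A ∧ B) ∧ C` -/
abbrev assocInv (A B C : T.C) : Hom (ten A (ten B C)) (ten (ten A B) C) := (α_ A B C).inv

/-- the isomorphism `A ∧ Σ B ⟶ A ∧ (B ∧ S¹) ⟶ (A ∧ B) ∧ S¹ ⟶ Σ (A ∧ B)` -/
def out (A B : T.C) : Hom (ten A (sus B)) (sus (ten A B)) :=
  comp (tenHom (ident A) (T.tensor.e B).inv) (comp (assocInv A B _) (tenSus _))

variable {H : RingSp T}

/-- `H ∧ H`; its homotopy is the dual Steenrod algebra. -/
abbrev HH (H : RingSp T) : T.C := ten H.obj H.obj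

/-- the product `a b` in the ring `π_* (H ∧ H)` -/
def prod (a : Hom A (HH H)) (b : Hom B (HH H)) : Hom (ten A B) (HH H) :=
  comp (tenHom a b) (comp (tensorμ _ _ _ _) (tenHom H.mul H.mul))

/-- the element `[a | b]` of the cobar complex `π_* (H ∧ H ∧ H)`: the two middle factors of
`(H ∧ H) ∧ (H ∧ H)` are multiplied. -/
def bar (a : Hom A (HH H)) (b : Hom B (HH H)) : Hom (ten A B) (ten H.obj (HH H)) :=
  comp (tenHom a b) (comp (assoc _ _ _)
    (tenHom (ident _) (comp (assocInv _ _ _) (tenHom H.mul (ident _)))))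

/-- The sphere of dimension `4 * 3 ^ j`, as a smash power of `S⁴`. -/
def P (T : SHCat) : ℕ → T.C
  | 0 => sph T 4
  | j + 1 => ten (ten (P T j) (P T j)) (P T j)

/-- the power `ξ ^ (3 ^ j)` -/
def pw (ξ : Hom (sph T 4) (HH H)) : ∀ j, Hom (P T j) (HH H)
  | 0 => ξ
  | j + 1 => prod (prod (pw ξ j) (pw ξ j)) (pw ξ j)

/-- The cocycle `b_j = [u² | u] + [u | u²]`, `u = ξ ^ (3 ^ j)`. -/
def cocycle (ξ : Hom (sph T 4) (HH H)) (j : ℕ) : Hom (P T (j + 1)) (ten H.obj (HH H)) :=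
  bar (prod (pw ξ j) (pw ξ j)) (pw ξ j) +
    comp (assoc _ _ _) (bar (pw ξ j) (prod (pw ξ j) (pw ξ j)))

variable (A : AdamsTower H.unit)

/-- the projection `H ∧ H ∧ H ⟶ H ∧ H ∧ Σ X 1 ⟶ H ∧ Σ² X 2 ⟶ Σ² (H ∧ X 2)` from the cobar complex
to the `E_1`-term, built from the connecting maps `H = H ∧ X 0 ⟶ Σ X 1` and `H ∧ X 1 ⟶ Σ X 2`. -/
def toE1 : Hom (ten H.obj (HH H)) (sus (sus (ten H.obj (A.X 2)))) :=
  comp (tenHom (ident _) (comp (tenHom (ident _)
    (comp (ρ_ H.obj).inv (comp (tenHom (ident _) A.base.inv) (A.d 0))))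
      (comp (out _ _) (susMap (A.d 1))))) (comp (out _ _) (susMap (out _ _)))

/-- the stem `4 * 3 ^ (j + 1) - 2` -/
abbrev stem (j : ℕ) : ℤ := 4 * 3 ^ (j + 1) - 2

variable (ξ : Hom (sph T 4) (HH H)) (j : ℕ)

/-- `x ∈ E_1^{2, 4 * 3 ^ (j + 1)}` is the image of the cocycle `b_j`, under an identification `e`
of the spheres (which is unique up to sign). -/
def IsB (x : Hom (sph T (stem j)) (ten H.obj (A.X 2))) : Prop :=
  ∃ e : Hom (sus (sus (sph T (stem j)))) (P T (j + 1)), IsIso e ∧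
    susMap (susMap x) = comp e (comp (cocycle ξ j) (toE1 A))

/-- `b_j` survives nontrivially to `E_∞`. -/
def Survives : Prop := ∃ x, IsB A ξ j x ∧ A.IsPermCycle 2 x ∧ ¬ A.IsBoundary 2 x

/-- `θ` is detected by `b_j`: it has Adams filtration exactly `2`, and its image in `E_∞` is a
multiple (then nonzero) of the class of `b_j`. -/
def Detected (θ : Hom (sph T (stem j)) T.one) : Prop :=
  ¬ A.FiltGe 3 θ ∧ ∃ (x : _) (c : ℤ) (y : Hom _ (A.X 2)), IsB A ξ j x ∧
    comp y (A.toSphere 2) = θ ∧ A.IsBoundary 2 (comp y (hur H.unit _) - c • x)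

/-- The full answer. -/
def Goal (T : SHCat) : Prop :=
  (∃ H : RingSp T, IsHF 3 H.unit) ∧ ∀ H : RingSp T, IsHF 3 H.unit →
    Nonempty (AdamsTower H.unit) ∧ Nat.card (Hom (sph T 4) (HH H)) = 3 ∧
      ∀ (A : AdamsTower H.unit) (ξ : Hom (sph T 4) (HH H)), ξ ≠ 0 → (∀ j, ∃ x, IsB A ξ j x) ∧
        {j | Survives A ξ j} = {0, 2, 3} ∧
          ∀ j ∈ ({0, 2, 3} : Set ℕ), ∃ θ, Detected A ξ j θ ∧ addOrderOf θ = 3

end Vale.Agent.P236K
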