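import Vale.Agent.P236K.Thom
import Vale.Agent.P236K.St
import Vale.Agent.P236Z.Cv.Fin

/-!
# P236K: from the towers to the statement
-/

open CategoryTheory MonoidalCategory MonObj Limits Pretriangulated

set_option linter.unusedSectionVars false

namespace Vale.Agent.P236K

open Vale.Agent.P251 Vale.Agent.P251.S Vale.Agent.P251.T Vale.Agent.P251.M Vale.Agent.P251.F
  Vale.Agent.P251.I EvenSpheres Vale.Agent.P257.H80 Vale.Agent.P251.H Vale.Agent.P236Z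
  Vale.Agent.P251.St Vale.Agent.P236Z.St

variable {T : SHCat} {H : RingSp T} (A : AdamsTower H.unit)

theorem out_eq (X Y : T.C) : out X Y = (csh X 1 Y).hom := by
  rw [csh_one, out, ← id_tensorHom]

theorem hur_eq' (X : T.C) : hur H.unit X = unitMap H.obj X := Top.hur_eq X

/-- the tower in cofibre form -/
@[reducible] noncomputable def advTw : Tw H.obj where
  B1 := (A.X 1)⟦(1 : ℤ)⟧
  B2 := ((A.X 2)⟦(1 : ℤ)⟧)⟦(1 : ℤ)⟧
  k0 := (ρ_ H.obj).inv ≫ H.obj ◁ A.base.inv ≫ A.d 0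
  b0 := -(A.g 0 ≫ A.base.hom)⟦(1 : ℤ)⟧'
  D0 := by
    have h := Tr.dist_iso (f' := η[H.obj]) (g' := (ρ_ H.obj).inv ≫ H.obj ◁ A.base.inv ≫ A.d 0)
      (Top.tower_dist A 0).rot A.base.symm
      ((ρ_ H.obj).symm ≪≫ whiskerLeftIso _ A.base.symm) (Iso.refl _) (by
        change η[H.obj] ≫ (ρ_ H.obj).inv ≫ H.obj ◁ A.base.inv = A.base.inv ≫ Tr.hur _ _
        rw [Tr.hur_naturality, ← Category.assoc]
        congr 1
        rw [Iso.comp_inv_eq]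
        exact Tr.hur_unit.symm)
      ((Category.comp_id _).trans (Category.assoc _ _ _).symm)
    rwa [Iso.refl_hom, Category.id_comp, Preadditive.neg_comp, ← Functor.map_comp] at h
  k1 := (csh H.obj 1 (A.X 1)).hom ≫ (A.d 1)⟦(1 : ℤ)⟧'
  b1 := ((A.g 1)⟦(1 : ℤ)⟧')⟦(1 : ℤ)⟧'
  D1 := by
    have h := Tr.dist_iso (f' := unitMap H.obj ((A.X 1)⟦(1 : ℤ)⟧))
      (g' := (csh H.obj 1 (A.X 1)).hom ≫ (A.d 1)⟦(1 : ℤ)⟧')
      (Top.tower_dist A 1).rot.rot.rot.rot (Iso.refl _)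
      ⟨-(csh H.obj 1 (A.X 1)).hom, -(csh H.obj 1 (A.X 1)).inv, by simp, by simp⟩ (Iso.refl _) (by
        change _ ≫ (-(csh H.obj 1 (A.X 1)).hom) = 𝟙 _ ≫ _
        rw [Preadditive.comp_neg, unitMap_csh, Category.id_comp]
        rfl) (by
        change _ ≫ 𝟙 _ = (-(csh H.obj 1 (A.X 1)).hom) ≫ _
        rw [Category.comp_id, Preadditive.neg_comp_neg])
    rwa [Iso.refl_hom, Iso.refl_inv, Category.id_comp, CategoryTheory.Functor.map_id,
      Category.comp_id, Functor.map_neg, neg_neg] at h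

theorem toE1_eq : toE1 A = (advTw A).q ≫ (csh H.obj 1 _).hom ≫ (csh H.obj 1 _).hom⟦(1 : ℤ)⟧' := by
  rw [toE1, out_eq, out_eq, out_eq, Tw.q, Tw.kk]
  simp only [SHCat.comp, SHCat.tenHom, SHCat.ident, id_tensorHom]

theorem bd_eq : (advTw A).bd = -((A.toSphere 2)⟦(1 : ℤ)⟧')⟦(1 : ℤ)⟧' := by
  rw [Tw.bd, Functor.map_neg, Preadditive.comp_neg]
  dsimp only
  rw [← Functor.map_comp, ← Functor.map_comp]
  rfl

theorem un_eq : unitMap H.obj (advTw A).B2 ≫ (csh H.obj 1 _).hom ≫ (csh H.obj 1 _).hom⟦(1 : ℤ)⟧' =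
    ((hur H.unit (A.X 2))⟦(1 : ℤ)⟧')⟦(1 : ℤ)⟧' := by
  rw [unitMap_csh_assoc, ← Functor.map_comp, unitMap_csh, hur_eq']

/-! ### products -/

theorem bar_eq {X Y : T.C} (a : X ⟶ HH H) (b : Y ⟶ HH H) :
    bar a b = ((a ≫ e01 H.obj) ⊗ₘ (b ≫ e12 H.obj)) ≫ μ[H.obj ⊗ (H.obj ⊗ H.obj)] := by
  let L := (α_ H.obj H.obj (H.obj ⊗ H.obj)).hom ≫
    H.obj ◁ ((α_ H.obj H.obj H.obj).inv ≫ μ[H.obj] ▷ H.obj)
  have h1 : inlM (H.obj ⊗ H.obj) (H.obj ⊗ H.obj) ≫ L = e01 H.obj := by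
    have h2 : inlM (H.obj ⊗ H.obj) (H.obj ⊗ H.obj) ≫ (α_ H.obj H.obj (H.obj ⊗ H.obj)).hom =
        H.obj ◁ inlM H.obj (H.obj ⊗ H.obj) := by simp [inlM]
    have h3 : inlM H.obj H.obj ≫ μ[H.obj] = 𝟙 _ := by simp [inlM]
    rw [reassoc_of% h2, ← MonoidalCategory.whiskerLeft_comp, ← inl_whisker (inlM H.obj H.obj),
      ← e01, ← inl_assoc, Category.assoc, Category.assoc, Iso.hom_inv_id_assoc, inlM_whiskerRight,
      reassoc_of% h3, inl_assoc]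
  have h2 : inrM (H.obj ⊗ H.obj) (H.obj ⊗ H.obj) ≫ L = e12 H.obj := by
    have h3 : inrM (H.obj ⊗ H.obj) (H.obj ⊗ H.obj) ≫ (α_ H.obj H.obj (H.obj ⊗ H.obj)).hom =
        inrM H.obj (H.obj ⊗ H.obj) ≫ inrM H.obj _ := by
      rw [← inr_whisker]
      change ((λ_ _).inv ≫ ((λ_ (𝟙_ T.C)).inv ≫ (η[H.obj] ⊗ₘ η[H.obj])) ▷ _) ≫ _ = _
      simp only [inrM, MonoidalCategory.tensorHom_def, comp_whiskerRight, Category.assoc,
        MonoidalCategory.whiskerLeft_comp]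
      monoidal
    rw [reassoc_of% h3, inr_whisker, ← Category.assoc]
    exact (congrArg (· ≫ _) (unitMap_mulMap H.obj)).trans (Category.id_comp _)
  rw [← tensorHom_comp_tensorHom, Category.assoc, ← h1, ← h2, ← descM, ← eq_descM L, bar]
  simp only [L, id_tensorHom, tensorHom_id]

theorem ext_prod {X Y : T.C} {m n p : ℤ} (h : m + n = p) (i : (stdEven T.C).S m ⟶ X)
    (i' : (stdEven T.C).S n ⟶ Y) (a : X ⟶ HH H) (b : Y ⟶ HH H) :
    HRing.of _ _ p ((stdEven T.C).ext h i i' ≫ prod a b) =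
      HRing.of _ _ m (i ≫ a) * HRing.of _ _ n (i' ≫ b) := by
  rw [of_mul_of h, gmul, ext_comp, Category.assoc]
  rfl

theorem ext_bar {X Y : T.C} {m n p : ℤ} (h : m + n = p) (i : (stdEven T.C).S m ⟶ X)
    (i' : (stdEven T.C).S n ⟶ Y) (a : X ⟶ HH H) (b : Y ⟶ HH H) :
    HRing.of _ _ p ((stdEven T.C).ext h i i' ≫ bar a b) =
      HRing.map (e01 H.obj) (HRing.of _ _ m (i ≫ a)) *
        HRing.map (e12 H.obj) (HRing.of _ _ n (i' ≫ b)) := by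
  rw [HRing.map_of, HRing.map_of, of_mul_of h, gmul, Category.assoc, Category.assoc, ext_comp,
    Category.assoc, bar_eq]

instance {X Y : T.C} {m n p : ℤ} (h : m + n = p) (i : (stdEven T.C).S m ⟶ X)
    (i' : (stdEven T.C).S n ⟶ Y) [IsIso i] [IsIso i'] : IsIso ((stdEven T.C).ext h i i') := by
  unfold EvenSpheres.ext
  infer_instance

/-- `S⁴` -/
noncomputable def i4 (T : SHCat) : (stdEven T.C).S 2 ≅ sph T 4 := B.sphE T.C 2

variable (ξ : sph T 4 ⟶ HH H)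

theorem exists_pw (j : ℕ) {w : ℤ} (hw : w = 2 * 3 ^ j) : ∃ i : (stdEven T.C).S w ⟶ P T j,
    IsIso i ∧ HRing.of _ _ w (i ≫ pw ξ j) = HRing.of _ _ 2 ((i4 T).hom ≫ ξ) ^ 3 ^ j := by
  induction j generalizing w with
  | zero =>
    subst hw
    exact ⟨(i4 T).hom, inferInstanceAs (IsIso (i4 T).hom), (pow_one _).symm⟩
  | succ j ih =>
    obtain ⟨i, _, hi⟩ := ih rfl
    have h : 2 * 3 ^ j + 2 * 3 ^ j + 2 * 3 ^ j = w := by rw [hw]; ring
    refine ⟨(stdEven T.C).ext h ((stdEven T.C).ext rfl i i) i, inferInstanceAs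
      (IsIso ((stdEven T.C).ext h ((stdEven T.C).ext rfl i i) i)), ?_⟩
    refine (ext_prod h _ _ _ _).trans ?_
    rw [ext_prod, hi]
    ring

theorem exists_cocycle (j : ℕ) : ∃ i : (stdEven T.C).S (Det.w0 j) ⟶ P T (j + 1), IsIso i ∧
    HRing.of _ _ _ (i ≫ cocycle ξ j) =
      bp (3 ^ j) (HRing.map (e01 H.obj) (HRing.of _ _ 2 ((i4 T).hom ≫ ξ)))
        (HRing.map (e12 H.obj) (HRing.of _ _ 2 ((i4 T).hom ≫ ξ))) := by
  obtain ⟨i, _, hi⟩ := exists_pw ξ j rfl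
  have h : 2 * 3 ^ j + 2 * 3 ^ j + 2 * 3 ^ j = Det.w0 j := by rw [Det.w0]; ring
  refine ⟨(stdEven T.C).ext h ((stdEven T.C).ext rfl i i) i, inferInstanceAs
      (IsIso ((stdEven T.C).ext h ((stdEven T.C).ext rfl i i) i)), ?_⟩
  have h1 := ext_bar h ((stdEven T.C).ext rfl i i) i (prod (pw ξ j) (pw ξ j)) (pw ξ j)
  have h2 := ext_bar (show 2 * 3 ^ j + (2 * 3 ^ j + 2 * 3 ^ j) = Det.w0 j by omega) i
    ((stdEven T.C).ext rfl i i) (pw ξ j) (prod (pw ξ j) (pw ξ j))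
  rw [← ext_assoc rfl h, Category.assoc] at h2
  rw [ext_prod, hi, map_mul, map_pow, map_pow] at h1 h2
  rw [bp, ← h1, ← h2]
  exact (congrArg _ (Preadditive.comp_add _ _ _ _ _ _)).trans
    (map_add (DirectSum.of ((stdEven T.C).Gr _) _) _ _)

end Vale.Agent.P236K
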