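import Vale.Agent.P236K.Near
import Vale.Agent.P236Z.Det.T1Eq

/-!
# P236K: the cocycle `b_j` of the cobar complex of `H = HF_3` is not a coboundary
-/

open CategoryTheory MonoidalCategory MonObj Limits Pretriangulated

set_option linter.unusedSectionVars false

universe u

namespace Vale.Agent.P236K

open Vale.Agent.P251 Vale.Agent.P251.S Vale.Agent.P251.T Vale.Agent.P251.M Vale.Agent.P251.F
  Vale.Agent.P251.I EvenSpheres Vale.Agent.P257.H80 Vale.Agent.P251.H Vale.Agent.P236Z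

/-! ### the series `x + a x ^ 3` -/

section series

variable {A : Type*} [CommRing A]

/-- the coefficients of `x + a x ^ 3` -/
def sc (a : A) (m : ℕ) : A := if m = 1 then a else 0

theorem val_sc (a : A) :
    (strictMk (sc a)).val = PowerSeries.X + PowerSeries.C a * PowerSeries.X ^ 3 := by
  ext n
  rw [map_add, PowerSeries.coeff_X, PowerSeries.coeff_C_mul, PowerSeries.coeff_X_pow]
  rcases n with _ | n
  · rw [PowerSeries.coeff_zero_eq_constantCoeff_apply, InvSeries.cc]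
    simp
  · change (strictMk (sc a)).c n = _
    rcases n with _ | n
    · rw [c_zero_strictMk]
      simp
    · rw [c_succ_strictMk, sc, if_neg (show ¬ n + 1 + 1 = 1 by omega), zero_add]
      split_ifs <;> first | omega | simp

theorem val_sc_mul (a : A) (g : InvSeries A) :
    (strictMk (sc a) * g).val = g.val + PowerSeries.C a * g.val ^ 3 := by
  rw [InvSeries.mul_val, val_sc, PowerSeries.subst_add g.hs, PowerSeries.subst_mul g.hs,
    PowerSeries.subst_pow g.hs, PowerSeries.subst_X g.hs, PowerSeries.subst_C]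
  rfl

theorem sq_c (a : A) : (strictMk (sc a) * strictMk (sc a)).c 2 = 2 * a := by
  have h : (PowerSeries.X + PowerSeries.C a * PowerSeries.X ^ 3 : PowerSeries A) ^ 3 =
      PowerSeries.X ^ 3 + PowerSeries.X ^ 5 * (3 * PowerSeries.C a + 3 * PowerSeries.C a ^ 2 *
        PowerSeries.X ^ 2 + PowerSeries.C a ^ 3 * PowerSeries.X ^ 4) := by ring
  rw [InvSeries.c, val_sc_mul, val_sc, h]
  simp only [map_add, PowerSeries.coeff_C_mul, PowerSeries.coeff_X, PowerSeries.coeff_X_pow,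
    PowerSeries.coeff_X_pow_mul']
  simp
  ring

theorem cube_c (h3 : (3 : A) = 0) (a : A) {i : ℕ} (hi : i + 1 ≠ 26) :
    (strictMk (sc a) * (strictMk (sc a) * strictMk (sc a))).c (i + 1) = 0 := by
  have h4 : (3 : PowerSeries A) = 0 := by
    rw [← map_ofNat (PowerSeries.C (R := A)) 3, h3, map_zero]
  have cube : ∀ x y : PowerSeries A, (x + y) ^ 3 = x ^ 3 + y ^ 3 := fun x y => by
    linear_combination (x ^ 2 * y + x * y ^ 2) * h4
  have h : (strictMk (sc a) * (strictMk (sc a) * strictMk (sc a))).val =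
      PowerSeries.X + PowerSeries.C (a ^ 13) * PowerSeries.X ^ 27 := by
    rw [val_sc_mul, val_sc_mul, val_sc, map_pow]
    generalize PowerSeries.C a = c
    generalize (PowerSeries.X : PowerSeries A) = x
    rw [cube x, cube, cube x, mul_pow c (x ^ 3 + _), cube]
    linear_combination (c * x ^ 3 + c ^ 4 * x ^ 9) * h4
  rw [InvSeries.c, h, map_add, PowerSeries.coeff_X, PowerSeries.coeff_C_mul,
    PowerSeries.coeff_X_pow, if_neg (by omega), if_neg (by omega), mul_zero, add_zero]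

theorem pv_eq_zero {t : Finset (ℕ →₀ ℕ)} {w : ℤ} (ht : ∀ a ∈ t, Cob.degU a = w)
    (hw : ¬ (26 : ℤ) ∣ w) (n : (ℕ →₀ ℕ) → ℤ) {c : ℕ → A} (hc : ∀ i, i + 1 ≠ 26 → c i = 0) :
    pv t n c = 0 := by
  refine Finset.sum_eq_zero fun a ha => ?_
  obtain ⟨i, hi, h⟩ : ∃ i ∈ a.support, i + 1 ≠ 26 := by
    by_contra h
    push Not at h
    refine hw ?_
    rw [← ht a ha]
    exact Finset.dvd_sum fun i hi => by
      dsimp only
      rw [h i hi]
      exact Dvd.intro_left _ rfl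
  rw [Finsupp.prod, Finset.prod_eq_zero hi, smul_zero]
  rw [hc i h, zero_pow (Finsupp.mem_support_iff.1 hi)]

end series

variable {T : Type u} [Category.{0} T] [Preadditive T] [HasZeroObject T]
    [HasShift T ℤ] [∀ n : ℤ, (shiftFunctor T n).Additive] [Pretriangulated T] [IsTriangulated T]
    [MonoidalCategory T] [SymmetricCategory T] [TensorTriangulated T] [MonoidalClosed T]
    [HasCoproducts.{0} T] [HasProducts.{0} T] [StableCat T]
  {F : SpaceFunctor T} {e : F.S.obj CCF ≅ (stdEven T).L} {D : MUData T}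

section edges

variable (K : T) [MonObj K]

/-- the edge `a ⊗ b ↦ a ⊗ b ⊗ 1` -/
abbrev e01 : K ⊗ K ⟶ K ⊗ (K ⊗ K) := K ◁ inlM K K

/-- the edge `a ⊗ b ↦ a ⊗ 1 ⊗ b` -/
abbrev e02 : K ⊗ K ⟶ K ⊗ (K ⊗ K) := K ◁ inrM K K

/-- the edge `a ⊗ b ↦ 1 ⊗ a ⊗ b` -/
abbrev e12 : K ⊗ K ⟶ K ⊗ (K ⊗ K) := inrM K (K ⊗ K)

variable {K} {N : T} [MonObj N]

theorem inl_whisker {X Y Z : T} [MonObj Y] [MonObj Z] (f : Y ⟶ Z) [IsMonHom f] :
    inlM X Y ≫ X ◁ f = inlM X Z := by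
  rw [inlM, inlM, Category.assoc, ← MonoidalCategory.whiskerLeft_comp, IsMonHom.one_hom]

theorem inr_whisker {X Y Z : T} [MonObj X] (f : Y ⟶ Z) : inrM X Y ≫ X ◁ f = f ≫ inrM X Z := by
  rw [inrM, inrM, Category.assoc, ← whisker_exchange, leftUnitor_inv_naturality_assoc]

variable [IsCommMonObj N] (f g h : K ⟶ N) [IsMonHom f] [IsMonHom g] [IsMonHom h]

theorem e01_desc : e01 K ≫ descM f (descM g h) = descM f g := by
  apply hom_ext_tensor
  · rw [← Category.assoc, inl_whisker, inlM_descM, inlM_descM]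
  · rw [← Category.assoc, inr_whisker, Category.assoc, inrM_descM, inlM_descM, inrM_descM]

theorem e02_desc : e02 K ≫ descM f (descM g h) = descM f h := by
  apply hom_ext_tensor
  · rw [← Category.assoc, inl_whisker, inlM_descM, inlM_descM]
  · rw [← Category.assoc, inr_whisker, Category.assoc, inrM_descM, inrM_descM, inrM_descM]

theorem e12_desc : e12 K ≫ descM f (descM g h) = descM g h := inrM_descM _ _

omit [IsCommMonObj N] in
theorem inl_tensor {Y Y' : T} [MonObj Y] [MonObj Y'] (k : Y ⟶ Y') [IsMonHom k] :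
    inlM K Y ≫ (f ⊗ₘ k) = f ≫ inlM N Y' := by
  rw [MonoidalCategory.tensorHom_def, ← Category.assoc, inlM_whiskerRight, Category.assoc,
    inl_whisker]

omit [IsCommMonObj N] in
theorem inr_tensor {Y Y' : T} (k : Y ⟶ Y') : inrM K Y ≫ (f ⊗ₘ k) = k ≫ inrM N Y' := by
  rw [MonoidalCategory.tensorHom_def, ← Category.assoc, inrM_whiskerRight, inr_whisker]

omit [IsCommMonObj N] in
theorem e01_nat : e01 K ≫ (f ⊗ₘ (f ⊗ₘ f)) = (f ⊗ₘ f) ≫ e01 N := by
  rw [e01, e01, ← id_tensorHom, ← id_tensorHom, tensorHom_comp_tensorHom, tensorHom_comp_tensorHom,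
    inl_tensor, Category.id_comp, Category.comp_id]

omit [IsCommMonObj N] in
theorem e02_nat : e02 K ≫ (f ⊗ₘ (f ⊗ₘ f)) = (f ⊗ₘ f) ≫ e02 N := by
  rw [e02, e02, ← id_tensorHom, ← id_tensorHom, tensorHom_comp_tensorHom, tensorHom_comp_tensorHom,
    inr_tensor, Category.id_comp, Category.comp_id]

omit [IsCommMonObj N] in
theorem e12_nat : e12 K ≫ (f ⊗ₘ (f ⊗ₘ f)) = (f ⊗ₘ f) ≫ e12 N := inr_tensor f _

end edges

section classes

variable {K : T} [MonObj K] [IsCommMonObj K] (o : D.R ⟶ K) [IsMonHom o]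

/-- the class `ξ_1` -/
noncomputable def xi : HRing (stdEven T) (K ⊗ K) := (ser (o ≫ inlM K K) (o ≫ inrM K K)).c 2

theorem ser_congr {u u' v v' : D.R ⟶ K} [IsMonHom u] [IsMonHom u'] [IsMonHom v] [IsMonHom v']
    (h : u = v) (h' : u' = v') : ser u u' = ser v v' := by
  subst h h'
  rfl

theorem map_xi {N : T} [MonObj N] [IsCommMonObj N] (φ : K ⊗ K ⟶ N) [IsMonHom φ] {u u' : D.R ⟶ N}
    [IsMonHom u] [IsMonHom u'] (h : o ≫ inlM K K ≫ φ = u) (h' : o ≫ inrM K K ≫ φ = u') :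
    HRing.map φ (xi o) = (ser u u').c 2 := by
  rw [xi, ← InvSeries.c_map, ← ser_comp,
    ser_congr ((Category.assoc _ _ _).trans h) ((Category.assoc _ _ _).trans h')]

/-- `x ^ (2 q) y ^ q + x ^ q y ^ (2 q)` -/
def bp {A : Type*} [CommRing A] (q : ℕ) (x y : A) : A :=
  x ^ q * x ^ q * y ^ q + x ^ q * (y ^ q * y ^ q)

theorem map_bp {A A' : Type*} [CommRing A] [CommRing A'] (φ : A →+* A') (q : ℕ) (x y : A) :
    φ (bp q x y) = bp q (φ x) (φ y) := by
  simp only [bp, map_add, map_mul, map_pow]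

/-- the cocycle `b` -/
noncomputable def bel (q : ℕ) : HRing (stdEven T) (K ⊗ (K ⊗ K)) :=
  bp q (HRing.map (e01 K) (xi o)) (HRing.map (e12 K) (xi o))

theorem map_map {X Y Z : T} [MonObj X] [MonObj Y] [MonObj Z] (f : X ⟶ Y) (g : Y ⟶ Z) (h : X ⟶ Z)
    [IsMonHom f] [IsMonHom g] [IsMonHom h] (w : f ≫ g = h) (x : HRing (stdEven T) X) :
    HRing.map g (HRing.map f x) = HRing.map h x := by
  subst w
  rw [HRing.map_comp]
  rfl

theorem xi_nat {N : T} [MonObj N] [IsCommMonObj N] (f : K ⟶ N) [IsMonHom f] :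
    HRing.map (f ⊗ₘ f) (xi o) = xi (o ≫ f) :=
  map_xi o _ (by rw [inl_tensor, Category.assoc]) (by rw [inr_tensor, Category.assoc])

theorem bel_nat {N : T} [MonObj N] [IsCommMonObj N] (f : K ⟶ N) [IsMonHom f] (q : ℕ) :
    HRing.map (f ⊗ₘ (f ⊗ₘ f)) (bel o q) = bel (o ≫ f) q := by
  rw [bel, bel, map_bp, map_map _ _ _ (e01_nat f), map_map _ _ _ (e12_nat f), ← xi_nat,
    map_map _ _ _ rfl, map_map _ _ _ rfl]

theorem bel_val {N : T} [MonObj N] [IsCommMonObj N] (f g h : K ⟶ N) [IsMonHom f] [IsMonHom g]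
    [IsMonHom h] (q : ℕ) : HRing.map (descM f (descM g h)) (bel o q) =
      bp q ((ser (o ≫ f) (o ≫ g)).c 2) ((ser (o ≫ g) (o ≫ h)).c 2) := by
  rw [bel, map_bp, map_map _ _ _ (e01_desc f g h), map_map _ _ _ (e12_desc f g h),
    map_xi o _ (by rw [inlM_descM]) (by rw [inrM_descM]),
    map_xi o _ (by rw [inlM_descM]) (by rw [inrM_descM])]

theorem isHomog_xi : IsHomog (K ⊗ K) 2 (xi o) := P221.H246.isHomog_ser _ _ 1

theorem homog_map {N : T} [MonObj N] (f : K ⟶ N) [IsMonHom f] {w : ℤ} {x : HRing (stdEven T) K}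
    (h : IsHomog K w x) : IsHomog N w (HRing.map f x) := by
  obtain ⟨a, rfl⟩ := h
  exact ⟨_, HRing.map_of f w a⟩

theorem isHomog_bel (q : ℕ) {w : ℤ} (hw : w = 6 * q) : IsHomog (K ⊗ (K ⊗ K)) w (bel o q) := by
  have hx := (homog_map (e01 K) (isHomog_xi o)).pow q
  have hy := (homog_map (e12 K) (isHomog_xi o)).pow q
  obtain ⟨a, ha⟩ := (hx.mul hx rfl).mul hy (l := w) (by omega)
  obtain ⟨b, hb⟩ := hx.mul (hy.mul hy rfl) (l := w) (by omega)
  exact ⟨a + b, by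
    rw [bel, bp, ha, hb]
    exact (map_add (DirectSum.of ((stdEven T).Gr _) w) _ _).symm⟩

end classes

section HF

variable {H : T} [MonObj H] [IsCommMonObj H] {p : ℕ} [Fact p.Prime] (hH : Tr.IsHF p η[H])
  (u : D.R ⟶ H) [IsMonHom u]

include hH

omit [IsCommMonObj H] [Fact p.Prime] in
theorem odd_HF : X.Odd0 H := fun _ f => hH.conc _ (by omega) f

omit [Fact p.Prime] in
theorem intCast_HF (m : ℤ) : (m : HRing (stdEven T) H) = 0 ↔ (p : ℤ) ∣ m := by
  rw [← hH.ord, intCast_eq, ← Preadditive.comp_zsmul]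
  constructor
  · intro h
    have h1 := of_injective (h.trans (map_zero (DirectSum.of ((stdEven T).Gr H) 0)).symm)
    exact (cancel_epi _).1 (h1.trans comp_zero.symm)
  · intro h
    rw [h, comp_zero]
    exact map_zero _

theorem exists_beta {n : ℕ} {Q : X.PD D p n} (W : BD Q) :
    ∃ β : W.B ⟶ H, IsMonHom β ∧ W.b ≫ β = u := by
  have h1 := lawOf_add hH.conc u
  refine W.desc H u (odd_HF hH) (fun i _ => ?_) _ (h1.trans (haz_spZ p _).symm)
  rw [h1]
  exact P257.H604.vv_addLaw (by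
    have h := (intCast_HF hH (p : ℤ)).2 dvd_rfl
    rwa [Int.cast_natCast] at h) i

theorem near_beta {n : ℕ} (hn : n ≠ 0) {Q : X.PD D p n} (W : BD Q) (β : W.B ⟶ H) [IsMonHom β] :
    CofIn (BigCell T (2 * ((p : ℤ) ^ n - 1) + 1)) β ∧ BigCell T 0 W.B ∧ BigCell T 0 H := by
  have := locallySmall_self.{0} T
  have hm : (0 : ℤ) < (p : ℤ) ^ n - 1 := by
    have h5 : 1 < p ^ n := Nat.one_lt_pow hn (Fact.out : p.Prime).one_lt
    have h6 : (1 : ℤ) < (p : ℤ) ^ n := by exact_mod_cast h5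
    omega
  refine ⟨(cofIn_of_pi (p := p) (ηB := η[W.B]) (by rwa [IsMonHom.one_hom]) (fun k => W.pi_zero)
    (fun f => ?_) (char_of_vv W.b (W.vv_b (Nat.pos_of_ne_zero hn)))).mono
      fun _ h => P257.H762.bigCell_of_conn D.conn_unit h,
    P257.H762.bigCell_of_conn D.conn_unit fun k hk => W.pi_zero (by omega) (by omega),
    P257.H762.bigCell_of_conn D.conn_unit fun k hk => hH.conc k (by omega)⟩
  obtain ⟨a, ha⟩ := W.gen ((stdEven T).zero.inv ≫ f)
  exact ⟨a, (cancel_epi _).1 (ha.trans (Preadditive.comp_zsmul _ _ _).symm)⟩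

end HF

instance : Fact (Nat.Prime 3) := ⟨Nat.prime_three⟩

/-- **The cocycle `b_j` is not a coboundary.** -/
theorem not_cob (hD : MUUniv e D) {H : T} [MonObj H] [IsCommMonObj H] (hH : Tr.IsHF 3 η[H])
    (u : D.R ⟶ H) [IsMonHom u] (j : ℕ) {κ : ℤ} (hκ : ¬ 3 ∣ κ) {w : ℤ} (hw : w = 2 * 3 ^ (j + 1))
    (z₀ z₁ z₂ : (stdEven T).S w ⟶ H ⊗ H) :
    HRing.of (stdEven T) _ w (z₀ ≫ e12 H + z₁ ≫ e02 H + z₂ ≫ e01 H) ≠ κ • bel u (3 ^ j) := by
  intro hz
  obtain ⟨Q⟩ := X.exists_PD hD (p := 3) (by norm_num) (Nat.succ_ne_zero (j + 1))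
  obtain ⟨W⟩ := exists_BD hD (Nat.succ_ne_zero (j + 1)) Q
  obtain ⟨β, _, hβ⟩ := exists_beta hH u W
  obtain ⟨c1, cB, cH⟩ := near_beta hH (Nat.succ_ne_zero (j + 1)) W β
  have h3j : (1 : ℤ) < 3 ^ (j + 1) := one_lt_pow₀ (by norm_num) (Nat.succ_ne_zero j)
  have hlt : w < ((3 : ℕ) : ℤ) ^ (j + 1).succ - 1 := by
    rw [hw, Nat.succ_eq_add_one, pow_succ _ (j + 1)]
    push_cast
    omega
  have c2 := cofIn_tensor c1 c1 cH cB
  have c3 := cofIn_tensor c1 c2 cH (cB.tensor cB 0 (by simp))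
  obtain ⟨y₀, rfl⟩ := surj_of_cofIn (cofIn_conn D.conn_unit c2) (by omega) z₀
  obtain ⟨y₁, rfl⟩ := surj_of_cofIn (cofIn_conn D.conn_unit c2) (by omega) z₁
  obtain ⟨y₂, rfl⟩ := surj_of_cofIn (cofIn_conn D.conn_unit c2) (by omega) z₂
  obtain ⟨V, hV⟩ := isHomog_bel W.b (3 ^ j) (w := w) (by rw [hw]; push_cast; ring)
  have hy : y₀ ≫ e12 _ + y₁ ≫ e02 _ + y₂ ≫ e01 _ = κ • V := by
    refine inj_of_cofIn (cofIn_conn D.conn_unit c3) (by omega) (of_injective ?_)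
    have h1 : bel (W.b ≫ β) (3 ^ j) = bel u (3 ^ j) := by
      subst hβ
      rfl
    rw [Preadditive.add_comp, Preadditive.add_comp, Category.assoc, Category.assoc, Category.assoc,
      e12_nat, e02_nat, e01_nat, ← Category.assoc, ← Category.assoc, ← Category.assoc, hz, ← h1,
      ← bel_nat, hV, HRing.map_of, Preadditive.zsmul_comp]
    exact (map_zsmul (DirectSum.of ((stdEven T).Gr _) w) _ _).symm
  obtain ⟨t₀, n₀, ht₀, v₀⟩ := W.exists_val hD (Nat.succ_ne_zero _) hlt y₀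
  obtain ⟨t₁, n₁, ht₁, v₁⟩ := W.exists_val hD (Nat.succ_ne_zero _) hlt y₁
  obtain ⟨t₂, n₂, ht₂, v₂⟩ := W.exists_val hD (Nat.succ_ne_zero _) hlt y₂
  have hN : X.Odd0 (H ⊗ D.R) := odd_tensor hD u (odd_HF hH)
  have h3 : (3 : HRing (stdEven T) (H ⊗ D.R)) = 0 := by
    have h := (intCast_HF hH 3).2 dvd_rfl
    rw [← map_ofNat (HRing.map (inlM H D.R)) 3, ← Int.cast_ofNat, h, map_zero]
  set a := Z.bK D u 1 with ha
  set s := strictMk (sc a) with hs
  have step : ∀ (ψ : W.B ⟶ H ⊗ D.R) [IsMonHom ψ], lawOf (W.b ≫ ψ) = P251.F.addLaw _ →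
      ∃ (ψ' : W.B ⟶ H ⊗ D.R) (_ : IsMonHom ψ'), lawOf (W.b ≫ ψ') = P251.F.addLaw _ ∧
        ser (W.b ≫ ψ) (W.b ≫ ψ') = s := fun ψ _ hl => by
    obtain ⟨o, _, ho⟩ := exists_of_ser hD (W.b ≫ ψ) (sc a) fun m => by
      unfold sc
      split_ifs with h
      · subst h
        exact isHomog_bK u 1
      · exact ⟨0, (map_zero (DirectSum.of ((stdEven T).Gr _) _)).symm⟩
    have h1 : lawOf o = P251.F.addLaw _ := by
      rw [← ser_smul (W.b ≫ ψ) o, ho, hl,
        P257.H604.smul_addLaw_iff (p := 3) (by exact_mod_cast h3) (strictMk_mem _)]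
      rintro (_ | n) hn
      · exact absurd ⟨0, rfl⟩ hn
      · rw [c_succ_strictMk, sc, if_neg]
        rintro rfl
        exact hn ⟨1, rfl⟩
    obtain ⟨ψ', _, hψ⟩ := W.desc _ o hN (fun i _ => by
      rw [h1]
      exact P257.H604.vv_addLaw (by exact_mod_cast h3) i) _ (h1.trans (haz_spZ 3 _).symm)
    exact ⟨ψ', ‹_›, (lawOf_congr hψ).trans h1, (ser_congr rfl hψ).trans ho⟩
  obtain ⟨ψ₀, _, l0⟩ : ∃ (ψ : W.B ⟶ H ⊗ D.R) (_ : IsMonHom ψ),
      lawOf (W.b ≫ ψ) = P251.F.addLaw _ := ⟨β ≫ inlM H D.R, inferInstance, by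
    rw [lawOf_congr (Category.assoc _ _ _).symm, lawOf_comp, lawOf_add hH.conc, map_addLaw]⟩
  obtain ⟨ψ₁, _, l1, s01⟩ := step ψ₀ l0
  obtain ⟨ψ₂, _, l2, s12⟩ := step ψ₁ l1
  obtain ⟨ψ₃, _, l3, s23⟩ := step ψ₂ l2
  have s02 : ser (W.b ≫ ψ₀) (W.b ≫ ψ₂) = s * s := by
    rw [← P221.H246.ser_trans _ (W.b ≫ ψ₁), s01, s12]
  have s03 : ser (W.b ≫ ψ₀) (W.b ≫ ψ₃) = s * (s * s) := by
    rw [← P221.H246.ser_trans _ (W.b ≫ ψ₂), s02, s23]
  have E : ∀ (f g h : W.B ⟶ H ⊗ D.R) [IsMonHom f] [IsMonHom g] [IsMonHom h],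
      lawOf (W.b ≫ g) = P251.F.addLaw _ → lawOf (W.b ≫ h) = P251.F.addLaw _ →
      pv t₀ n₀ (fun i => (ser (W.b ≫ g) (W.b ≫ h)).c (i + 1)) +
        pv t₁ n₁ (fun i => (ser (W.b ≫ f) (W.b ≫ h)).c (i + 1)) +
        pv t₂ n₂ (fun i => (ser (W.b ≫ f) (W.b ≫ g)).c (i + 1)) =
      κ • bp (3 ^ j) ((ser (W.b ≫ f) (W.b ≫ g)).c 2) ((ser (W.b ≫ g) (W.b ≫ h)).c 2) := by
    intro f g h _ _ _ lg lh
    rw [← v₀ _ hN g h lh, ← v₁ _ hN f h lh, ← v₂ _ hN f g lg, ← bel_val, hV, HRing.map_of]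
    have h1 := congrArg (fun x => HRing.of (stdEven T) _ w (x ≫ descM f (descM g h))) hy
    simp only [Preadditive.add_comp, Preadditive.zsmul_comp, Category.assoc] at h1
    rw [e12_desc, e02_desc, e01_desc] at h1
    exact ((map_add (DirectSum.of ((stdEven T).Gr _) w) _ _).trans (congrArg (· + _)
      (map_add (DirectSum.of ((stdEven T).Gr _) w) _ _))).symm.trans
        (h1.trans (map_zsmul (DirectSum.of ((stdEven T).Gr _) w) _ _))
  have h26 : ¬ (26 : ℤ) ∣ w := by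
    rw [hw]
    intro h
    have h1 : (13 : ℤ) ∣ 3 ^ (j + 1) :=
      (mul_dvd_mul_iff_left (show (2 : ℤ) ≠ 0 by norm_num)).1 (by simpa using h)
    have h2 := (show Prime (13 : ℤ) from Nat.prime_iff_prime_int.1 (by norm_num)).dvd_of_dvd_pow h1
    norm_num at h2
  have z1 : ∀ {t} (_ : ∀ a ∈ t, Cob.degU a = w) (n), pv t n
      (fun i => (1 : InvSeries (HRing (stdEven T) (H ⊗ D.R))).c (i + 1)) = 0 := fun ht n =>
    pv_eq_zero ht h26 n fun i _ => InvSeries.c_one_succ i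
  have E1 := E ψ₀ ψ₀ ψ₁ l0 l1
  have E2 := E ψ₀ ψ₁ ψ₁ l1 l1
  have E3 := E ψ₀ ψ₂ ψ₂ l2 l2
  have E4 := E ψ₀ ψ₁ ψ₂ l1 l2
  have E5 := E ψ₀ ψ₂ ψ₃ l2 l3
  have hq : 3 ^ j ≠ 0 := by positivity
  have c1 : (1 : InvSeries (HRing (stdEven T) (H ⊗ D.R))).c 2 = 0 := InvSeries.c_one_succ 1
  have c2 : s.c 2 = a := c_succ_strictMk _ 1
  have c3 : (2 : HRing (stdEven T) (H ⊗ D.R)) ^ 3 ^ j = -1 := by
    rw [show (2 : HRing (stdEven T) (H ⊗ D.R)) = -1 by linear_combination h3]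
    exact Odd.neg_one_pow (Odd.pow (by decide))
  have c4 : (s * s).c 2 = 2 * a := sq_c a
  have c5 : pv t₁ n₁ (fun i => (s * (s * s)).c (i + 1)) = 0 :=
    pv_eq_zero ht₁ h26 n₁ fun i hi => cube_c h3 a hi
  simp only [ser_self, s01, s12, s23, s02, s03, z1 ht₀, z1 ht₂, c1, c2, bp, zero_pow hq, c4, c5,
    mul_pow, c3, zsmul_eq_mul] at E1 E2 E3 E4 E5
  have h4 : ((2 * κ : ℤ) : HRing (stdEven T) (H ⊗ D.R)) * a ^ (3 * 3 ^ j) = 0 := by
    push_cast
    linear_combination -E4 - E5 + E3 + 2 * E1 + E2 -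
      pv t₁ n₁ (fun i => s.c (i + 1)) * h3
  have h5 : (MvPolynomial.monomial (Finsupp.single 1 (3 * 3 ^ j)) ((2 * κ : ℤ) : _) :
      MvPolynomial ℕ (HRing (stdEven T) H)) = 0 := by
    apply (Z.epsK_bijective u hD).1
    rw [Z.epsH_monomial, map_intCast,
      Finsupp.prod_single_index (h := fun i m => Z.bK D u i ^ m) (pow_zero _), map_zero]
    exact h4
  have h6 := (intCast_HF hH _).1 (MvPolynomial.monomial_eq_zero.1 h5)
  exact hκ ((Int.prime_three.dvd_or_dvd h6).resolve_left (by norm_num))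

end Vale.Agent.P236K
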