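import Vale.Agent.P236K.ExS

/-!
# P236K: the two-skeleton of the homotopy orbits of an action of `ℤ / 3`

`E1 σ`: the mapping torus; `E2 h`: the quotient of `X × Δ` by the action on `X × ∂Δ`.
-/

open CategoryTheory MonoidalCategory Limits Filter Topology OnePoint
open Vale.Agent.P251.G Vale.Agent.P251.G.LC

noncomputable section

namespace Vale.Agent.P236K.Ex

/-- A cofibration with its strict cofibre. -/
structure Cs {A B U : LC} (j : A ⟶ B) (q : B ⟶ U) : Prop where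
  cofib : Cofib j
  epi : Epi q
  zero : j ≫ q = 0
  desc : ∀ {Z : LC} (f : B ⟶ Z), j ≫ f = 0 → ∃ k, q ≫ k = f

section Cs

variable {A B C D U Z : LC}

theorem Cs.of {j : A ⟶ B} {q : B ⟶ U} (hj : Cofib j) (hZ : IsZero Z) {k : A ⟶ Z} {l : Z ⟶ U}
    (h : IsPushout j k q l) : Cs j q where
  cofib := hj
  epi := ⟨fun _ _ e => h.hom_ext e (hZ.eq_of_src _ _)⟩
  zero := by rw [h.w, hZ.eq_of_src l 0, comp_zero]
  desc f hf := ⟨h.desc f 0 (by rw [hf, comp_zero]), h.inl_desc _ _ _⟩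

theorem Cs.pushout {i : A ⟶ B} {u : B ⟶ U} (hi : Cs i u) {f : A ⟶ C} {g : B ⟶ D} {j : C ⟶ D}
    (h : IsPushout i f g j) {q : D ⟶ U} (h1 : g ≫ q = u) (h2 : j ≫ q = 0) : Cs j q where
  cofib := hi.cofib.pushout h
  epi := by
    have := hi.epi
    exact epi_of_epi_fac h1
  zero := h2
  desc φ hφ := by
    obtain ⟨k, hk⟩ := hi.desc (g ≫ φ) (by rw [h.w_assoc, hφ, comp_zero])
    exact ⟨k, h.hom_ext (by rw [reassoc_of% h1, hk]) (by rw [reassoc_of% h2, hφ, zero_comp])⟩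

theorem Cs.exists_iso {j : A ⟶ B} {q : B ⟶ U} (h : Cs j q) :
    ∃ e : cof j ≅ U, cofMap j ≫ e.hom = q := by
  obtain ⟨k, hk⟩ := h.desc (cofMap j) (comp_cofMap j)
  have := h.epi
  exact ⟨⟨cofDesc j q h.zero, k, by
    rw [← cancel_epi (cofMap j), cofMap_cofDesc_assoc, hk, Category.comp_id], by
    rw [← cancel_epi q, reassoc_of% hk, cofMap_cofDesc, Category.comp_id]⟩,
    cofMap_cofDesc _ _ h.zero⟩

theorem Cs.fc {j : A ⟶ B} {q : B ⟶ U} (h : Cs j q) (hA : FC A) (hU : FC U) : FC B :=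
  FC.of_ext h.cofib hA h.exists_iso.choose hU

theorem Cs.of_range {j : A ⟶ B} {q : B ⟶ U} (h : Cs j q) {j' : C ⟶ B}
    (hj : Function.Injective (app j')) (e : Set.range (app j) = Set.range (app j')) : Cs j' q where
  cofib := h.cofib.of_range_eq hj e
  epi := h.epi
  zero := by rw [← isoOfRange_inv_comp h.cofib.injective' hj e, Category.assoc, h.zero, comp_zero]
  desc f hf := h.desc f (by
    rw [← isoOfRange_hom_comp h.cofib.injective' hj e, Category.assoc, hf, comp_zero])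

theorem whisker_zero (X : LC) : X ◁ (0 : A ⟶ B) = 0 :=
  tensor_ext fun x a => by rw [app_whiskerLeft_smash, app_zero, smash_infty_right, app_zero]

theorem zero_whisker (X : LC) : (0 : A ⟶ B) ▷ X = 0 :=
  tensor_ext fun x a => by rw [app_whiskerRight_smash, app_zero, smash_infty_left, app_zero]

theorem cs_open (X : LC) {z : Z → B} (hz : IsClosedEmbedding z) {u : U → B}
    (hu : IsOpenEmbedding u) (h : IsCompl (Set.range z) (Set.range u))
    (hc : Cofib (ofClosed z hz)) : Cs (X ◁ ofClosed z hz) (X ◁ ofOpen u hu) :=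
  Cs.of (hc.whiskerLeft' X) (by
    rw [IsZero.iff_id_eq_zero, ← MonoidalCategory.whiskerLeft_id, isZero_empty.eq_of_src (𝟙 _) 0,
      whisker_zero]) (isPushout_whiskerLeft X hc.injective'
      (isPushout_closed_open z hz u hu h isZero_empty 0 0))

theorem cs_iB (X : LC) : Cs (X ◁ iB) (X ◁ cO) := cs_open X _ _ isCompl_bs cofib_iB

/-- the two ends of the cylinder -/
def ends (X : LC) : sum X X ⟶ X ⊗ II := sumDesc (incl 0 X) (incl 1 X)

theorem app_sumDesc_inl {X Y : LC} (f : X ⟶ Z) (g : Y ⟶ Z) (x : X) :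
    app (sumDesc f g) (Sum.inl x : X ⊕ Y) = app f x :=
  congrArg (fun k => app k (x : OnePoint X)) (sumInl_desc f g)

theorem app_sumDesc_inr {X Y : LC} (f : X ⟶ Z) (g : Y ⟶ Z) (y : Y) :
    app (sumDesc f g) (Sum.inr y : X ⊕ Y) = app g y :=
  congrArg (fun k => app k (y : OnePoint Y)) (sumInr_desc f g)

theorem cs_ends (X : LC) : Cs (ends X) (X ◁ cI) := by
  have hc : IsClosed {y : II | y = (0 : unitInterval) ∨ y = (1 : unitInterval)} :=
    isClosed_singleton.union isClosed_singleton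
  have h0 : ∀ x : X, app (ends X) (Sum.inl x : X ⊕ X) =
      (((x, 0) : X × unitInterval) : OnePoint (X × unitInterval)) := fun x => app_sumDesc_inl _ _ x
  have h1 : ∀ x : X, app (ends X) (Sum.inr x : X ⊕ X) =
      (((x, 1) : X × unitInterval) : OnePoint (X × unitInterval)) := fun x => app_sumDesc_inr _ _ x
  refine (cs_open X (isClosedEmbedding_subι hc) isOpenEmbedding_sigmoid ?_
    (cofib_subι hc pndr_boundary_II)).of_range ?_ ?_
  · refine ⟨Set.disjoint_left.2 ?_, codisjoint_iff.2 (Set.eq_univ_of_forall fun t => ?_)⟩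
    · rintro _ ⟨⟨t, rfl | rfl⟩, rfl⟩ h <;> rw [unitInterval.range_sigmoid] at h
      exacts [lt_irrefl _ h.1, lt_irrefl _ h.2]
    · rcases eq_zero_or_one_or_sigmoid t with h | h | h
      exacts [Or.inl ⟨⟨t, Or.inl h⟩, rfl⟩, Or.inl ⟨⟨t, Or.inr h⟩, rfl⟩, Or.inr h]
  · have e : ends X = ofClosed (X := sum X X) (Y := X ⊗ II)
        (Sum.elim (fun x => (x, 0)) fun x => (x, 1))
        (IsClosedEmbedding.of_continuous_injective_isClosedMap (by fun_prop) (by
          rintro (a | a) (b | b) h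
          exacts [congrArg _ (congrArg Prod.fst h), absurd (congrArg Prod.snd h) zero_ne_one,
            absurd (congrArg Prod.snd h) one_ne_zero, congrArg _ (congrArg Prod.fst h)])
          (IsClosedMap.sumElim
            (Function.LeftInverse.isClosedEmbedding (f := Prod.fst) (fun _ => rfl) continuous_fst
              (by fun_prop)).isClosedMap
            (Function.LeftInverse.isClosedEmbedding (f := Prod.fst) (fun _ => rfl) continuous_fst
              (by fun_prop)).isClosedMap)) := by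
      apply hom_ext
      rintro (x | x)
      exacts [h0 x, h1 x]
    rw [e]
    exact injective_app_ofClosed _ _
  · ext p
    induction p using OnePoint.rec with
    | infty => exact ⟨fun _ => infty_mem_range _, fun _ => infty_mem_range _⟩
    | coe p =>
      constructor
      · rintro ⟨q, hq⟩
        induction q using OnePoint.rec with
        | infty => exact ⟨∞, (app_infty _).trans ((app_infty _).symm.trans hq)⟩
        | coe q =>
          obtain ⟨x, t, rfl | rfl⟩ := q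
          exacts [⟨_, (h0 x).trans hq⟩, ⟨_, (h1 x).trans hq⟩]
      · rintro ⟨q, hq⟩
        induction q using OnePoint.rec with
        | infty => exact ⟨∞, (app_infty _).trans ((app_infty _).symm.trans hq)⟩
        | coe q =>
          rcases q with x | x
          exacts [⟨OnePoint.some (x, ⟨0, Or.inl rfl⟩), (h0 x).symm.trans hq⟩,
            ⟨OnePoint.some (x, ⟨1, Or.inr rfl⟩), (h1 x).symm.trans hq⟩]

/-- descent along a finite family of maps which covers the target -/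
theorem exists_desc_fam {n : ℕ} (a : Fin (n + 1) → (A ⟶ D)) (hs : ∀ p, ∃ i x, app (a i) x = p)
    (f : Fin (n + 1) → (A ⟶ Z))
    (h : ∀ i j x y, app (a i) x = app (a j) y → app (f i) x = app (f j) y) :
    ∃ k : D ⟶ Z, ∀ i, a i ≫ k = f i := by
  choose s t hst using hs
  have hq : IsQuotientMap fun p : Fin (n + 1) × OnePoint A => app (a p.1) p.2 := by
    have hc : Continuous fun p : Fin (n + 1) × OnePoint A => app (a p.1) p.2 :=
      continuous_prod_of_discrete_left.2 fun i => continuous_app (a i)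
    exact hc.isClosedMap.isQuotientMap hc fun p => ⟨(s p, t p), hst p⟩
  have e : ∀ i x, app (f (s (app (a i) x))) (t (app (a i) x)) = app (f i) x :=
    fun i x => h _ _ _ _ (hst _)
  refine ⟨homMk (fun p => app (f (s p)) (t p)) (hq.continuous_iff.2 ?_) ?_,
    fun i => app_ext (e i)⟩
  · exact (continuous_prod_of_discrete_left.2 fun i => continuous_app (f i)).congr
      fun p : Fin (n + 1) × OnePoint A => (e p.1 p.2).symm
  · simpa only [app_infty] using e 0 ∞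

theorem bd_desc {X : LC} (f : Fin 3 → (X ⊗ II ⟶ Z))
    (h : ∀ k, incl 1 X ≫ f k = incl 0 X ≫ f (k + 1)) :
    ∃ g : X ⊗ BD ⟶ Z, ∀ k, X ◁ ed k ≫ g = f k := by
  have h' : ∀ k (x : X), app (f k) ((x, 1) : X × unitInterval) =
      app (f (k + 1)) ((x, 0) : X × unitInterval) :=
    fun k x => congrArg (fun g => app g (x : OnePoint X)) (h k)
  refine exists_desc_fam _ (fun p => ?_) f fun i j p q e => ?_
  · induction p using OnePoint.rec with
    | infty => exact ⟨0, ∞, app_infty _⟩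
    | coe p =>
      obtain ⟨k, t, e⟩ := exists_eF p.2
      exact ⟨k, OnePoint.some (p.1, t), congrArg OnePoint.some (Prod.ext rfl e)⟩
  · induction p using OnePoint.rec with
    | infty =>
      induction q using OnePoint.rec with
      | infty => rw [app_infty, app_infty]
      | coe q => exact absurd ((app_infty _).symm.trans e) (OnePoint.infty_ne_coe _)
    | coe p =>
      induction q using OnePoint.rec with
      | infty => exact absurd (e.trans (app_infty _)) (OnePoint.coe_ne_infty _)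
      | coe q =>
        obtain ⟨x, t⟩ := p
        obtain ⟨y, u⟩ := q
        obtain ⟨rfl, e2⟩ : x = y ∧ eF i t = eF j u := Prod.ext_iff.1 (OnePoint.coe_injective e)
        rcases eF_eq e2 with ⟨rfl, rfl⟩ | ⟨rfl, rfl, rfl⟩ | ⟨rfl, rfl, rfl⟩
        exacts [rfl, h' _ x, (h' _ x).symm]

theorem bd_ext {X P : LC} {f g : (X ⊗ BD) ⊗ P ⟶ Z}
    (h : ∀ k, (X ◁ ed k) ▷ P ≫ f = (X ◁ ed k) ▷ P ≫ g) : f = g := by
  apply hom_ext
  rintro ⟨⟨x, s⟩, p⟩
  obtain ⟨k, t, rfl⟩ := exists_eF s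
  exact congrArg (fun g => app g (OnePoint.some ((x, t), p))) (h k)

theorem bd_ext' {X : LC} {f g : X ⊗ BD ⟶ Z} (h : ∀ k, X ◁ ed k ≫ f = X ◁ ed k ≫ g) : f = g := by
  apply hom_ext
  rintro ⟨x, s⟩
  obtain ⟨k, t, rfl⟩ := exists_eF s
  exact congrArg (fun g => app g (OnePoint.some (x, t))) (h k)

theorem desc_unit {c : A ⟶ B} {φ : A ⟶ Z} (h : ∃ k : B ⊗ 𝟙_ LC ⟶ Z, c ▷ _ ≫ k = (ρ_ A).hom ≫ φ) :
    ∃ k : B ⟶ Z, c ≫ k = φ := by
  obtain ⟨k, hk⟩ := h
  exact ⟨(ρ_ B).inv ≫ k, by rw [rightUnitor_inv_naturality_assoc, hk, Iso.inv_hom_id_assoc]⟩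

theorem ext_unit {c : A ⟶ B}
    (h : ∀ f g : B ⊗ 𝟙_ LC ⟶ Z, c ▷ _ ≫ f = c ▷ _ ≫ g → f = g) {f g : B ⟶ Z}
    (e : c ≫ f = c ≫ g) : f = g := by
  rw [← cancel_epi (ρ_ B).hom]
  exact h _ _ (by rw [rightUnitor_naturality_assoc, rightUnitor_naturality_assoc, e])

end Cs

/-! ### the mapping torus -/

section E1

variable {X X' X'' P Z : LC} (σ : X ⟶ X)

/-- the mapping torus -/
def E1 : LC := (exists_pushout (ends X) (sumDesc (𝟙 X) σ) (cs_ends X).cofib.injective').choose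

/-- the cylinder -/
def cyl : X ⊗ II ⟶ E1 σ :=
  (exists_pushout (ends X) (sumDesc (𝟙 X) σ) (cs_ends X).cofib.injective').choose_spec.choose

/-- the fibre -/
def fib : X ⟶ E1 σ := (exists_pushout (ends X) (sumDesc (𝟙 X) σ)
  (cs_ends X).cofib.injective').choose_spec.choose_spec.choose

theorem po1 : IsPushout (ends X) (sumDesc (𝟙 X) σ) (cyl σ) (fib σ) :=
  (exists_pushout (ends X) (sumDesc (𝟙 X) σ)
    (cs_ends X).cofib.injective').choose_spec.choose_spec.choose_spec.1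

@[reassoc] theorem cyl_zero : incl 0 X ≫ cyl σ = fib σ := by
  rw [← sumInl_desc (incl 0 X) (incl 1 X), Category.assoc, ← ends, (po1 σ).w, sumInl_desc_assoc,
    Category.id_comp]

@[reassoc] theorem cyl_one : incl 1 X ≫ cyl σ = σ ≫ fib σ := by
  rw [← sumInr_desc (incl 0 X) (incl 1 X), Category.assoc, ← ends, (po1 σ).w, sumInr_desc_assoc]

theorem fib_homotopic : Homotopic (fib σ) (σ ≫ fib σ) := ⟨cyl σ, cyl_zero σ, cyl_one σ⟩

variable {σ}

theorem ext1 {f g : E1 σ ⊗ P ⟶ Z} (h : cyl σ ▷ P ≫ f = cyl σ ▷ P ≫ g) : f = g :=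
  (isPushout_whiskerRight P (cs_ends X).cofib.injective' (po1 σ)).hom_ext h (by
    rw [← cyl_zero, comp_whiskerRight, Category.assoc, Category.assoc, h])

theorem ext1' {f g : E1 σ ⟶ Z} (h : cyl σ ≫ f = cyl σ ≫ g) : f = g := ext_unit (fun _ _ => ext1) h

theorem desc1 (φ : (X ⊗ II) ⊗ P ⟶ Z) (h : incl 1 X ▷ P ≫ φ = (σ ≫ incl 0 X) ▷ P ≫ φ) :
    ∃ k : E1 σ ⊗ P ⟶ Z, cyl σ ▷ P ≫ k = φ := by
  refine ⟨(isPushout_whiskerRight P (cs_ends X).cofib.injective' (po1 σ)).desc φ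
    (incl 0 X ▷ P ≫ φ) ?_, IsPushout.inl_desc _ _ _ _⟩
  have h1 : sumInl X X ▷ P ≫ ends X ▷ P ≫ φ =
      sumInl X X ▷ P ≫ sumDesc (𝟙 X) σ ▷ P ≫ incl 0 X ▷ P ≫ φ := by
    rw [← comp_whiskerRight_assoc, ← comp_whiskerRight_assoc, ends, sumInl_desc, sumInl_desc,
      id_whiskerRight, Category.id_comp]
  have h2 : sumInr X X ▷ P ≫ ends X ▷ P ≫ φ =
      sumInr X X ▷ P ≫ sumDesc (𝟙 X) σ ▷ P ≫ incl 0 X ▷ P ≫ φ := by
    rw [← comp_whiskerRight_assoc, ← comp_whiskerRight_assoc, ends, sumInr_desc, sumInr_desc, h,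
      comp_whiskerRight, Category.assoc]
  apply hom_ext
  rintro ⟨x | x, p⟩
  exacts [congrArg (fun g => app g (OnePoint.some (x, p))) h1,
    congrArg (fun g => app g (OnePoint.some (x, p))) h2]

theorem desc1' (φ : X ⊗ II ⟶ Z) (h : incl 1 X ≫ φ = σ ≫ incl 0 X ≫ φ) :
    ∃ k : E1 σ ⟶ Z, cyl σ ≫ k = φ :=
  desc_unit (desc1 _ (by
    rw [rightUnitor_naturality_assoc, rightUnitor_naturality_assoc, h, Category.assoc]))

theorem incl_cI (t : unitInterval) (h : circ t = ∞) : incl t X ≫ X ◁ cI = 0 :=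
  hom_ext fun x => (congrArg (smash (x : OnePoint X)) h).trans (smash_infty_right _)

variable (σ) in
theorem exists_p1 : ∃ k : E1 σ ⟶ X ⊗ RR, cyl σ ≫ k = X ◁ cI :=
  desc1' _ (by rw [incl_cI 1 circ_one, incl_cI 0 circ_zero, comp_zero])

variable (σ) in
/-- the collapse of the fibre -/
def p1 : E1 σ ⟶ X ⊗ RR := (exists_p1 σ).choose

@[reassoc] theorem cyl_p1 : cyl σ ≫ p1 σ = X ◁ cI := (exists_p1 σ).choose_spec

variable (σ) in
theorem cs1 : Cs (fib σ) (p1 σ) :=
  (cs_ends X).pushout (po1 σ) cyl_p1 (by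
    rw [← cyl_zero, Category.assoc, cyl_p1, incl_cI 0 circ_zero])

variable {σ' : X' ⟶ X'} {σ'' : X'' ⟶ X''}

theorem exists_m1 (f : X ⟶ X') (hf : σ ≫ f = f ≫ σ') :
    ∃ k : E1 σ ⟶ E1 σ', cyl σ ≫ k = f ▷ II ≫ cyl σ' :=
  desc1' _ (by rw [incl_naturality_assoc, incl_naturality_assoc, cyl_one, cyl_zero, reassoc_of% hf])

/-- functoriality -/
def m1 (f : X ⟶ X') (hf : σ ≫ f = f ≫ σ') : E1 σ ⟶ E1 σ' := (exists_m1 f hf).choose

variable {f : X ⟶ X'} (hf : σ ≫ f = f ≫ σ')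

@[reassoc] theorem cyl_m1 : cyl σ ≫ m1 f hf = f ▷ II ≫ cyl σ' := (exists_m1 f hf).choose_spec

theorem fib_m1 : fib σ ≫ m1 f hf = f ≫ fib σ' := by
  rw [← cyl_zero, Category.assoc, cyl_m1, incl_naturality_assoc, cyl_zero]

theorem m1_p1 : m1 f hf ≫ p1 σ' = p1 σ ≫ f ▷ RR :=
  ext1' (by rw [cyl_m1_assoc, cyl_p1, cyl_p1_assoc, whisker_exchange])

theorem m1_comp {g : X' ⟶ X''} (hg : σ' ≫ g = g ≫ σ'') (h : σ ≫ f ≫ g = (f ≫ g) ≫ σ'') :
    m1 f hf ≫ m1 g hg = m1 (f ≫ g) h :=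
  ext1' (by rw [cyl_m1_assoc, cyl_m1, cyl_m1, comp_whiskerRight, Category.assoc])

theorem incl_flip (t : unitInterval) :
    incl t X ≫ X ◁ flip = incl (unitInterval.symm t) X := hom_ext fun _ => rfl

theorem exists_tau {τ : X ⟶ X} (h : σ ≫ τ ≫ σ = τ) :
    ∃ k : E1 σ ⟶ E1 σ, cyl σ ≫ k = τ ▷ II ≫ X ◁ flip ≫ cyl σ :=
  desc1' _ (by
    rw [incl_naturality_assoc, incl_naturality_assoc, reassoc_of% (incl_flip (X := X) 1),
      reassoc_of% (incl_flip (X := X) 0), unitInterval.symm_one, unitInterval.symm_zero, cyl_one,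
      cyl_zero, reassoc_of% h])

/-- the reflection of the mapping torus -/
def tau {τ : X ⟶ X} (h : σ ≫ τ ≫ σ = τ) : E1 σ ⟶ E1 σ := (exists_tau h).choose

variable {τ : X ⟶ X} (h : σ ≫ τ ≫ σ = τ)

@[reassoc] theorem cyl_tau : cyl σ ≫ tau h = τ ▷ II ≫ X ◁ flip ≫ cyl σ :=
  (exists_tau h).choose_spec

theorem fib_tau : fib σ ≫ tau h = τ ≫ σ ≫ fib σ := by
  rw [← cyl_zero, Category.assoc, cyl_tau, incl_naturality_assoc,
    reassoc_of% (incl_flip (X := X) 0), unitInterval.symm_zero, cyl_one, cyl_zero]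

theorem tau_p1 : tau h ≫ p1 σ = p1 σ ≫ τ ▷ RR ≫ X ◁ P251.H.negRR :=
  ext1' (by
    rw [cyl_tau_assoc, cyl_p1, cyl_p1_assoc, whisker_exchange_assoc,
      ← MonoidalCategory.whiskerLeft_comp, ← MonoidalCategory.whiskerLeft_comp, flip_cI])

theorem tau_m1 {τ' : X' ⟶ X'} (h' : σ' ≫ τ' ≫ σ' = τ') (e : τ ≫ f = f ≫ τ') :
    tau h ≫ m1 f hf = m1 f hf ≫ tau h' :=
  ext1' (by
    rw [cyl_tau_assoc, cyl_m1, cyl_m1_assoc, cyl_tau, whisker_exchange_assoc,
      ← comp_whiskerRight_assoc, ← comp_whiskerRight_assoc, e])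

end E1

/-! ### the two-skeleton -/

section E2

variable {X X' X'' P Z : LC} {σ : X ⟶ X} (h : σ ≫ σ ≫ σ = 𝟙 X)

variable (σ) in
/-- the powers of `σ` -/
def pw : Fin 3 → (X ⟶ X) := ![𝟙 X, σ, σ ≫ σ]

include h in
theorem pw_succ (k : Fin 3) : pw σ k ≫ σ = pw σ (k + 1) := by
  fin_cases k
  exacts [Category.id_comp _, rfl, (Category.assoc _ _ _).trans h]

include h in
theorem exists_cov : ∃ g : X ⊗ BD ⟶ E1 σ, ∀ k, X ◁ ed k ≫ g = pw σ k ▷ II ≫ cyl σ :=
  bd_desc _ fun k => by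
    rw [incl_naturality_assoc, incl_naturality_assoc, cyl_one, cyl_zero, ← pw_succ h,
      Category.assoc]

/-- the attaching map -/
def cov : X ⊗ BD ⟶ E1 σ := (exists_cov h).choose

@[reassoc] theorem ed_cov (k : Fin 3) : X ◁ ed k ≫ cov h = pw σ k ▷ II ≫ cyl σ :=
  (exists_cov h).choose_spec k

theorem rot_cov : (σ ⊗ₘ rotB) ≫ cov h = cov h := by
  refine bd_ext' fun k => ?_
  rw [tensorHom_def, Category.assoc, whisker_exchange_assoc,
    ← MonoidalCategory.whiskerLeft_comp_assoc, ed_cov]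
  fin_cases k
  · refine (congrArg (fun e => σ ▷ II ≫ X ◁ e ≫ cov h) ed_zero).trans ?_
    rw [ed_cov, ← comp_whiskerRight_assoc]
    exact congrArg (· ▷ II ≫ cyl σ) h
  · refine (congrArg (fun e => σ ▷ II ≫ X ◁ e ≫ cov h) ed_one).trans ?_
    rw [ed_cov, ← comp_whiskerRight_assoc]
    exact congrArg (· ▷ II ≫ cyl σ) (Category.comp_id σ)
  · refine (congrArg (fun e => σ ▷ II ≫ X ◁ e ≫ cov h) ed_two).trans ?_
    rw [ed_cov, ← comp_whiskerRight_assoc]
    rfl

/-- the two-skeleton -/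
def E2 : LC := (exists_pushout (X ◁ iB) (cov h) (cs_iB X).cofib.injective').choose

/-- the two-cell -/
def cell : X ⊗ DD ⟶ E2 h :=
  (exists_pushout (X ◁ iB) (cov h) (cs_iB X).cofib.injective').choose_spec.choose

/-- the inclusion of the mapping torus -/
def jj : E1 σ ⟶ E2 h :=
  (exists_pushout (X ◁ iB) (cov h) (cs_iB X).cofib.injective').choose_spec.choose_spec.choose

theorem po2 : IsPushout (X ◁ iB) (cov h) (cell h) (jj h) :=
  (exists_pushout (X ◁ iB) (cov h) (cs_iB X).cofib.injective').choose_spec.choose_spec.choose_spec.1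

@[reassoc] theorem cyl_jj : cyl σ ≫ jj h = X ◁ (ed 0 ≫ iB) ≫ cell h := by
  rw [MonoidalCategory.whiskerLeft_comp, Category.assoc, (po2 h).w, ed_cov_assoc]
  exact ((congrArg (· ≫ cyl σ ≫ jj h) (id_whiskerRight X II)).trans (Category.id_comp _)).symm

theorem fib_jj : fib σ ≫ jj h = vx X ≫ cell h := by
  rw [← cyl_zero, Category.assoc, cyl_jj, vx, Category.assoc]

theorem cell_rel (x : OnePoint X) (s : bs) : app (cell h) (smash (app σ x) (rot s.1 : sx)) =
    app (cell h) (smash x (s.1 : sx)) := by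
  have e : (σ ⊗ₘ rotB) ≫ X ◁ iB ≫ cell h = X ◁ iB ≫ cell h := by
    rw [(po2 h).w, reassoc_of% (rot_cov h)]
  have e2 := congrArg (fun g => app g (smash x (s : OnePoint bs))) e
  refine Eq.trans ?_ (e2.trans (congrArg (app (cell h)) (app_whiskerLeft_smash X iB x _)))
  exact congrArg (app (cell h)) ((congrArg (app (X ◁ iB))
    (app_tensorHom_smash σ rotB x (s : OnePoint bs))).trans (app_whiskerLeft_smash X iB _ _)).symm

variable {h}

theorem ext2 {f g : E2 h ⊗ P ⟶ Z} (e : cell h ▷ P ≫ f = cell h ▷ P ≫ g) : f = g :=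
  (isPushout_whiskerRight P (cs_iB X).cofib.injective' (po2 h)).hom_ext e (ext1 (by
    rw [← comp_whiskerRight_assoc, ← comp_whiskerRight_assoc, cyl_jj, comp_whiskerRight,
      Category.assoc, Category.assoc, e]))

theorem ext2' {f g : E2 h ⟶ Z} (e : cell h ≫ f = cell h ≫ g) : f = g :=
  ext_unit (fun _ _ => ext2) e

variable (h) in
theorem desc2 (φ : (X ⊗ DD) ⊗ P ⟶ Z) (e : ∀ (x : OnePoint X) (s : bs) (p : P),
    app φ (smash (smash (app σ x) (rot s.1 : sx)) p) = app φ (smash (smash x (s.1 : sx)) p)) :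
    ∃ k : E2 h ⊗ P ⟶ Z, cell h ▷ P ≫ k = φ := by
  have a : ∀ (x : OnePoint X) (t : unitInterval) (p : P),
      app ((X ◁ (ed 0 ≫ iB)) ▷ P ≫ φ) (smash (smash x (t : OnePoint II)) (p : OnePoint P)) =
        app φ (smash (smash x ((e0 t).1 : sx)) p) := fun x t p =>
    congrArg (app φ) ((app_whiskerRight_smash _ P _ _).trans
      (congrArg (smash · (p : OnePoint P)) (app_whiskerLeft_smash X _ x _)))
  obtain ⟨k, hk⟩ := desc1 (σ := σ) ((X ◁ (ed 0 ≫ iB)) ▷ P ≫ φ) (tensor_ext fun x p => by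
    rw [app_comp _ (_ ≫ φ), app_comp _ (_ ≫ φ), app_whiskerRight_smash, app_whiskerRight_smash,
      app_comp σ, app_incl, app_incl]
    refine (a _ _ _).trans (((e x (e0 1) p).symm.trans ?_).trans (a _ _ _).symm)
    exact congrArg (fun s : bs => app φ (smash (smash (app σ x) (s.1 : sx)) p)) rb_e0)
  refine ⟨(isPushout_whiskerRight P (cs_iB X).cofib.injective' (po2 h)).desc φ k
    (bd_ext fun i => ?_), IsPushout.inl_desc _ _ _ _⟩
  rw [← comp_whiskerRight_assoc (X ◁ ed i) (cov h), ed_cov, comp_whiskerRight, Category.assoc, hk]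
  refine tensor_ext₃ fun x t p => ?_
  rw [app_comp _ ((X ◁ (ed 0 ≫ iB)) ▷ P ≫ φ), app_whiskerRight_smash, app_whiskerRight_smash]
  refine Eq.trans ?_ (a _ _ _).symm
  fin_cases i
  · rfl
  · exact (e x (rb (rb (e0 t))) p).symm
  · exact ((e _ (rb (rb (e0 t))) p).trans (e x (rb (e0 t)) p)).symm

variable (h) in
theorem desc2' (φ : X ⊗ DD ⟶ Z) (e : ∀ (x : OnePoint X) (s : bs),
    app φ (smash (app σ x) (rot s.1 : sx)) = app φ (smash x (s.1 : sx))) :
    ∃ k : E2 h ⟶ Z, cell h ≫ k = φ :=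
  desc_unit (desc2 h _ fun x s _ => by
    rw [app_comp, app_comp]
    exact (congrArg (app φ) (app_rightUnitor_smash _ _)).trans
      ((e x s).trans (congrArg (app φ) (app_rightUnitor_smash _ _)).symm))

variable (h) in
/-- the collapse of the mapping torus -/
def q2 : E2 h ⟶ X ⊗ OD := (po2 h).desc (X ◁ cO) 0 (by rw [(cs_iB X).zero, comp_zero])

@[reassoc] theorem cell_q2 : cell h ≫ q2 h = X ◁ cO := (po2 h).inl_desc _ _ _

variable (h) in
theorem cs2 : Cs (jj h) (q2 h) := (cs_iB X).pushout (po2 h) cell_q2 ((po2 h).inr_desc _ _ _)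

variable {σ' : X' ⟶ X'} {σ'' : X'' ⟶ X''} (h) (h' : σ' ≫ σ' ≫ σ' = 𝟙 X')
  (h'' : σ'' ≫ σ'' ≫ σ'' = 𝟙 X'')

theorem exists_m2 (f : X ⟶ X') (hf : σ ≫ f = f ≫ σ') :
    ∃ k : E2 h ⟶ E2 h', cell h ≫ k = f ▷ DD ≫ cell h' :=
  desc2' h _ fun x s => by
    rw [app_comp, app_comp, app_whiskerRight_smash, app_whiskerRight_smash, ← app_comp σ f, hf]
    exact cell_rel h' _ s

/-- functoriality -/
def m2 (f : X ⟶ X') (hf : σ ≫ f = f ≫ σ') : E2 h ⟶ E2 h' := (exists_m2 h h' f hf).choose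

variable {f : X ⟶ X'} (hf : σ ≫ f = f ≫ σ')

@[reassoc] theorem cell_m2 : cell h ≫ m2 h h' f hf = f ▷ DD ≫ cell h' :=
  (exists_m2 h h' f hf).choose_spec

theorem jj_m2 : jj h ≫ m2 h h' f hf = m1 f hf ≫ jj h' :=
  ext1' (by rw [cyl_jj_assoc, cell_m2, cyl_m1_assoc, cyl_jj, whisker_exchange_assoc])

theorem m2_q2 : m2 h h' f hf ≫ q2 h' = q2 h ≫ f ▷ OD :=
  ext2' (by rw [cell_m2_assoc, cell_q2, cell_q2_assoc, whisker_exchange])

theorem exists_eB : ∃ g : X ⊗ BD ⟶ X ⊗ RR, ∀ k, X ◁ ed k ≫ g = ![X ◁ cI, 0, 0] k :=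
  bd_desc _ fun k => by
    fin_cases k
    exacts [(incl_cI 1 circ_one).trans comp_zero.symm, comp_zero.trans comp_zero.symm,
      comp_zero.trans (incl_cI 0 circ_zero).symm]

end E2

end Vale.Agent.P236K.Ex
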