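import Vale.Agent.P236K.Ex1
import Vale.Agent.P251.G.FinSum
import Vale.Agent.P251.G.Retract
import Vale.Agent.P251.I.Spaces

/-!
# P236K: cyclic cubes and the diagonal of the cone
-/

open CategoryTheory MonoidalCategory Limits Filter Topology OnePoint
open Vale.Agent.P251.G Vale.Agent.P251.G.LC

noncomputable section

namespace Vale.Agent.P236K.Ex

/-! ### finiteness -/

/-- the interior of the triangle is a plane -/
def plane : os ≃ₜ ℝ × ℝ where
  toFun s := ((lam (s, 0)).2.1 - (lam (s, 0)).1, (lam (s, 0)).2.2 - (lam (s, 0)).1)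
  invFun y := (lam.symm (0, y)).1
  left_inv s := by
    refine (congrArg (fun y => (lam.symm y).1) ?_).trans
      (congrArg Prod.fst (lam.symm_apply_apply (s, -Real.log s.1.1.1)))
    refine Prod.ext ?_ (Prod.ext ?_ ?_) <;> simp [lam] <;> ring
  right_inv y := by
    have h := lam.apply_symm_apply (0, y)
    dsimp only
    generalize lam.symm (0, y) = p at h
    have h1 : p.2 + Real.log p.1.1.1.1 = 0 := congrArg Prod.fst h
    have h2 : p.2 + Real.log p.1.1.1.2.1 = y.1 := congrArg (fun q => q.2.1) h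
    have h3 : p.2 + Real.log p.1.1.1.2.2 = y.2 := congrArg (fun q => q.2.2) h
    refine Prod.ext ?_ ?_
    · change 0 + Real.log p.1.1.1.2.1 - (0 + Real.log p.1.1.1.1) = y.1
      linarith
    · change 0 + Real.log p.1.1.1.2.2 - (0 + Real.log p.1.1.1.1) = y.2
      linarith
  continuous_toFun := by
    have h : Continuous fun s : os => lam (s, 0) := lam.continuous.comp (by fun_prop)
    exact (h.snd.fst.sub h.fst).prodMk (h.snd.snd.sub h.fst)
  continuous_invFun := (lam.symm.continuous.comp (by fun_prop)).fst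

theorem fc_OD : FC OD := (fcRR.tensor fcRR).of_homeo (Y := OD) plane.symm

variable {X Y Z V W : LC}

theorem incl_prLC (t : unitInterval) (X : LC) : incl t X ≫ P251.H.prLC X = 𝟙 X :=
  hom_ext fun _ => rfl

theorem fc_II (h : FC X) : FC (X ⊗ II) := (cs_ends X).fc (h.sum h) h.susp

theorem fc_E1 (h : FC X) (σ : X ⟶ X) : FC (E1 σ) := (cs1 σ).fc h h.susp

theorem fc_E2 (hX : FC X) {σ : X ⟶ X} (h : σ ≫ σ ≫ σ = 𝟙 X) : FC (E2 h) :=
  (cs2 h).fc (fc_E1 hX σ) (hX.tensor fc_OD)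

theorem eF_succ (k : Fin 3) : eF k 1 = eF (k + 1) 0 := by
  fin_cases k
  exacts [congrArg (rb ∘ rb) rb_e0, congrArg rb rb_e0, rb_e0]

theorem fc_BD : FC BD := by
  let P : LC := finProd (𝟙_ LC) 3
  let s : P ⟶ P := ofCompact (X := LC.of (Fin 3 × Unit)) (Y := P) (fun p => (p.1 + 1, p.2))
    continuous_of_discreteTopology
  obtain ⟨a, ha⟩ := desc1' (σ := s) (Z := 𝟙_ LC ⊗ BD)
    (ofCompact (X := LC.of ((Fin 3 × Unit) × unitInterval)) (Y := LC.of (Unit × bs))
      (fun p => ((), eF p.1.1 p.2)) (continuous_const.prodMk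
        (continuous_prod_of_discrete_left.2 fun p => continuous_eF p.1)))
    (hom_ext fun p => congrArg (fun u : bs => OnePoint.some (((), u) : Unit × bs)) (eF_succ p.1))
  obtain ⟨b, hb⟩ := bd_desc (X := 𝟙_ LC) (fun k => finIncl _ 3 k ▷ II ≫ cyl s) fun k => by
    rw [incl_naturality_assoc, incl_naturality_assoc, cyl_one, cyl_zero, ← Category.assoc]
    exact congrArg (· ≫ fib s) (hom_ext fun _ => rfl)
  refine ((fc_E1 (fc_finProd FC.unit 3) s).of_iso ⟨a, b, ext1' ?_, bd_ext' fun k => ?_⟩).of_iso (λ_ _)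
  · rw [reassoc_of% ha]
    apply hom_ext
    rintro ⟨⟨k, u⟩, t⟩
    exact congrArg (fun g => app g (OnePoint.some (u, t))) (hb k)
  · rw [reassoc_of% (hb k), ha]
    exact hom_ext fun _ => rfl

/-! ### cubes -/

/-- the cube -/
abbrev cube (X : LC) : LC := X ⊗ (X ⊗ X)

/-- the cube of a map -/
abbrev c3 (f : X ⟶ Y) : cube X ⟶ cube Y := f ⊗ₘ (f ⊗ₘ f)

/-- the cyclic permutation -/
def cyc (X : LC) : cube X ⟶ cube X := (β_ X (X ⊗ X)).hom ≫ (α_ X X X).hom

theorem cyc3 (X : LC) : cyc X ≫ cyc X ≫ cyc X = 𝟙 _ := hom_ext fun _ => rfl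

theorem app_cyc (a b c : OnePoint X) :
    app (cyc X) (smash a (smash b c)) = smash b (smash c a) :=
  (congrArg _ (app_braiding_smash X (X ⊗ X) a _)).trans (app_associator_smash X X X b c a)

theorem cyc_c3 (f : X ⟶ Y) : cyc X ≫ c3 f = c3 f ≫ cyc Y :=
  hom_ext fun p => (app_cyc (app f p.1) (app f p.2.1) (app f p.2.2)).symm

theorem cyc_tw (X : LC) : cyc X ≫ X ◁ (β_ X X).hom ≫ cyc X = X ◁ (β_ X X).hom :=
  hom_ext fun _ => rfl

theorem tw_c3 (f : X ⟶ Y) : X ◁ (β_ X X).hom ≫ c3 f = c3 f ≫ Y ◁ (β_ Y Y).hom := by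
  rw [whiskerLeft_comp_tensorHom, tensorHom_comp_whiskerLeft, BraidedCategory.braiding_naturality]

theorem c3_comp (f : X ⟶ Y) (g : Y ⟶ Z) : c3 f ≫ c3 g = c3 (f ≫ g) := by
  rw [tensorHom_comp_tensorHom, tensorHom_comp_tensorHom]

/-- the shuffle -/
def sh3 (X Y : LC) : cube X ⊗ cube Y ⟶ cube (X ⊗ Y) :=
  tensorμ X (X ⊗ X) Y (Y ⊗ Y) ≫ (X ⊗ Y) ◁ tensorμ X X Y Y

instance (X Y : LC) : IsIso (sh3 X Y) :=
  ⟨(X ⊗ Y) ◁ tensorδ X X Y Y ≫ tensorδ X (X ⊗ X) Y (Y ⊗ Y), hom_ext fun _ => rfl,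
    hom_ext fun _ => rfl⟩

theorem sh3_nat (X : LC) (f : Y ⟶ Z) : sh3 X Y ≫ c3 (X ◁ f) = cube X ◁ c3 f ≫ sh3 X Z := by
  rw [sh3, sh3, tensorμ_natural_right_assoc, Category.assoc, whiskerLeft_comp_tensorHom,
    tensorHom_comp_whiskerLeft, tensorμ_natural_right]

/-- a map to `cube Z ⊗ DD`, spread over the cube of `W` -/
def spread (W : LC) (m : X ⊗ Y ⟶ cube Z ⊗ DD) : (cube W ⊗ X) ⊗ Y ⟶ cube (W ⊗ Z) ⊗ DD :=
  (α_ _ _ _).hom ≫ cube W ◁ m ≫ (α_ _ _ _).inv ≫ sh3 W Z ▷ DD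

theorem spread_coll (W : LC) : spread W mD ≫ c3 (W ◁ collHH) ▷ DD =
    (cube W ⊗ DD) ◁ collHH ≫ (cube W ◁ cO) ▷ RR ≫ spread W lD := by
  simp only [spread, Category.assoc]
  rw [← comp_whiskerRight, sh3_nat, comp_whiskerRight, ← associator_inv_naturality_middle_assoc,
    ← MonoidalCategory.whiskerLeft_comp_assoc, mD_coll, tensorHom_def',
    associator_naturality_middle_assoc, associator_naturality_right_assoc]
  simp only [MonoidalCategory.whiskerLeft_comp, Category.assoc]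

/-- the identification of the top cells -/
def kap (W : LC) : (cube W ⊗ OD) ⊗ RR ≅ cube (W ⊗ RR) :=
  α_ _ _ _ ≪≫ whiskerLeftIso _ (ofHomeo (X := LC.of (os × ℝ)) (Y := LC.of (ℝ × ℝ × ℝ)) lam) ≪≫
    asIso (sh3 W RR)

theorem spread_prD (W : LC) : spread W lD ≫ prD _ = (kap W).hom := hom_ext fun _ => rfl

/-- the cube of a map on the two-skeleta -/
abbrev m3 (f : X ⟶ Y) : E2 (cyc3 X) ⟶ E2 (cyc3 Y) := m2 (cyc3 X) (cyc3 Y) (c3 f) (cyc_c3 f)

/-- **The diagonal of the cone.** -/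
theorem exists_diag (g : W ⟶ V) : ∃ D : cone (m3 g) ⟶ E2 (cyc3 (cone g)),
    coneInr _ ≫ D = m3 (coneInr g) ∧ D ≫ m3 (coneConn g) =
      coneConn _ ≫ q2 _ ▷ RR ≫ spread W lD ≫ cell (cyc3 _) := by
  have a : ∀ (x y z : W) (s : sx) (r : NNReal),
      app (spread W mD ≫ c3 (coneInl g) ▷ DD ≫ cell (cyc3 _))
        (OnePoint.some (((x, y, z), s), r)) = app (cell (cyc3 _))
          (smash (smash (app (coneInl g) (OnePoint.some (x, (mF (s, r)).1.1)))
            (smash (app (coneInl g) (OnePoint.some (y, (mF (s, r)).1.2.1)))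
              (app (coneInl g) (OnePoint.some (z, (mF (s, r)).1.2.2))))) (s : OnePoint sx)) :=
    fun _ _ _ _ _ => rfl
  obtain ⟨k, hk⟩ := desc2 (cyc3 W) (P := HH)
    (spread W mD ≫ c3 (coneInl g) ▷ DD ≫ cell (cyc3 _)) fun x s r => by
      induction x using OnePoint.rec with
      | infty => rw [app_infty]; rfl
      | coe x =>
        refine (a x.2.1 x.2.2 x.1 (rot s.1) r).trans (Eq.trans ?_ (a x.1 x.2.1 x.2.2 s.1 r).symm)
        rw [← cell_rel (cyc3 _) _ s, app_cyc]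
        rfl
  have b : ∀ x : W, app (coneInl g) (OnePoint.some (x, (0 : NNReal))) =
      app (coneInr g) (app g x) := fun x => congrArg (fun f => app f (x : OnePoint W)) (cone_w g)
  refine ⟨(isPushout_cone _).desc k (m3 (coneInr g)) (ext2' ?_), IsPushout.inr_desc _ _ _ _,
    cone_hom_ext _ ?_ ?_⟩
  · rw [← coneBase_naturality_assoc, hk, cell_m2_assoc, cell_m2, ← comp_whiskerRight_assoc, c3_comp]
    apply hom_ext
    rintro ⟨⟨x, y, z⟩, s⟩
    refine (a x y z s 0).trans ?_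
    rw [show (mF (s, 0)).1.1 = 0 from zero_mul _, show (mF (s, 0)).1.2.1 = 0 from zero_mul _,
      show (mF (s, 0)).1.2.2 = 0 from zero_mul _, b, b, b]
    rfl
  · rw [IsPushout.inl_desc_assoc, coneInl_conn_assoc]
    refine ext2 ?_
    rw [reassoc_of% hk, cell_m2, ← comp_whiskerRight_assoc, c3_comp, coneInl_conn,
      reassoc_of% (spread_coll W), ← whisker_exchange_assoc, ← comp_whiskerRight_assoc, cell_q2]
  · rw [IsPushout.inr_desc_assoc, coneInr_conn_assoc, zero_comp]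
    refine ext2' ?_
    rw [cell_m2_assoc, cell_m2, ← comp_whiskerRight_assoc, c3_comp, coneInr_conn, c3,
      tensorHom_def, zero_whisker, zero_comp, zero_whisker, zero_comp, comp_zero]

end Vale.Agent.P236K.Ex
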