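import Vale.Agent.P236K.Ex2
import Vale.Agent.P236Z.Tr.Fac
import Vale.Agent.P257.H104.DSum

/-!
# P236K: the extended cube in the stable homotopy category

`EP F`: the properties of the objects `S (E1 X³)`, `S (E2 X³)`; `nonempty_ep`.
-/

open CategoryTheory MonoidalCategory Limits Pretriangulated OnePoint
open Vale.Agent.P251 Vale.Agent.P251.G Vale.Agent.P251.G.LC Vale.Agent.P251.I Vale.Agent.P251.T
  Vale.Agent.P251.H Vale.Agent.P251.M Vale.Agent.P236Z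

universe v u

noncomputable section

namespace Vale.Agent.P236K.Ex

variable {T : Type u} [Category.{v} T] [Preadditive T] [HasZeroObject T]
    [HasShift T ℤ] [∀ n : ℤ, (shiftFunctor T n).Additive] [Pretriangulated T]
    [MonoidalCategory T] [SymmetricCategory T] [TensorTriangulated T] (F : SpaceFunctor T)

/-- the cube -/
abbrev t3 (X : T) : T := X ⊗ (X ⊗ X)

/-- the cube of a map -/
abbrev f3 {X Y : T} (f : X ⟶ Y) : t3 X ⟶ t3 Y := f ⊗ₘ (f ⊗ₘ f)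

/-- the cyclic permutation -/
def cy (X : T) : t3 X ⟶ t3 X := (β_ X (X ⊗ X)).hom ≫ (α_ X X X).hom

/-- the suspension -/
def sR (X : T) : X ⊗ F.S.obj RRF ≅ X⟦(1 : ℤ)⟧ :=
  whiskerLeftIso X F.line ≪≫ TensorTriangulated.e X

@[reassoc] theorem sR_nat {X Y : T} (f : X ⟶ Y) :
    f ▷ _ ≫ (sR F Y).hom = (sR F X).hom ≫ f⟦(1 : ℤ)⟧' := by
  simp only [sR, Iso.trans_hom, whiskerLeftIso_hom, Category.assoc]
  rw [← TensorTriangulated.e_naturality, whisker_exchange_assoc]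

/-- The extended cube. -/
structure EP where
  /-- the interior of the triangle -/
  O : T
  /-- it is a two-sphere -/
  eO : O ≅ (𝟙_ T)⟦(2 : ℤ)⟧
  /-- the one-skeleton -/
  A : FCat → T
  /-- the two-skeleton -/
  B : FCat → T
  /-- functoriality -/
  a : ∀ {X Y : FCat}, (X ⟶ Y) → (A X ⟶ A Y)
  /-- functoriality -/
  b : ∀ {X Y : FCat}, (X ⟶ Y) → (B X ⟶ B Y)
  /-- the fibre -/
  fb : ∀ X : FCat, t3 (F.S.obj X) ⟶ A X
  /-- the one-cell -/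
  p : ∀ X : FCat, A X ⟶ t3 (F.S.obj X) ⊗ F.S.obj RRF
  /-- the inclusion -/
  j : ∀ X : FCat, A X ⟶ B X
  /-- the two-cell -/
  q : ∀ X : FCat, B X ⟶ t3 (F.S.obj X) ⊗ O
  /-- the first connecting map -/
  d₁ : ∀ X : FCat, t3 (F.S.obj X) ⊗ F.S.obj RRF ⟶ (t3 (F.S.obj X))⟦(1 : ℤ)⟧
  /-- the second connecting map -/
  d₂ : ∀ X : FCat, t3 (F.S.obj X) ⊗ O ⟶ (A X)⟦(1 : ℤ)⟧
  /-- the reflection -/
  τ : ∀ X : FCat, A X ⟶ A X
  D₁ : ∀ X, Dist (fb X) (p X) (d₁ X)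
  D₂ : ∀ X, Dist (j X) (q X) (d₂ X)
  fb_a : ∀ {X Y : FCat} (f : X ⟶ Y), fb X ≫ a f = f3 (F.S.map f) ≫ fb Y
  a_p : ∀ {X Y : FCat} (f : X ⟶ Y), a f ≫ p Y = p X ≫ f3 (F.S.map f) ▷ _
  j_b : ∀ {X Y : FCat} (f : X ⟶ Y), j X ≫ b f = a f ≫ j Y
  b_q : ∀ {X Y : FCat} (f : X ⟶ Y), b f ≫ q Y = q X ≫ f3 (F.S.map f) ▷ _
  d₁_nat : ∀ {X Y : FCat} (f : X ⟶ Y),
    f3 (F.S.map f) ▷ _ ≫ d₁ Y = d₁ X ≫ (f3 (F.S.map f))⟦(1 : ℤ)⟧'
  d₂_nat : ∀ {X Y : FCat} (f : X ⟶ Y), f3 (F.S.map f) ▷ _ ≫ d₂ Y = d₂ X ≫ (a f)⟦(1 : ℤ)⟧'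
  inv : ∀ (X : FCat) {Z : T} (x : t3 (F.S.obj X) ⟶ Z), cy _ ≫ x = x → d₁ X ≫ x⟦(1 : ℤ)⟧' = 0
  cy_fb : ∀ X, cy _ ≫ fb X = fb X
  norm : ∀ X, ∃ Γ r, d₂ X ≫ (p X)⟦(1 : ℤ)⟧' = (𝟙 _ + r + r ≫ r) ≫ Γ ∧
    r ≫ r ≫ r = 𝟙 (t3 (F.S.obj X) ⊗ O)
  fb_τ : ∀ X, fb X ≫ τ X = _ ◁ (β_ _ _).hom ≫ fb X
  τ_p : ∀ X, τ X ≫ p X = -p X ≫ (_ ◁ (β_ _ _).hom) ▷ _
  τ_a : ∀ {X Y : FCat} (f : X ⟶ Y), τ X ≫ a f = a f ≫ τ Y
  diag : ∀ {W V : FCat} (g : W ⟶ V), ∃ (K : T) (i : B V ⟶ K) (c : K ⟶ B W ⊗ F.S.obj RRF)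
    (D : K ⟶ B (coneF g)) (κ : (t3 (F.S.obj W) ⊗ O) ⊗ F.S.obj RRF ≅ t3 (F.S.obj (W ⊗ RRF))),
      Dist (b g) i (c ≫ (sR F _).hom) ∧ i ≫ D = b (coneInrF g) ∧
        D ≫ b (coneConnF g) = c ≫ q W ▷ _ ≫ κ.hom ≫ fb _ ≫ j _

section cd

variable {A B U A' B' U' : FCat} {j : A ⟶ B} {q : B ⟶ U} {j' : A' ⟶ B'} {q' : B' ⟶ U'}

/-- the connecting map -/
def cd (h : Cs j.hom q.hom) : F.S.obj U ⟶ (F.S.obj A)⟦(1 : ℤ)⟧ :=
  F.S.map (FCat.hom h.exists_iso.choose.inv : U ⟶ cofF j h.cofib) ≫ F.cofδ j h.cofib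

theorem q_inv (h : Cs j.hom q.hom) : q.hom ≫ h.exists_iso.choose.inv = cofMap j.hom :=
  (Iso.comp_inv_eq _).2 h.exists_iso.choose_spec.symm

theorem dist_cd (h : Cs j.hom q.hom) : Dist (F.S.map j) (F.S.map q) (cd F h) :=
  Dist.of_iso₃ (F.cof_distinguished j h.cofib)
    (F.S.mapIso (fcIso (X := cofF j h.cofib) (Y := U) h.exists_iso.choose)).inv
    (S_comp_eq F _ _ _ (q_inv h)) rfl

theorem cd_nat (h : Cs j.hom q.hom) (h' : Cs j'.hom q'.hom) (a : A ⟶ A') (b : B ⟶ B')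
    (c : U ⟶ U') (w₁ : j.hom ≫ b.hom = a.hom ≫ j'.hom) (w₂ : q.hom ≫ c.hom = b.hom ≫ q'.hom) :
    F.S.map c ≫ cd F h' = cd F h ≫ (F.S.map a)⟦(1 : ℤ)⟧' := by
  have e := F.cofδ_naturality j h.cofib j' h'.cofib a b (ObjectProperty.hom_ext _ w₁)
    (FCat.hom (h.exists_iso.choose.hom ≫ c.hom ≫ h'.exists_iso.choose.inv)) (by
      change _ ≫ _ ≫ _ = _
      rw [reassoc_of% h.exists_iso.choose_spec, reassoc_of% w₂, q_inv h'])
  rw [cd, cd, Category.assoc, ← e, ← Functor.map_comp_assoc, ← Functor.map_comp_assoc]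
  congr 2
  exact ObjectProperty.hom_ext _ (Iso.inv_hom_id_assoc _ _).symm

end cd

/-- the cube -/
abbrev cu (X : FCat) : FCat := X ⊗ (X ⊗ X)

/-- the interior of the triangle -/
abbrev ODF : FCat := ⟨OD, fc_OD⟩

/-- the one-skeleton -/
abbrev A1 (X : FCat) : FCat := ⟨E1 (cyc X.obj), fc_E1 (cu X).2 _⟩

/-- the two-skeleton -/
abbrev A2 (X : FCat) : FCat := ⟨E2 (cyc3 X.obj), fc_E2 (cu X).2 _⟩

/-- the cube of the suspension spectrum -/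
def mu3 (X : FCat) : t3 (F.S.obj X) ≅ F.S.obj (cu X) :=
  whiskerLeftIso _ (Tr.mu F X X) ≪≫ Tr.mu F X (X ⊗ X)

@[reassoc] theorem mu3_nat {X Y : FCat} (f : X ⟶ Y) :
    (mu3 F X).hom ≫ F.S.map (f ⊗ₘ (f ⊗ₘ f)) = f3 (F.S.map f) ≫ (mu3 F Y).hom := by
  simp only [mu3, Iso.trans_hom, whiskerLeftIso_hom, Functor.Monoidal.μIso_hom, Category.assoc]
  rw [← Functor.LaxMonoidal.μ_natural, whiskerLeft_comp_tensorHom_assoc,
    ← Functor.LaxMonoidal.μ_natural, tensorHom_comp_whiskerLeft_assoc]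

@[reassoc] theorem mu3_cy (X : FCat) :
    (mu3 F X).hom ≫ F.S.map (FCat.hom (cyc X.obj) : cu X ⟶ cu X) = cy _ ≫ (mu3 F X).hom := by
  change _ ≫ F.S.map ((β_ X (X ⊗ X)).hom ≫ (α_ X X X).hom) = _
  simp only [mu3, cy, Iso.trans_hom, whiskerLeftIso_hom, Functor.Monoidal.μIso_hom, Category.assoc,
    Functor.map_comp]
  rw [Functor.LaxBraided.braided_assoc, BraidedCategory.braiding_naturality_right_assoc,
    Functor.LaxMonoidal.associativity]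

@[reassoc] theorem mu3_tw (X : FCat) :
    (mu3 F X).hom ≫ F.S.map (X ◁ (β_ X X).hom) = _ ◁ (β_ _ _).hom ≫ (mu3 F X).hom := by
  simp only [mu3, Iso.trans_hom, whiskerLeftIso_hom, Functor.Monoidal.μIso_hom, Category.assoc]
  rw [← Functor.LaxMonoidal.μ_natural_right, ← MonoidalCategory.whiskerLeft_comp_assoc,
    Functor.LaxBraided.braided, MonoidalCategory.whiskerLeft_comp_assoc]

/-- the cube times a cell -/
def mu4 (X P : FCat) : t3 (F.S.obj X) ⊗ F.S.obj P ≅ F.S.obj (cu X ⊗ P) :=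
  whiskerRightIso (mu3 F X) _ ≪≫ Tr.mu F (cu X) P

theorem mu4_nat {X Y : FCat} (P : FCat) {f : cu X ⟶ cu Y} {g : t3 (F.S.obj X) ⟶ t3 (F.S.obj Y)}
    (h : (mu3 F X).hom ≫ F.S.map f = g ≫ (mu3 F Y).hom) :
    (mu4 F X P).hom ≫ F.S.map (f ▷ P) = g ▷ _ ≫ (mu4 F Y P).hom := by
  simp only [mu4, Iso.trans_hom, whiskerRightIso_hom, Functor.Monoidal.μIso_hom, Category.assoc]
  rw [← Functor.LaxMonoidal.μ_natural_left, ← comp_whiskerRight_assoc, h, comp_whiskerRight_assoc]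

theorem mu4_nat' {X Y : FCat} (P : FCat) {f : cu X ⟶ cu Y} {g : t3 (F.S.obj X) ⟶ t3 (F.S.obj Y)}
    (h : (mu3 F X).hom ≫ F.S.map f = g ≫ (mu3 F Y).hom) :
    F.S.map (f ▷ P) ≫ (mu4 F Y P).inv = (mu4 F X P).inv ≫ g ▷ _ := by
  rw [Iso.comp_inv_eq, Category.assoc, ← mu4_nat F P h, Iso.inv_hom_id_assoc]

theorem S_neg (X : FCat) : F.S.map (X ◁ (FCat.hom negRR : RRF ⟶ RRF)) = -𝟙 _ := by
  have h : F.S.map ((FCat.hom negRR : RRF ⟶ RRF) ▷ RRF) = -𝟙 _ :=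
    (F.map_eq _ (β_ RRF RRF).hom homotopic_swap).trans (S_swap F)
  have h2 : F.S.map (FCat.hom negRR : RRF ⟶ RRF) = -𝟙 _ := by
    apply (shiftFunctor T (1 : ℤ)).map_injective
    rw [← cancel_epi (F.suspIso RRF).hom, ← F.suspIso_naturality, h, Functor.map_neg,
      CategoryTheory.Functor.map_id, Preadditive.neg_comp, Preadditive.comp_neg, Category.id_comp,
      Category.comp_id]
  have h3 : F.S.obj X ◁ (-𝟙 (F.S.obj RRF)) = -𝟙 _ :=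
    ((tensorLeft (F.S.obj X)).map_neg (f := 𝟙 _)).trans
      (congrArg _ ((tensorLeft (F.S.obj X)).map_id _))
  rw [S_whiskerLeft, h2, h3, Preadditive.neg_comp, Category.id_comp, Preadditive.comp_neg,
    Iso.inv_hom_id]

section maps

variable (X : FCat) {Y : FCat}

/-- the fibre -/
abbrev fbF : cu X ⟶ A1 X := FCat.hom (fib (cyc X.obj))

/-- the one-cell -/
abbrev pF : A1 X ⟶ cu X ⊗ RRF := FCat.hom (p1 (cyc X.obj))

/-- the inclusion -/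
abbrev jF : A1 X ⟶ A2 X := FCat.hom (jj (cyc3 X.obj))

/-- the two-cell -/
abbrev qF : A2 X ⟶ cu X ⊗ ODF := FCat.hom (q2 (cyc3 X.obj))

variable {X} in
/-- functoriality -/
abbrev aF (f : X ⟶ Y) : A1 X ⟶ A1 Y := FCat.hom (m1 (c3 f.hom) (cyc_c3 f.hom))

variable {X} in
/-- functoriality -/
abbrev bF (f : X ⟶ Y) : A2 X ⟶ A2 Y := FCat.hom (m3 f.hom)

theorem inv_aux {Z : T} (x : F.S.obj (cu X) ⟶ Z)
    (h : F.S.map (FCat.hom (cyc X.obj) : cu X ⟶ cu X) ≫ x = x) :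
    cd F (j := fbF X) (q := pF X) (cs1 _) ≫ x⟦(1 : ℤ)⟧' = 0 := by
  let C : FCat := ⟨cube X.obj ⊗ II, fc_II (cu X).2⟩
  let e : sumF (cu X) (cu X) ⟶ C := FCat.hom (ends _)
  let c : C ⟶ cu X ⊗ RRF := FCat.hom (cube X.obj ◁ cI)
  have h1 := cd_nat F (j := e) (q := c) (j' := fbF X) (q' := pF X) (cs_ends _) (cs1 _)
    (descF (𝟙 _) (FCat.hom (cyc X.obj))) (FCat.hom (cyl _)) (𝟙 _) (po1 _).w
    ((Category.comp_id _).trans cyl_p1.symm)
  have h2 : F.S.map (descF (𝟙 _) (FCat.hom (cyc X.obj) : cu X ⟶ cu X)) ≫ x =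
      F.S.map e ≫ F.S.map (FCat.hom (prLC _) : C ⟶ cu X) ≫ x := by
    rw [← Functor.map_comp_assoc]
    apply F.sum_hom_ext
    · rw [← Functor.map_comp_assoc, ← Functor.map_comp_assoc, inlF_descF]
      congr 2
      exact ObjectProperty.hom_ext _ ((sumInl_desc_assoc _ _ _).trans (incl_prLC 0 _)).symm
    · rw [← Functor.map_comp_assoc, ← Functor.map_comp_assoc, inrF_descF, h]
      rw [show inrF (cu X) (cu X) ≫ e ≫ (FCat.hom (prLC _) : C ⟶ cu X) = 𝟙 _ from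
        ObjectProperty.hom_ext _ ((sumInr_desc_assoc _ _ _).trans (incl_prLC 1 _)),
        CategoryTheory.Functor.map_id, Category.id_comp]
  rw [CategoryTheory.Functor.map_id, Category.id_comp] at h1
  rw [h1, Category.assoc, ← Functor.map_comp, h2, Functor.map_comp,
    reassoc_of% (dist_cd F (j := e) (q := c) (cs_ends _)).zero₃₁, zero_comp]

theorem map_three {A B : FCat} (f g₀ g₁ g₂ : A ⟶ B)
    (h : ∀ x, (app f.hom x = app g₀.hom x ∧ app g₁.hom x = ∞ ∧ app g₂.hom x = ∞) ∨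
      (app f.hom x = app g₁.hom x ∧ app g₀.hom x = ∞ ∧ app g₂.hom x = ∞) ∨
      (app f.hom x = app g₂.hom x ∧ app g₀.hom x = ∞ ∧ app g₁.hom x = ∞)) :
    F.S.map f = F.S.map g₀ + F.S.map g₁ + F.S.map g₂ := by
  have h1 : ∀ x, app g₀.hom x = ∞ ∨ app g₁.hom x = ∞ := fun x => by
    rcases h x with k | k | k
    exacts [Or.inr k.2.1, Or.inl k.2.1, Or.inl k.2.1]
  have h2 : ∀ x, app (P257.H104.dsum g₀.hom g₁.hom h1) x = ∞ ∨ app g₂.hom x = ∞ := fun x => by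
    rcases h x with k | k | k
    exacts [Or.inr k.2.2, Or.inr k.2.2,
      Or.inl ((P257.H104.app_dsum_of_left _ _ h1 k.2.2).trans k.2.1)]
  rw [← P257.H104.map_dsum F g₀ g₁ h1, ← P257.H104.map_dsum F (FCat.hom (P257.H104.dsum g₀.hom g₁.hom h1)) g₂ h2]
  congr 1
  refine ObjectProperty.hom_ext _ (app_ext fun x => ?_)
  rcases h x with k | k | k
  · exact k.1.trans ((P257.H104.app_dsum_of_left _ _ h2 k.2.2).trans
      (P257.H104.app_dsum_of_left _ _ h1 k.2.1)).symm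
  · exact k.1.trans ((P257.H104.app_dsum_of_left _ _ h2 k.2.2).trans
      (P257.H104.app_dsum_of_right _ _ h1 k.2.1)).symm
  · exact k.1.trans (P257.H104.app_dsum_of_right _ _ h2
      ((P257.H104.app_dsum_of_left _ _ h1 k.2.2).trans k.2.1)).symm

theorem norm_aux : ∃ Γ r, cd F (j := jF X) (q := qF X) (cs2 _) ≫ (F.S.map (pF X))⟦(1 : ℤ)⟧' =
    (𝟙 _ + r + r ≫ r) ≫ Γ ∧ r ≫ r ≫ r = 𝟙 (F.S.obj (cu X ⊗ ODF)) := by
  let Bd : FCat := ⟨cube X.obj ⊗ BD, (cu X).2.tensor fc_BD⟩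
  let Dd : FCat := ⟨cube X.obj ⊗ DD, fc_DD (cu X).2⟩
  let i : Bd ⟶ Dd := FCat.hom (cube X.obj ◁ iB)
  let c : Dd ⟶ cu X ⊗ ODF := FCat.hom (cube X.obj ◁ cO)
  let s : Bd ⟶ Bd := FCat.hom (cyc X.obj ⊗ₘ rotB)
  let r : cu X ⊗ ODF ⟶ cu X ⊗ ODF := FCat.hom (cyc X.obj ⊗ₘ rotO)
  obtain ⟨e, he⟩ := exists_eB (X := cube X.obj)
  have h1 := cd_nat F (j := i) (q := c) (j' := jF X) (q' := qF X) (cs_iB _) (cs2 _)
    (FCat.hom (cov (cyc3 _))) (FCat.hom (cell _)) (𝟙 _) (po2 _).w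
    ((Category.comp_id _).trans cell_q2.symm)
  have h2 := cd_nat F (j := i) (q := c) (j' := i) (q' := c) (cs_iB _) (cs_iB _) s
    (FCat.hom (cyc X.obj ⊗ₘ rotD)) r (hom_ext fun _ => rfl) (by
      change _ ◁ cO ≫ (_ ⊗ₘ rotO) = (_ ⊗ₘ rotD) ≫ _ ◁ cO
      rw [whiskerLeft_comp_tensorHom, tensorHom_comp_whiskerLeft, cO_rotO])
  have h3 : F.S.map ((FCat.hom (cov (cyc3 _)) : Bd ⟶ A1 X) ≫ pF X) = F.S.map (FCat.hom e) +
      F.S.map (s ≫ FCat.hom e) + F.S.map (s ≫ s ≫ FCat.hom e) := by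
    refine map_three F _ _ _ _ fun x => ?_
    have a : ∀ k y, app e (app (cube X.obj ◁ ed k) y) = app (![cube X.obj ◁ cI, 0, 0] k) y :=
      fun k y => congrArg (fun g => app g y) (he k)
    have b : ∀ k y, app (p1 _) (app (cov (cyc3 X.obj)) (app (cube X.obj ◁ ed k) y)) =
        app (pw (cyc X.obj) k ▷ II ≫ cube X.obj ◁ cI) y := fun k y =>
      congrArg (fun g => app g y) (show _ ◁ ed k ≫ cov _ ≫ p1 _ = _ by rw [ed_cov_assoc, cyl_p1])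
    induction x using OnePoint.rec with
    | infty => exact Or.inl ⟨(app_infty _).trans (app_infty _).symm, app_infty _, app_infty _⟩
    | coe x =>
      obtain ⟨⟨x, y, z⟩, u⟩ := x
      obtain ⟨k, t, rfl⟩ := exists_eF u
      fin_cases k
      · exact Or.inl ⟨(b 0 (OnePoint.some ((x, y, z), t))).trans
          (a 0 (OnePoint.some ((x, y, z), t))).symm, a 2 (OnePoint.some ((y, z, x), t)),
          a 1 (OnePoint.some ((z, x, y), t))⟩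
      · exact Or.inr (Or.inl ⟨(b 1 (OnePoint.some ((x, y, z), t))).trans
          (a 0 (OnePoint.some ((y, z, x), t))).symm, a 1 (OnePoint.some ((x, y, z), t)),
          a 2 (OnePoint.some ((z, x, y), t))⟩)
      · exact Or.inr (Or.inr ⟨(b 2 (OnePoint.some ((x, y, z), t))).trans
          (a 0 (OnePoint.some ((z, x, y), t))).symm, a 2 (OnePoint.some ((x, y, z), t)),
          a 1 (OnePoint.some ((y, z, x), t))⟩)
  rw [CategoryTheory.Functor.map_id, Category.id_comp] at h1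
  refine ⟨cd F (j := i) (q := c) (cs_iB _) ≫ (F.S.map (FCat.hom e : Bd ⟶ cu X ⊗ RRF))⟦(1 : ℤ)⟧',
    F.S.map r, ?_, ?_⟩
  · rw [h1, Category.assoc, ← Functor.map_comp, ← Functor.map_comp, h3]
    simp only [Preadditive.add_comp, Category.id_comp, Category.assoc, reassoc_of% h2,
      Functor.map_add, Functor.map_comp, Preadditive.comp_add]
  · rw [← Functor.map_comp, ← Functor.map_comp, ← CategoryTheory.Functor.map_id]
    exact congrArg _ (ObjectProperty.hom_ext _ (hom_ext fun _ => rfl))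

end maps

/-- **The extended cube exists.** -/
theorem nonempty_ep : Nonempty (EP F) := ⟨{
  O := F.S.obj ODF
  eO := F.S.mapIso (fcIso (X := ODF) (Y := RRF ⊗ RRF)
      (ofHomeo (X := OD) (Y := LC.of (ℝ × ℝ)) plane)) ≪≫ F.suspIso RRF ≪≫
    (shiftFunctor T (1 : ℤ)).mapIso F.line ≪≫ ((shiftFunctorAdd' T 1 1 2 rfl).app _).symm
  A X := F.S.obj (A1 X)
  B X := F.S.obj (A2 X)
  a f := F.S.map (aF f)
  b f := F.S.map (bF f)
  fb X := (mu3 F X).hom ≫ F.S.map (fbF X)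
  p X := F.S.map (pF X) ≫ (mu4 F X RRF).inv
  j X := F.S.map (jF X)
  q X := F.S.map (qF X) ≫ (mu4 F X ODF).inv
  d₁ X := (mu4 F X RRF).hom ≫ cd F (j := fbF X) (q := pF X) (cs1 _) ≫ (mu3 F X).inv⟦(1 : ℤ)⟧'
  d₂ X := (mu4 F X ODF).hom ≫ cd F (j := jF X) (q := qF X) (cs2 _)
  τ X := F.S.map (FCat.hom (tau (cyc_tw X.obj)))
  D₁ X := Tr.dist_iso (dist_cd F (j := fbF X) (q := pF X) (cs1 _)) (mu3 F X) (Iso.refl _)
    (mu4 F X RRF) (Category.comp_id _) (by simp)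
  D₂ X := Dist.of_iso₃ (dist_cd F (j := jF X) (q := qF X) (cs2 _)) (mu4 F X ODF).hom (by simp) rfl
  fb_a f := by
    rw [Category.assoc, ← mu3_nat_assoc, ← Functor.map_comp, ← Functor.map_comp]
    exact congrArg (_ ≫ F.S.map ·) (ObjectProperty.hom_ext _ (fib_m1 (cyc_c3 f.hom)))
  a_p f := by
    rw [Category.assoc, ← mu4_nat' F RRF (mu3_nat F f), ← Functor.map_comp_assoc,
      ← Functor.map_comp_assoc]
    exact congrArg (F.S.map · ≫ _) (ObjectProperty.hom_ext _ (m1_p1 (cyc_c3 f.hom)))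
  j_b f := by
    rw [← Functor.map_comp, ← Functor.map_comp]
    exact congrArg _ (ObjectProperty.hom_ext _ (jj_m2 (cyc3 _) (cyc3 _) (cyc_c3 f.hom)))
  b_q f := by
    rw [Category.assoc, ← mu4_nat' F ODF (mu3_nat F f), ← Functor.map_comp_assoc,
      ← Functor.map_comp_assoc]
    exact congrArg (F.S.map · ≫ _) (ObjectProperty.hom_ext _ (m2_q2 (cyc3 _) (cyc3 _) (cyc_c3 f.hom)))
  d₁_nat {X Y} f := by
    rw [← reassoc_of% (mu4_nat F RRF (mu3_nat F f)),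
      reassoc_of% (cd_nat F (j := fbF X) (q := pF X) (j' := fbF Y) (q' := pF Y) (cs1 _) (cs1 _)
        (f ⊗ₘ (f ⊗ₘ f)) (aF f) ((f ⊗ₘ (f ⊗ₘ f)) ▷ RRF) (fib_m1 (cyc_c3 f.hom))
        (m1_p1 (cyc_c3 f.hom)).symm), Category.assoc, Category.assoc,
      ← Functor.map_comp, ← Functor.map_comp]
    congr 3
    rw [Iso.comp_inv_eq, Category.assoc, ← mu3_nat, Iso.inv_hom_id_assoc]
  d₂_nat {X Y} f := by
    rw [← reassoc_of% (mu4_nat F ODF (mu3_nat F f)),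
      cd_nat F (j := jF X) (q := qF X) (j' := jF Y) (q' := qF Y) (cs2 _) (cs2 _)
        (aF f) (bF f) ((f ⊗ₘ (f ⊗ₘ f)) ▷ ODF) (jj_m2 (cyc3 _) (cyc3 _) (cyc_c3 f.hom))
        (m2_q2 (cyc3 _) (cyc3 _) (cyc_c3 f.hom)).symm, Category.assoc]
  inv X Z x h := by
    rw [Category.assoc, Category.assoc, ← Functor.map_comp, inv_aux F X, comp_zero]
    rw [← cancel_epi (mu3 F X).hom, mu3_cy_assoc, Iso.hom_inv_id_assoc, h]
  cy_fb X := by
    rw [← mu3_cy_assoc, ← Functor.map_comp]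
    exact congrArg _ (F.map_eq _ _ (fib_homotopic _).symm)
  norm X := by
    obtain ⟨Γ, r, h1, h2⟩ := norm_aux F X
    refine ⟨(mu4 F X ODF).hom ≫ Γ ≫ (mu4 F X RRF).inv⟦(1 : ℤ)⟧',
      (mu4 F X ODF).hom ≫ r ≫ (mu4 F X ODF).inv, ?_, ?_⟩
    · rw [Functor.map_comp, Category.assoc, reassoc_of% h1]
      simp
    · simp [reassoc_of% h2]
  fb_τ X := by
    rw [Category.assoc, ← mu3_tw_assoc, ← Functor.map_comp, ← Functor.map_comp]
    refine congrArg _ (F.map_eq _ _ ?_)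
    change Homotopic (fib (cyc X.obj) ≫ tau (cyc_tw X.obj)) (_ ≫ fib (cyc X.obj))
    rw [fib_tau]
    exact Homotopic.comp_left _ (fib_homotopic _).symm
  τ_p X := by
    rw [Category.assoc, ← mu4_nat' F RRF (mu3_tw F X), ← Functor.map_comp_assoc,
      show (FCat.hom (tau (cyc_tw X.obj)) : A1 X ⟶ A1 X) ≫ pF X = pF X ≫ (X ◁ (β_ X X).hom) ▷ RRF ≫
        cu X ◁ (FCat.hom negRR : RRF ⟶ RRF) from ObjectProperty.hom_ext _ (tau_p1 (cyc_tw X.obj)),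
      Functor.map_comp, Functor.map_comp, S_neg]
    simp
  τ_a f := by
    rw [← Functor.map_comp, ← Functor.map_comp]
    exact congrArg _ (ObjectProperty.hom_ext _ (tau_m1 (cyc_c3 f.hom) (cyc_tw _) (cyc_tw _) (tw_c3 _)))
  diag {W V} g := by
    obtain ⟨D, h1, h2⟩ := exists_diag g.hom
    let Dd : FCat := ⟨cube (W ⊗ RRF).obj ⊗ DD, fc_DD (cu (W ⊗ RRF)).2⟩
    let k : (cu W ⊗ ODF) ⊗ RRF ≅ cu (W ⊗ RRF) := fcIso (kap W.obj)
    refine ⟨F.S.obj (coneF (bF g)), F.S.map (coneInrF _),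
      F.S.map (coneConnF _) ≫ (Tr.mu F _ _).inv, F.S.map (FCat.hom D),
      whiskerRightIso (mu4 F W ODF) _ ≪≫ Tr.mu F _ _ ≪≫ F.S.mapIso k ≪≫ (mu3 F _).symm, ?_,
      S_comp_eq F _ _ _ h1, ?_⟩
    · rw [Category.assoc]
      exact F.cone_distinguished (bF g)
    · have h3 : F.S.map ((FCat.hom (spread W.obj lD) : (cu W ⊗ ODF) ⊗ RRF ⟶ Dd) ≫
          (FCat.hom (cell _) : Dd ⟶ A2 (W ⊗ RRF))) = F.S.map (k.hom ≫ fbF _ ≫ jF _) := by
        refine F.map_eq _ _ ?_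
        change Homotopic (spread _ lD ≫ cell _) ((kap _).hom ≫ fib _ ≫ jj _)
        rw [fib_jj, ← spread_prD, Category.assoc]
        refine Homotopic.comp_left _ ?_
        rw [← Category.assoc]
        exact (Homotopic.of_eq (Category.id_comp _).symm).trans ((prD_vx _).symm.comp_right _)
      rw [S_comp_eq F _ _ (coneConnF (bF g) ≫ qF W ▷ RRF ≫ FCat.hom (spread W.obj lD) ≫
        (FCat.hom (cell _) : Dd ⟶ A2 (W ⊗ RRF))) h2, Functor.map_comp, Functor.map_comp, h3,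
        S_whiskerRight]
      simp }⟩

end Vale.Agent.P236K.Ex
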