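import Vale.Agent.P251.G.NDR
import Vale.Agent.P251.G.CofibEx
import Vale.Agent.P251.G.Glue
import Vale.Agent.P251.H.Loop
import Vale.Agent.P251.H.SwapRR

/-!
# P236K: the triangle, its boundary and its interior

`DD`, `BD`, `OD`: the closed triangle, its boundary, its interior, with the rotation; `ed k`: the
edges; `mD`: the diagonal of a cone on a threefold product; `lam : OD × ℝ ≃ₜ ℝ³`.
-/

open CategoryTheory MonoidalCategory Limits Filter Topology OnePoint
open Vale.Agent.P251.G Vale.Agent.P251.G.LC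

noncomputable section

namespace Vale.Agent.P236K.Ex

/-- the triangle -/
def sx : Set (ℝ × ℝ × ℝ) :=
  {s | 0 ≤ s.1 ∧ 0 ≤ s.2.1 ∧ 0 ≤ s.2.2 ∧ s.1 + s.2.1 + s.2.2 = 1}

theorem isClosed_sx : IsClosed sx := by
  refine IsClosed.and ?_ (IsClosed.and ?_ (IsClosed.and ?_ ?_))
  exacts [isClosed_le continuous_const (by fun_prop), isClosed_le continuous_const (by fun_prop),
    isClosed_le continuous_const (by fun_prop), isClosed_eq (by fun_prop) continuous_const]

instance : CompactSpace sx := isCompact_iff_compactSpace.1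
  ((isCompact_Icc (a := (0 : ℝ × ℝ × ℝ)) (b := 1)).of_isClosed_subset isClosed_sx
    fun s ⟨h1, h2, h3, h⟩ => ⟨⟨h1, h2, h3⟩, by change s.1 ≤ 1; linarith,
      by change s.2.1 ≤ 1; linarith, by change s.2.2 ≤ 1; linarith⟩)

/-- the smallest coordinate -/
def mn (s : sx) : ℝ := min s.1.1 (min s.1.2.1 s.1.2.2)

@[fun_prop] theorem continuous_mn : Continuous mn := by
  unfold mn
  fun_prop

theorem mn_nonneg (s : sx) : 0 ≤ mn s := le_min s.2.1 (le_min s.2.2.1 s.2.2.2.1)

theorem mn_le (s : sx) : mn s ≤ s.1.1 ∧ mn s ≤ s.1.2.1 ∧ mn s ≤ s.1.2.2 :=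
  ⟨min_le_left _ _, (min_le_right _ _).trans (min_le_left _ _),
    (min_le_right _ _).trans (min_le_right _ _)⟩

theorem mn_eq (s : sx) : mn s = s.1.1 ∨ mn s = s.1.2.1 ∨ mn s = s.1.2.2 := by
  rcases min_choice s.1.1 (min s.1.2.1 s.1.2.2) with h | h
  · exact Or.inl h
  · exact Or.inr ((min_choice s.1.2.1 s.1.2.2).imp h.trans h.trans)

theorem mn_eq_zero {s : sx} : mn s = 0 ↔ s.1.1 = 0 ∨ s.1.2.1 = 0 ∨ s.1.2.2 = 0 := by
  have h := mn_le s
  have h0 := mn_nonneg s
  refine ⟨fun e => by simpa only [e, eq_comm] using mn_eq s, ?_⟩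
  rintro (e | e | e) <;> linarith [h.1, h.2.1, h.2.2]

theorem mn_pos {s : sx} : 0 < mn s ↔ 0 < s.1.1 ∧ 0 < s.1.2.1 ∧ 0 < s.1.2.2 := by
  simp only [mn, lt_min_iff]

/-- the boundary -/
def bs : Set sx := {s | mn s = 0}

/-- the interior -/
def os : Set sx := {s | 0 < mn s}

theorem isClosed_bs : IsClosed bs := isClosed_eq continuous_mn continuous_const

theorem isOpen_os : IsOpen os := isOpen_lt continuous_const continuous_mn

instance : CompactSpace bs := isCompact_iff_compactSpace.1 isClosed_bs.isCompact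

instance : LocallyCompactSpace os := isOpen_os.locallyCompactSpace

/-- the triangle -/
abbrev DD : LC := LC.of sx

/-- the boundary -/
abbrev BD : LC := LC.of bs

/-- the interior -/
abbrev OD : LC := LC.of os

/-- the inclusion of the boundary -/
def iB : BD ⟶ DD := ofClosed (X := BD) (Y := DD) Subtype.val isClosed_bs.isClosedEmbedding_subtypeVal

/-- the collapse of the boundary -/
def cO : DD ⟶ OD := ofOpen (X := DD) (Y := OD) Subtype.val isOpen_os.isOpenEmbedding_subtypeVal

theorem isCompl_bs : IsCompl (Set.range (Subtype.val : bs → sx))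
    (Set.range (Subtype.val : os → sx)) := by
  rw [Subtype.range_coe, Subtype.range_coe]
  refine ⟨Set.disjoint_left.2 fun s h k => ?_, codisjoint_iff.2 (Set.eq_univ_of_forall fun s => ?_)⟩
  · exact absurd (show mn s = 0 from h) (ne_of_gt k)
  · exact (mn_nonneg s).eq_or_lt.imp Eq.symm id

theorem app_cO (s : os) : app cO (s.1 : OnePoint sx) = (s : OnePoint os) :=
  app_ofOpen_coe (X := DD) (Y := OD) Subtype.val _ s

theorem app_cO_of (s : sx) (h : mn s = 0) : app cO (s : OnePoint sx) = ∞ :=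
  app_ofOpen_of_notMem (X := DD) (Y := OD) Subtype.val _ fun ⟨u, hu⟩ =>
    absurd h (ne_of_gt (hu ▸ u.2))

/-- the push towards the boundary -/
def push (p : sx × unitInterval) : sx :=
  ⟨((p.1.1.1 - p.2 * min (mn p.1) (1 / 6)) / (1 - 3 * (p.2 * min (mn p.1) (1 / 6))),
    (p.1.1.2.1 - p.2 * min (mn p.1) (1 / 6)) / (1 - 3 * (p.2 * min (mn p.1) (1 / 6))),
    (p.1.1.2.2 - p.2 * min (mn p.1) (1 / 6)) / (1 - 3 * (p.2 * min (mn p.1) (1 / 6)))), by
    have h0 : 0 ≤ min (mn p.1) (1 / 6) := le_min (mn_nonneg _) (by norm_num)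
    have h1 : p.2 * min (mn p.1) (1 / 6) ≤ min (mn p.1) (1 / 6) := mul_le_of_le_one_left h0 p.2.2.2
    have h2 := min_le_left (mn p.1) (1 / 6)
    have h3 := min_le_right (mn p.1) (1 / 6)
    have h4 := mn_le p.1
    have h5 : 0 < 1 - 3 * (p.2 * min (mn p.1) (1 / 6)) := by linarith
    refine ⟨div_nonneg (by linarith [h4.1]) h5.le, div_nonneg (by linarith [h4.2.1]) h5.le,
      div_nonneg (by linarith [h4.2.2]) h5.le, ?_⟩
    dsimp only
    rw [← add_div, ← add_div, div_eq_one_iff_eq h5.ne']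
    linarith [p.1.2.2.2.2]⟩

theorem continuous_push : Continuous push := by
  have h : ∀ p : sx × unitInterval, 1 - 3 * (p.2 * min (mn p.1) (1 / 6)) ≠ 0 := fun p => by
    have h0 : 0 ≤ min (mn p.1) (1 / 6) := le_min (mn_nonneg _) (by norm_num)
    have h1 : p.2 * min (mn p.1) (1 / 6) ≤ min (mn p.1) (1 / 6) := mul_le_of_le_one_left h0 p.2.2.2
    linarith [min_le_right (mn p.1) (1 / 6)]
  refine Continuous.subtype_mk ?_ _
  fun_prop (disch := exact h)

theorem push_of {p : sx × unitInterval} (h : p.2 * min (mn p.1) (1 / 6) = 0) : push p = p.1 :=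
  Subtype.ext (by simp only [push, h, sub_zero, mul_zero, div_one])

theorem cofib_iB : Cofib iB := by
  have hr : ∀ s : sx, (s : OnePoint sx) ∈ Set.range (app iB) ↔ mn s = 0 := fun s => by
    refine (coe_mem_range_app_ofClosed (Z := BD) (Y := DD) _ _ s).trans ?_
    rw [Subtype.range_coe]
    rfl
  refine cofib_of_ndr (injective_app_ofClosed _ _) (fun s => 6 * mn s) (by fun_prop)
    (fun s => by linarith [mn_nonneg s]) (fun s => by rw [hr]; simp)
    (ofCompact (X := LC.of (sx × unitInterval)) (Y := DD) push continuous_push) ?_ ?_ ?_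
  · apply hom_ext
    intro s
    exact congrArg OnePoint.some (push_of (p := (s, 0)) (zero_mul _))
  · intro s t h
    refine congrArg OnePoint.some (push_of (p := (s, t)) ?_)
    have : mn s = 0 := by linarith
    rw [this, min_eq_left (by norm_num), mul_zero]
  · intro s h
    refine (hr (push (s, 1))).2 (mn_eq_zero.2 ?_)
    have e : ((1 : unitInterval) : ℝ) * min (mn s) (1 / 6) = mn s := by
      rw [min_eq_left (by linarith)]
      exact one_mul _
    simp only [push, e]
    rcases mn_eq s with k | k | k <;> simp [← k]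

/-! ### the rotation and the edges -/

/-- the rotation -/
def rot (s : sx) : sx :=
  ⟨(s.1.2.1, s.1.2.2, s.1.1), s.2.2.1, s.2.2.2.1, s.2.1, by linarith [s.2.2.2.2]⟩

@[fun_prop] theorem continuous_rot : Continuous rot := Continuous.subtype_mk (by fun_prop) _

theorem mn_rot (s : sx) : mn (rot s) = mn s := by
  change min s.1.2.1 (min s.1.2.2 s.1.1) = min s.1.1 (min s.1.2.1 s.1.2.2)
  rw [← min_assoc, min_comm]

/-- the rotation of the boundary -/
def rb (s : bs) : bs := ⟨rot s.1, (mn_rot _).trans s.2⟩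

/-- the rotation of the interior -/
def ro (s : os) : os := ⟨rot s.1, lt_of_lt_of_eq s.2 (mn_rot _).symm⟩

theorem continuous_ro : Continuous ro := Continuous.subtype_mk (by fun_prop) _

/-- the rotation -/
def rotD : DD ⟶ DD := ofCompact (X := DD) (Y := DD) rot continuous_rot

/-- the rotation of the boundary -/
def rotB : BD ⟶ BD := ofCompact (X := BD) (Y := BD) rb (Continuous.subtype_mk (by fun_prop) _)

/-- the rotation of the interior -/
def rotO : OD ⟶ OD := ofClosed (X := OD) (Y := OD) ro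
  (Function.LeftInverse.isClosedEmbedding (f := ro ∘ ro) (fun _ => rfl)
    (continuous_ro.comp continuous_ro) continuous_ro)

theorem rotO_three : rotO ≫ rotO ≫ rotO = 𝟙 OD := hom_ext fun _ => rfl

@[reassoc] theorem rotB_iB : rotB ≫ iB = iB ≫ rotD := hom_ext fun _ => rfl

@[reassoc] theorem cO_rotO : cO ≫ rotO = rotD ≫ cO := by
  apply hom_ext
  intro s
  rcases (mn_nonneg s).eq_or_lt with h | h
  · rw [app_comp, app_cO_of s h.symm, app_infty]
    exact (app_cO_of (rot s) ((mn_rot s).trans h.symm)).symm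
  · exact (congrArg (app rotO) (app_cO ⟨s, h⟩)).trans (app_cO (ro ⟨s, h⟩)).symm

/-- the first edge -/
def e0 (t : unitInterval) : bs :=
  ⟨⟨(1 - t, t, 0), by linarith [t.2.2], t.2.1, le_rfl, by ring⟩, mn_eq_zero.2 (Or.inr (Or.inr rfl))⟩

@[fun_prop] theorem continuous_e0 : Continuous e0 :=
  Continuous.subtype_mk (Continuous.subtype_mk (by fun_prop) _) _

/-- the edges -/
def eF : Fin 3 → unitInterval → bs := ![e0, rb ∘ rb ∘ e0, rb ∘ e0]

theorem exists_eF (s : bs) : ∃ k t, eF k t = s := by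
  obtain ⟨⟨⟨a, b, c⟩, h1, h2, h3, h4⟩, h⟩ := s
  dsimp only at h1 h2 h3 h4
  rcases mn_eq_zero.1 h with k | k | k <;> dsimp only at k <;> subst k
  · exact ⟨1, ⟨c, h3, by linarith⟩, Subtype.ext (Subtype.ext
      (Prod.ext rfl (Prod.ext (by change 1 - c = b; linarith) rfl)))⟩
  · exact ⟨2, ⟨a, h1, by linarith⟩, Subtype.ext (Subtype.ext
      (Prod.ext rfl (Prod.ext rfl (by change 1 - a = c; linarith))))⟩
  · exact ⟨0, ⟨b, h2, by linarith⟩, Subtype.ext (Subtype.ext
      (Prod.ext (by change 1 - b = a; linarith) rfl))⟩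

theorem eF_eq {i j : Fin 3} {t u : unitInterval} (h : eF i t = eF j u) :
    (i = j ∧ t = u) ∨ (j = i + 1 ∧ t = 1 ∧ u = 0) ∨ (i = j + 1 ∧ t = 0 ∧ u = 1) := by
  have k := congrArg (fun s : bs => s.1.1) h
  fin_cases i <;> fin_cases j <;>
    simp only [eF, e0, rb, rot, Fin.zero_eta, Fin.mk_one, Fin.reduceFinMk, Matrix.cons_val_zero,
      Matrix.cons_val_one, Matrix.cons_val, Function.comp, Prod.mk.injEq] at k <;>
    obtain ⟨k1, k2, k3⟩ := k
  all_goals first
    | exact Or.inl ⟨rfl, Subtype.ext (by linarith)⟩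
    | exact Or.inr (Or.inl ⟨rfl, Subtype.ext (by change _ = (1 : ℝ); linarith),
        Subtype.ext (by change _ = (0 : ℝ); linarith)⟩)
    | exact Or.inr (Or.inr ⟨rfl, Subtype.ext (by change _ = (0 : ℝ); linarith),
        Subtype.ext (by change _ = (1 : ℝ); linarith)⟩)

theorem continuous_eF (k : Fin 3) : Continuous (eF k) := by
  have h : Continuous rb := Continuous.subtype_mk (by fun_prop) _
  fin_cases k
  exacts [continuous_e0, h.comp (h.comp continuous_e0), h.comp continuous_e0]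

/-- the edges -/
def ed (k : Fin 3) : II ⟶ BD := ofCompact (X := II) (Y := BD) (eF k) (continuous_eF k)

@[reassoc] theorem ed_zero : ed 0 ≫ rotB = ed 2 := hom_ext fun _ => rfl

@[reassoc] theorem ed_one : ed 1 ≫ rotB = ed 0 := hom_ext fun _ => rfl

@[reassoc] theorem ed_two : ed 2 ≫ rotB = ed 1 := hom_ext fun _ => rfl

theorem rb_e0 : rb (e0 1) = e0 0 := Subtype.ext (Subtype.ext (by simp [rb, rot, e0]))

/-! ### the interval -/

/-- the collapse of the end points -/
def cI : II ⟶ RR := ofOpen (X := II) (Y := RR) unitInterval.sigmoid isOpenEmbedding_sigmoid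

theorem app_cI (t : unitInterval) : app cI (t : OnePoint unitInterval) = circ t := rfl

/-- the reflection -/
def flip : II ⟶ II := ofCompact (X := II) (Y := II) unitInterval.symm unitInterval.continuous_symm

theorem flip_cI : flip ≫ cI = cI ≫ P251.H.negRR := by
  apply hom_ext
  intro t
  change circ (unitInterval.symm t) = app P251.H.negRR (circ t)
  rcases eq_zero_or_one_or_sigmoid t with rfl | rfl | ⟨x, rfl⟩
  · rw [unitInterval.symm_zero, circ_zero, circ_one, app_infty]
  · rw [unitInterval.symm_one, circ_zero, circ_one, app_infty]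
  · rw [← unitInterval.sigmoid_neg, circ_sigmoid, circ_sigmoid]
    rfl

/-! ### the diagonal -/

/-- the point `r s` -/
def mF (p : sx × NNReal) : (NNReal × NNReal × NNReal) × sx :=
  ((p.2 * ⟨p.1.1.1, p.1.2.1⟩, p.2 * ⟨p.1.1.2.1, p.1.2.2.1⟩, p.2 * ⟨p.1.1.2.2, p.1.2.2.2.1⟩), p.1)

/-- the diagonal -/
def mD : DD ⊗ HH ⟶ (HH ⊗ (HH ⊗ HH)) ⊗ DD :=
  ofClosed (X := LC.of (sx × NNReal)) (Y := LC.of ((NNReal × NNReal × NNReal) × sx)) mF
    (Function.LeftInverse.isClosedEmbedding
      (f := fun q : (NNReal × NNReal × NNReal) × sx => (q.2, q.1.1 + q.1.2.1 + q.1.2.2))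
      (fun p => Prod.ext rfl (NNReal.eq (by
        change p.2 * p.1.1.1 + p.2 * p.1.1.2.1 + p.2 * p.1.1.2.2 = (p.2 : ℝ)
        rw [← mul_add, ← mul_add, p.1.2.2.2.2, mul_one]))) (by fun_prop)
      (by
        unfold mF
        refine Continuous.prodMk (Continuous.prodMk ?_ (Continuous.prodMk ?_ ?_)) continuous_fst <;>
          exact continuous_snd.mul (Continuous.subtype_mk (by fun_prop) _)))

/-- logarithmic coordinates -/
def lam : os × ℝ ≃ₜ ℝ × ℝ × ℝ where
  toFun p := (p.2 + Real.log p.1.1.1.1, p.2 + Real.log p.1.1.1.2.1, p.2 + Real.log p.1.1.1.2.2)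
  invFun y := (⟨⟨(Real.exp y.1 / (Real.exp y.1 + Real.exp y.2.1 + Real.exp y.2.2),
      Real.exp y.2.1 / (Real.exp y.1 + Real.exp y.2.1 + Real.exp y.2.2),
      Real.exp y.2.2 / (Real.exp y.1 + Real.exp y.2.1 + Real.exp y.2.2)),
      by positivity, by positivity, by positivity, by field_simp⟩,
      mn_pos.2 ⟨by positivity, by positivity, by positivity⟩⟩,
    Real.log (Real.exp y.1 + Real.exp y.2.1 + Real.exp y.2.2))
  left_inv := by
    rintro ⟨⟨⟨⟨a, b, c⟩, h⟩, k⟩, τ⟩
    obtain ⟨k1, k2, k3⟩ := mn_pos.1 k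
    have h4 : a + b + c = 1 := h.2.2.2
    dsimp only at k1 k2 k3
    have e : Real.exp (τ + Real.log a) + Real.exp (τ + Real.log b) + Real.exp (τ + Real.log c) =
        Real.exp τ := by
      rw [Real.exp_add, Real.exp_add, Real.exp_add, Real.exp_log k1, Real.exp_log k2,
        Real.exp_log k3, ← mul_add, ← mul_add, h4, mul_one]
    refine Prod.ext (Subtype.ext (Subtype.ext ?_)) ?_ <;> dsimp only <;> rw [e]
    · rw [Real.exp_add, Real.exp_add, Real.exp_add, Real.exp_log k1, Real.exp_log k2,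
        Real.exp_log k3, mul_div_cancel_left₀ _ (Real.exp_ne_zero τ),
        mul_div_cancel_left₀ _ (Real.exp_ne_zero τ), mul_div_cancel_left₀ _ (Real.exp_ne_zero τ)]
    · exact Real.log_exp τ
  right_inv y := by
    have h : Real.exp y.1 + Real.exp y.2.1 + Real.exp y.2.2 ≠ 0 := by positivity
    dsimp only
    rw [Real.log_div (Real.exp_ne_zero _) h, Real.log_div (Real.exp_ne_zero _) h,
      Real.log_div (Real.exp_ne_zero _) h, Real.log_exp, Real.log_exp, Real.log_exp]
    simp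
  continuous_toFun := by
    have h1 : ∀ p : os × ℝ, p.1.1.1.1 ≠ 0 := fun p => (mn_pos.1 p.1.2).1.ne'
    have h2 : ∀ p : os × ℝ, p.1.1.1.2.1 ≠ 0 := fun p => (mn_pos.1 p.1.2).2.1.ne'
    have h3 : ∀ p : os × ℝ, p.1.1.1.2.2 ≠ 0 := fun p => (mn_pos.1 p.1.2).2.2.ne'
    fun_prop (disch := assumption)
  continuous_invFun := by
    have h : ∀ y : ℝ × ℝ × ℝ, Real.exp y.1 + Real.exp y.2.1 + Real.exp y.2.2 ≠ 0 :=
      fun y => by positivity
    refine Continuous.prodMk (Continuous.subtype_mk (Continuous.subtype_mk ?_ _) _) ?_ <;>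
      fun_prop (disch := exact h)

/-- the graph of the logarithmic coordinates -/
def lD : OD ⊗ RR ⟶ (RR ⊗ (RR ⊗ RR)) ⊗ DD :=
  ofClosed (X := LC.of (os × ℝ)) (Y := LC.of ((ℝ × ℝ × ℝ) × sx)) (fun p => (lam p, p.1.1))
    (Function.LeftInverse.isClosedEmbedding (f := fun q : (ℝ × ℝ × ℝ) × sx => lam.symm q.1)
      (fun p => lam.symm_apply_apply p) (by fun_prop) (by fun_prop))

theorem app_collHH_zero : app collHH ((0 : NNReal) : OnePoint NNReal) = ∞ :=
  app_ofOpen_of_notMem (X := HH) (Y := RR) expHH _ fun h => (mem_range_expHH 0).1 h rfl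

theorem app_collHH_exp (t : ℝ) : app collHH (expHH t : OnePoint NNReal) = (t : OnePoint ℝ) :=
  app_ofOpen_coe (X := HH) (Y := RR) expHH _ t

theorem mD_coll : mD ≫ (collHH ⊗ₘ (collHH ⊗ₘ collHH)) ▷ DD = (cO ⊗ₘ collHH) ≫ lD := by
  apply tensor_ext
  intro s r
  change smash (smash (app collHH ((mF (s, r)).1.1 : OnePoint NNReal))
    (smash (app collHH ((mF (s, r)).1.2.1 : OnePoint NNReal))
      (app collHH ((mF (s, r)).1.2.2 : OnePoint NNReal)))) (s : OnePoint sx) =
    app lD (smash (app cO s) (app collHH r))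
  by_cases hr : r = 0
  · subst hr
    rw [show (mF (s, 0)).1.1 = 0 from zero_mul _, app_collHH_zero, smash_infty_left,
      smash_infty_left, smash_infty_right]
    exact (app_infty lD).symm
  obtain ⟨τ, rfl⟩ := (mem_range_expHH r).2 hr
  rcases (mn_nonneg s).eq_or_lt with h | h
  · rw [app_cO_of s h.symm, smash_infty_left]
    refine Eq.trans ?_ (app_infty lD).symm
    have z : ∀ (a : ℝ) (ha : 0 ≤ a), a = 0 →
        app collHH ((expHH τ * ⟨a, ha⟩ : NNReal) : OnePoint NNReal) = ∞ := by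
      rintro _ _ rfl
      exact (congrArg (fun x : NNReal => app collHH (x : OnePoint NNReal)) (mul_zero _)).trans
        app_collHH_zero
    rcases mn_eq_zero.1 h.symm with k | k | k <;>
      simp only [mF, z _ _ k, smash_infty_left, smash_infty_right]
  · have z : ∀ (a : ℝ) (ha : 0 ≤ a), 0 < a →
        app collHH ((expHH τ * ⟨a, ha⟩ : NNReal) : OnePoint NNReal) =
          ((τ + Real.log a : ℝ) : OnePoint ℝ) := fun a ha h => by
      rw [← app_collHH_exp]
      congr 2
      exact NNReal.eq (by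
        change Real.exp τ * a = Real.exp (τ + Real.log a)
        rw [Real.exp_add, Real.exp_log h])
    obtain ⟨k1, k2, k3⟩ := mn_pos.1 h
    rw [app_collHH_exp, show app cO (s : OnePoint sx) = _ from app_cO ⟨s, h⟩]
    simp only [mF, z _ _ k1, z _ _ k2, z _ _ k3]
    rfl

/-! ### the triangle is contractible -/

/-- the projection -/
def prD (X : LC) : X ⊗ DD ⟶ X :=
  X ◁ ofCompact (X := DD) (Y := 𝟙_ LC) (fun _ => ()) continuous_const ≫ (ρ_ X).hom

/-- the first vertex -/
def vx (X : LC) : X ⟶ X ⊗ DD := incl 0 X ≫ X ◁ (ed 0 ≫ iB)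

theorem vx_prD (X : LC) : vx X ≫ prD X = 𝟙 X := hom_ext fun _ => rfl

/-- the contraction -/
def slide (p : sx × unitInterval) : sx :=
  ⟨(1 - p.2 + p.2 * p.1.1.1, p.2 * p.1.1.2.1, p.2 * p.1.1.2.2),
    add_nonneg (by linarith [p.2.2.2]) (mul_nonneg p.2.2.1 p.1.2.1), mul_nonneg p.2.2.1 p.1.2.2.1,
    mul_nonneg p.2.2.1 p.1.2.2.2.1, by
      have h := p.1.2.2.2.2
      dsimp only
      linear_combination p.2.1 * h⟩

theorem prD_vx (X : LC) : Homotopic (prD X ≫ vx X) (𝟙 _) := by
  refine ⟨(α_ X DD II).hom ≫ X ◁ ofCompact (X := LC.of (sx × unitInterval)) (Y := DD) slide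
    (Continuous.subtype_mk (by fun_prop) _), ?_, ?_⟩ <;> apply hom_ext <;> rintro ⟨x, s⟩
  · refine congrArg (fun u : sx => (((x, u) : X × sx) : OnePoint (X × sx))) (Subtype.ext ?_)
    change (slide (s, 0)).1 = (e0 0).1.1
    simp [slide, e0]
  · refine congrArg (fun u : sx => (((x, u) : X × sx) : OnePoint (X × sx))) (Subtype.ext ?_)
    change (slide (s, 1)).1 = s.1
    simp [slide]

theorem fc_DD {X : LC} (h : FC X) : FC (X ⊗ DD) :=
  h.hequiv ⟨vx X, prD X, Homotopic.of_eq (vx_prD X), prD_vx X⟩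

theorem lD_prD : lD ≫ prD _ =
    (ofHomeo (X := LC.of (os × ℝ)) (Y := LC.of (ℝ × ℝ × ℝ)) lam).hom := hom_ext fun _ => rfl

end Vale.Agent.P236K.Ex
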