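import Vale.Agent.P236K.Br
import Vale.Agent.P236Z.Top.All
import Vale.Agent.P251CX.Top

/-!
# P236K: the statement from the three inputs of the Adams-Novikov side
-/

open CategoryTheory MonoidalCategory MonObj Limits Pretriangulated

set_option linter.unusedSectionVars false

namespace Vale.Agent.P236K

open Vale.Agent.P251 Vale.Agent.P251.S Vale.Agent.P251.T Vale.Agent.P251.M Vale.Agent.P251.F
  Vale.Agent.P251.I EvenSpheres Vale.Agent.P257.H80 Vale.Agent.P251.H Vale.Agent.P236Z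
  Vale.Agent.P251.St Vale.Agent.P236Z.St

variable {T : SHCat} {H : RingSp T} (A : AdamsTower H.unit) (ξ : sph T 4 ⟶ HH H) (j : ℕ)

/-- the identification of the spheres -/
noncomputable def cS (T : SHCat) (j : ℕ) :
    (stdEven T.C).S (Det.w0 j) ≅ ((sph T (stem j))⟦(1 : ℤ)⟧)⟦(1 : ℤ)⟧ :=
  B.sphE T.C _ ≪≫ (shiftFunctorAdd' T.C (stem j + 1) 1 (2 * Det.w0 j) (by
    rw [Det.w0, stem]
    ring)).app _ ≪≫
    (shiftFunctor T.C (1 : ℤ)).mapIso ((shiftFunctorAdd' T.C (stem j) 1 (stem j + 1) rfl).app _)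

theorem exists_desusp {Y : T.C} (t : (stdEven T.C).S (Det.w0 j) ⟶ (Y⟦(1 : ℤ)⟧)⟦(1 : ℤ)⟧) :
    ∃ y : sph T (stem j) ⟶ Y, (cS T j).hom ≫ (y⟦(1 : ℤ)⟧')⟦(1 : ℤ)⟧' = t := by
  obtain ⟨z, hz⟩ := (shiftFunctor T.C (1 : ℤ)).map_surjective ((cS T j).inv ≫ t)
  obtain ⟨y, rfl⟩ := (shiftFunctor T.C (1 : ℤ)).map_surjective z
  exact ⟨y, by rw [hz, Iso.hom_inv_id_assoc]⟩

theorem desusp_inj {Y : T.C} {y y' : sph T (stem j) ⟶ Y}
    (h : (cS T j).hom ≫ (y⟦(1 : ℤ)⟧')⟦(1 : ℤ)⟧' = (cS T j).hom ≫ (y'⟦(1 : ℤ)⟧')⟦(1 : ℤ)⟧') :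
    y = y' :=
  (shiftFunctor T.C (1 : ℤ)).map_injective ((shiftFunctor T.C (1 : ℤ)).map_injective
    ((cancel_epi _).1 h))

variable {F : SpaceFunctor T.C} {e : F.S.obj CCF ≅ (stdEven T.C).L} {D : MUData T.C}

/-- The class `b_j` in the `E_1`-term: it is not a boundary, and it is the image of an element of
order three if `Lifts D j` holds. -/
theorem exists_b (hD : MUUniv e D) (hH : IsHF 3 H.unit) (hξ : ξ ≠ 0) :
    ∃ x, IsB A ξ j x ∧ ¬ A.IsBoundary 2 x ∧ (Lifts D j → ∃ y : sph T (stem j) ⟶ A.X 2,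
      y ≫ hur H.unit _ = x ∧ (3 : ℤ) • (y ≫ A.toSphere 2) = 0) := by
  have hH' : Tr.IsHF 3 η[H.obj] := (Top.isHF_iff 3).1 hH
  obtain ⟨u, _⟩ := Dt.exists_thom D hH'.conc
  obtain ⟨κ, hκ⟩ := exists_smul_xi hH' u hD ((i4 T).hom ≫ ξ)
  have hκ3 : ¬ 3 ∣ κ := fun h => hξ (by
    rw [(smul_xi_eq_zero hH' u hD κ).2 h] at hκ
    rw [← cancel_epi (i4 T).hom, comp_zero]
    exact of_injective (hκ.trans (map_zero (DirectSum.of ((stdEven T.C).Gr _) _)).symm))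
  obtain ⟨i, _, hi⟩ := exists_cocycle ξ j
  have hW : HRing.of _ _ _ (i ≫ cocycle ξ j) = (κ ^ (3 * 3 ^ j)) • bel u (3 ^ j) := by
    rw [hi, hκ, map_zsmul, map_zsmul, bel, bp, bp, zsmul_eq_mul, zsmul_eq_mul, zsmul_eq_mul]
    push_cast
    ring
  have hκ' : ¬ 3 ∣ κ ^ (3 * 3 ^ j) := fun h => hκ3 (Int.prime_three.dvd_of_dvd_pow h)
  obtain ⟨x, hx⟩ := exists_desusp j (i ≫ cocycle ξ j ≫ toE1 A)
  have key : ∀ y : sph T (stem j) ⟶ A.X 2, y ≫ hur H.unit _ = x ↔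
      ((cS T j).hom ≫ (y⟦(1 : ℤ)⟧')⟦(1 : ℤ)⟧') ≫ unitMap H.obj (advTw A).B2 =
        (i ≫ cocycle ξ j) ≫ (advTw A).q := fun y => by
    rw [← cancel_mono ((csh H.obj 1 _).hom ≫ (csh H.obj 1 _).hom⟦(1 : ℤ)⟧'), Category.assoc,
      un_eq, Category.assoc, Category.assoc, Category.assoc, ← toE1_eq, ← hx, ← Functor.map_comp,
      ← Functor.map_comp]
    exact ⟨fun h => by rw [h], desusp_inj j⟩
  have kb : ∀ y : sph T (stem j) ⟶ A.X 2,
      ((cS T j).hom ≫ (y⟦(1 : ℤ)⟧')⟦(1 : ℤ)⟧') ≫ (advTw A).bd =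
        -((cS T j).hom ≫ ((y ≫ A.toSphere 2)⟦(1 : ℤ)⟧')⟦(1 : ℤ)⟧') := fun y => by
    rw [bd_eq, Preadditive.comp_neg, Category.assoc, ← Functor.map_comp, ← Functor.map_comp]
  refine ⟨x, ⟨(cS T j).inv ≫ i, inferInstance, ?_⟩, ?_, ?_⟩
  · exact ((Iso.eq_inv_comp _).2 hx).trans (Category.assoc _ _ _).symm
  · rintro ⟨y, h0, hy⟩
    refine not_bd hH' u (advTw A) hD j hκ' (w := Det.w0 j) rfl _ hW _ ((key y).1 hy) ?_
    rw [kb, show y ≫ A.toSphere 2 = 0 from h0, Functor.map_zero, Functor.map_zero, comp_zero,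
      neg_zero]
  · rintro ⟨t1, ht, U, t, x', g, c, n, hc, h1, h2, h3⟩
    obtain ⟨t', W, e1, e2, e3⟩ := thom_red U hH' u (advTw A) ht t x' g h1 h2
    set c' := c * 8 ^ (3 * 3 ^ j) with hc'
    obtain ⟨k, hk⟩ : (3 : ℤ) ∣ c' * c' - 1 := by
      have h4 : ¬ 3 ∣ c' := fun h => (Int.prime_three.dvd_or_dvd h).elim hc fun h =>
        absurd (Int.prime_three.dvd_of_dvd_pow h) (by norm_num)
      rcases (show c' % 3 = 1 ∨ c' % 3 = 2 by omega) with h | h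
      · exact (show c' * c' - 1 = (c' + 1) * (c' - 1) by ring) ▸ Dvd.dvd.mul_left (by omega) _
      · exact (show c' * c' - 1 = (c' + 1) * (c' - 1) by ring) ▸ Dvd.dvd.mul_right (by omega) _
    obtain ⟨y, hy⟩ := exists_desusp j ((κ ^ (3 * 3 ^ j) * c') • t')
    refine ⟨y, (key y).2 ?_, desusp_inj j ?_⟩
    · rw [hy, Preadditive.zsmul_comp, e2, ← Preadditive.zsmul_comp]
      congr 1
      apply of_injective
      refine (map_zsmul (DirectSum.of ((stdEven T.C).Gr _) _) _ _).trans ?_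
      refine (congrArg _ e1).trans ?_
      have h4 : (c' : HRing (stdEven T.C) (H.obj ⊗ H.obj ⊗ H.obj)) * c' - 1 = 3 * k := by
        exact_mod_cast congrArg Int.cast hk
      rw [three_HF hH' (inlM _ _), zero_mul] at h4
      rw [hW, zsmul_eq_mul, zsmul_eq_mul, zsmul_eq_mul]
      push_cast
      linear_combination (κ : HRing (stdEven T.C) (H.obj ⊗ H.obj ⊗ H.obj)) ^ (3 * 3 ^ j) *
        bel u (3 ^ j) * h4
    · rw [Functor.map_zsmul, Functor.map_zsmul, Preadditive.comp_zsmul, Functor.map_zero,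
        Functor.map_zero, comp_zero, ← neg_eq_zero, ← smul_neg, ← kb, hy, Preadditive.zsmul_comp,
        e3, smul_comm, h3, smul_zero]

theorem not_survives (S : Susp T) (hH : IsHF 3 H.unit)
    (h : ∀ θ : sph T (stem j) ⟶ T.one, A.FiltGe 3 θ) : ¬ Survives A ξ j := by
  rintro ⟨x, -, hx, hb⟩
  have := locallySmall_self.{0} T.C
  obtain ⟨y, rfl⟩ := Cv.exists_of_perm A S Cv.sahn (Cv.exp T.C) (Cv.divi T.C) hH (by
    have : (0 : ℤ) < 3 ^ (j + 1) := by positivity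
    rw [stem]
    omega) 2 x hx
  exact hb (Cv.boundary_of A h le_rfl y)

theorem of_lifts (hD : MUUniv e D) (hH : IsHF 3 H.unit) (hξ : ξ ≠ 0) (h : Lifts D j) :
    Survives A ξ j ∧ ∃ θ, Detected A ξ j θ ∧ addOrderOf θ = 3 := by
  obtain ⟨x, hx, hb, hy⟩ := exists_b A ξ j hD hH hξ
  obtain ⟨y, rfl, h3⟩ := hy h
  have hz : hur H.unit (A.X 2) ≫ A.d 2 = 0 := Dist.zero₂₃ (A.dist 2)
  have hz' : A.g 2 ≫ hur H.unit (A.X 2) = 0 := Dist.zero₁₂ (A.dist 2)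
  have hF : ¬ A.FiltGe 3 (y ≫ A.toSphere 2) := by
    rintro ⟨w, hw⟩
    refine hb ⟨y - w ≫ A.g 2, ?_, ?_⟩
    · change (y - w ≫ A.g 2) ≫ A.toSphere 2 = 0
      rw [Preadditive.sub_comp, Category.assoc, sub_eq_zero]
      exact hw.symm
    · change (y - w ≫ A.g 2) ≫ hur H.unit (A.X 2) = _
      rw [Preadditive.sub_comp, Category.assoc, hz', comp_zero, sub_zero]
  refine ⟨⟨_, hx, fun r => ⟨0, ?_⟩, hb⟩, y ≫ A.toSphere 2, ⟨hF, _, 1, y, hx, rfl, 0, ?_, ?_⟩,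
    addOrderOf_eq_prime (by rw [← natCast_zsmul]; exact h3) fun h0 => hF ⟨0, ?_⟩⟩
  · change 0 ≫ _ = (y ≫ _) ≫ _
    rw [Category.assoc, hz, comp_zero, zero_comp]
  · exact zero_comp
  · rw [one_smul, sub_self]
    exact zero_comp
  · rw [h0]
    exact zero_comp

/-- **The statement from the three inputs.** -/
theorem goal_of (S : Susp T) (hD : MUUniv e D) (h2 : Lifts D 2) (h3 : Lifts D 3)
    (h1 : ∀ (H : T.C) (o : 𝟙_ T.C ⟶ H), Tr.IsHF 3 o → ∀ θ : sph T 34 ⟶ T.one, Tr.AF o 3 θ) :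
    Goal T := by
  have := locallySmall_self.{0} T.C
  refine ⟨?_, fun H hH => ⟨Top.nonempty_tower _, ?_, fun A ξ hξ => ?_⟩⟩
  · obtain ⟨H, _, _, hH⟩ := Dt.exists_HFmon S.toSpaceFunctor (p := 3) (by norm_num)
    exact ⟨⟨H⟩, (Top.isHF_iff 3).2 hH⟩
  · rw [← card_four ((Top.isHF_iff 3).1 hH) hD]
    exact Nat.card_congr ((i4 T).homCongr (Iso.refl _)).symm
  · have hL : ∀ j ∈ ({0, 2, 3} : Set ℕ), Lifts D j := by
      rintro j (rfl | rfl | rfl)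
      exacts [(divides_zero D).lifts, h2, h3]
    refine ⟨fun j => (exists_b A ξ j hD hH hξ).imp fun _ h => h.1, ?_,
      fun j hj => (of_lifts A ξ j hD hH hξ (hL j hj)).2⟩
    ext j
    refine ⟨fun h => ?_, fun hj => (of_lifts A ξ j hD hH hξ (hL j hj)).1⟩
    by_contra hj
    simp only [Set.mem_insert_iff, Set.mem_singleton_iff, not_or] at hj
    refine not_survives A ξ j S hH ?_ h
    rcases (show j = 1 ∨ 4 ≤ j by omega) with rfl | h4
    · exact fun θ => Top.filtGe_three A (h1 _ _ ((Top.isHF_iff 3).1 hH) θ)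
    · exact (((Top.fin2.2 T S).2 _ _ hH).2 A j h4).1

/-- The three inputs, in every stable homotopy category. -/
def Inputs : Prop := ∀ (T : SHCat) (_ : Susp T), ∃ (F : SpaceFunctor T.C)
    (e : F.S.obj CCF ≅ (stdEven T.C).L) (D : MUData T.C), MUUniv e D ∧ Lifts D 2 ∧ Lifts D 3 ∧
      ∀ (H : T.C) (o : 𝟙_ T.C ⟶ H), Tr.IsHF 3 o → ∀ θ : sph T 34 ⟶ T.one, Tr.AF o 3 θ

theorem final_of (h : Inputs) : (∃ (T : SHCat) (S : Susp T), Nonempty (P251CX.IsSH T S.1)) ∧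
    ∀ (T : SHCat) (_ : Susp T), Goal T :=
  ⟨P251CX.exists_isSH, fun T S => by
    obtain ⟨_, _, _, hD, h2, h3, h1⟩ := h T S
    exact goal_of S hD h2 h3 h1⟩

end Vale.Agent.P236K
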