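import Vale.Agent.P236K.Toda
import Vale.Agent.P236Z.Dt.HF
import Vale.Agent.P236Z.Det.Base
import Vale.Agent.P236Z.Tr.Main
import Vale.Agent.P251.F.Detect

/-!
# P236K: the stem `34` has Adams filtration at least three

`a1`: `h_0 b_0^3` is not a coboundary modulo three (evaluation on an automorphism of order three).
`j1`: from `A2` (the second cohomology modulo three in weight `18` has dimension at most one).
-/

open CategoryTheory MonoidalCategory Limits Pretriangulated MonObj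

set_option linter.unusedSectionVars false

universe v u

namespace Vale.Agent.P236K

open Vale.Agent.P251 Vale.Agent.P251.T Vale.Agent.P251.F Vale.Agent.P251.I
  Vale.Agent.P251.M Vale.Agent.P257.H314 Vale.Agent.P257.H712 Vale.Agent.P257 Vale.Agent.P251.H
  Vale.Agent.P236Z.Dt Vale.Agent.P236Z Vale.Agent.P217
open Vale.Agent.P251.S hiding IC
open Vale.Agent.P251.B (sphE)

theorem mem_IC_one {s : ℕ} {z : Cob Laz s} : z ∈ IC 3 1 s ↔ (3 : Cob Laz s) ∣ z := by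
  rw [IC, P236Z.Det.I_one, Ideal.map_span, Set.image_singleton, map_ofNat, Ideal.mem_span_singleton]

/-- An automorphism of order three of a law in characteristic three on which `t_1` is not zero. -/
theorem exists_cycRep {t : Cob Laz 1} (ht : IsT1 3 t) : ∃ (k : Type) (_ : Field k) (_ : CharP k 3)
    (R : CycRep 3 Laz k), R.E t ![0, 1] ≠ 0 := by
  have hh : 1 ≤ 3 - 1 := by norm_num
  let k : Type := GaloisField 3 (3 - 1)
  have hk : Nat.card k = 3 ^ (3 - 1) := GaloisField.card 3 (3 - 1) (by omega)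
  have hfin : Finite k := Nat.finite_of_card_ne_zero (by rw [hk]; norm_num)
  let κ : ZMod 3 →+* k := algebraMap (ZMod 3) k
  obtain ⟨Γ, hΓ⟩ := exists_isHonda (p := 3) hh
  obtain ⟨Hl, hHl, hlog⟩ := hΓ.exists_logL hh
  let Ht : Law ℤ_[3] := ⟨Hl, IsHonda.lift_commL hlog⟩
  let H : Law k := Ht.map (κ.comp PadicInt.toZMod)
  have hH : H.toFG = Γ.map κ := by
    rw [← hHl]
    apply FormalGroup.ext
    ext d
    rfl
  have hover : HondaOver 3 (3 - 1) H.toFG := by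
    rw [hH]
    exact hondaOver_of_isHonda hΓ hh hk κ
  obtain ⟨σ, hσ, hσ1, hσ2⟩ := hover.exists_orderOf_cf (by norm_num) hk
  let R : CycRep 3 Laz k := CycRep.ofAut LawRing.epi_laz (Laz.lift H) H (Laz.univ_map_lift H) σ hσ
    (by rw [hσ1 1 (by norm_num), if_pos rfl])
  have hgg : ((R.ch ![0, 1]).g 1).val = σ.val := by
    change (σ ^ (1 - 0 : ZMod 3).val).val = σ.val
    rw [sub_zero, show (1 : ZMod 3).val = 1 from rfl, pow_one]
  refine ⟨k, inferInstance, inferInstance, R, ?_⟩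
  have h2 := ev_t1_aut (by norm_num) ht κ Ht (fun d hd => lift_coeff_eq_zero hh hlog d hd)
    (R.ch ![0, 1]) (Laz.univ_map_lift H) (fun i hi => by rw [hgg]; exact hσ1 i hi)
  rw [CycRep.E, h2, hgg]
  exact neg_ne_zero.2 hσ2

theorem cap_cup {k : Type} [CommRing k] (R : CycRep 3 Laz k) {s : ℕ} (x : Cob Laz s)
    (b : Cob Laz 2) : F.Cyc.cap (R.E (Cob.cup (a := s) (b := 2) x b)) =
      fun a => R.E x a * F.Cyc.cval (R.E b) := by
  funext a
  unfold F.Cyc.cap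
  rw [← F.Cyc.cval_eq (R.E_inv b) (a (Fin.last s)), Finset.mul_sum]
  refine Finset.sum_congr rfl fun u _ => ?_
  refine (R.E_cup (a := s) (b := 2) x b _).trans ?_
  exact congrArg₂ (· * ·) (congrArg _ (F.Cyc.snoc_snoc_front a u _))
    (congrArg _ (F.Cyc.snoc_snoc_back a u _))

theorem cap_mul {k : Type} [CommRing k] {n : ℕ} (G : (Fin (n + 2) → ZMod 3) → k) (c : k) :
    F.Cyc.cap (fun a => G a * c) = fun a => F.Cyc.cap G a * c :=
  funext fun _ => (Finset.sum_mul _ _ _).symm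

theorem a1 : A1 := by
  intro t ht g hg
  obtain ⟨k, _, _, R, hR⟩ := exists_cycRep ht
  obtain ⟨z, hz⟩ := mem_IC_one.1 hg
  have h1 : R.E (cupN t (bcls 3 t) 3) = F.Cyc.dd (R.E g) := by
    rw [← R.E_d, sub_eq_iff_eq_add.1 hz]
    funext a
    rw [CycRep.E, map_add, map_mul, map_ofNat, show (3 : k) = 0 from CharP.cast_eq_zero k 3,
      zero_mul, zero_add, CycRep.E]
  have h2 := congrArg (fun G => F.Cyc.cap (F.Cyc.cap (F.Cyc.cap G)) ![0, 1]) h1
  have e : ∀ {n : ℕ} (G : (Fin (n + 2) → ZMod 3) → k),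
      F.Cyc.cap (F.Cyc.dd G) = F.Cyc.dd (F.Cyc.cap G) := fun G => funext (F.Cyc.cap_dd G)
  have h3 : F.Cyc.cap (F.Cyc.cap (F.Cyc.cap (R.E (cupN t (bcls 3 t) 3)))) = fun a => R.E t a *
      F.Cyc.cval (R.E (bcls 3 t)) * F.Cyc.cval (R.E (bcls 3 t)) * F.Cyc.cval (R.E (bcls 3 t)) := by
    have h4 := cap_cup R (cupN t (bcls 3 t) 2) (bcls 3 t)
    have h5 := cap_cup R (cupN t (bcls 3 t) 1) (bcls 3 t)
    have h6 := cap_cup R t (bcls 3 t)
    refine (congrArg (fun G => F.Cyc.cap (F.Cyc.cap G)) h4).trans ?_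
    rw [cap_mul, cap_mul]
    refine congrArg (fun G a => G a * _) ((congrArg F.Cyc.cap h5).trans ?_)
    rw [cap_mul]
    exact congrArg (fun G a => G a * _) h6
  have hi := (R.E_inv g).cap.cap.cap 1 ![0]
  simp only [h3, e] at h2
  rw [CycRep.cval_bcls (ZMod.castHom (dvd_refl 3) k) R (BCocycle 3 (by norm_num) t ht).2.1,
    F.Cyc.dd, Fin.sum_univ_two,
    show (fun j => ![(0 : ZMod 3), 1] ((0 : Fin 2).succAbove j)) = fun j => ![0] j + 1 from
      funext fun j => by fin_cases j; rfl,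
    show (fun j => ![(0 : ZMod 3), 1] ((1 : Fin 2).succAbove j)) = ![0] from
      funext fun j => by fin_cases j; rfl, hi] at h2
  simp [hR] at h2

/-- The second cohomology modulo three in weight `18` has dimension at most one. -/
def A2 : Prop := ∀ x y : Cob Laz 2, Cob.IsWt 18 x → Cob.IsWt 18 y → Cob.d 2 x ∈ IC 3 1 3 →
  Cob.d 2 y ∈ IC 3 1 3 → ∃ (a b : ℤ) (g : Cob Laz 1), Cob.IsWt 18 g ∧ ¬ (3 ∣ a ∧ 3 ∣ b) ∧
    a • x + b • y - Cob.d 1 g ∈ IC 3 1 2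

variable {T : Type u} [Category.{v} T] [Preadditive T] [HasZeroObject T]
    [HasShift T ℤ] [∀ n : ℤ, (shiftFunctor T n).Additive] [Pretriangulated T]
    [MonoidalCategory T] [SymmetricCategory T] [TensorTriangulated T]
    [HasCoproducts.{0} T] [MonoidalClosed T] [IsTriangulated T] [HasProducts.{0} T] [StableCat T]

/-- A permanent cycle of filtration two in the stem `34` of `S / 3` is a coboundary. -/
theorem cobdy_of_perm (F : SpaceFunctor T) (D : MUData T) (U : UnitCof D.R) (hA : A2) {M : T}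
    {i : 𝟙_ T ⟶ M} {δ : M ⟶ (𝟙_ T)⟦(1 : ℤ)⟧} (hM : Dist (((3 : ℕ) : ℤ) • 𝟙 (𝟙_ T)) i δ)
    (t : (stdEven T).S 18 ⟶ U.cobar.B 2 (𝟙_ T) ⊗ M) (x : Cob.wt Laz 2 18)
    (hx : Cob.d 2 x.1 ∈ IC 3 1 3)
    (ht : t ≫ (unitMap D.R _ ▷ M) = D.evw 2 18 x ≫ qq D U 2 ≫ red i _) :
    ∃ g : Cob.wt Laz 1 18, x.1 - Cob.d 1 g.1 ∈ IC 3 1 2 := by
  have H := cyc_modP D (p := 3) (by norm_num) hM
  obtain ⟨m, z, hm, hz, hk⟩ := exists_src F D U hM a1
  have h2 : m + 1 + ((2 : ℕ) : ℤ) = 2 * 18 := by rw [hm]; rfl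
  have h1 : m + 1 + 1 + ((1 : ℕ) : ℤ) = 2 * 18 := by rw [hm]; rfl
  let X := (U.tow (𝟙_ T)).map (tensorRight M)
  let q : Cob.wt Laz 2 18 →+ (CV U M).E 2 (m + 1) :=
    (U.qE (𝟙_ T) (tensorRight M) (𝟙_ T) h2).comp
      ((Preadditive.leftComp _ (sphE T 18).inv).comp (phiV D U i 2 18))
  have hq : ∀ w, q w = U.qE (𝟙_ T) (tensorRight M) (𝟙_ T) h2
      ((sphE T 18).inv ≫ phiV D U i 2 18 w) := fun _ => rfl
  have hq0 : ∀ w : Cob.wt Laz 2 18, w.1 ∈ IC 3 1 2 → q w = 0 := fun w hw => by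
    rw [hq, (Cyc.phiV_ker H 2 18 w).2 hw, comp_zero, map_zero]
  obtain ⟨c, hc, rfl⟩ := U.exists_cocycle_qE (𝟙_ T) (tensorRight M) (𝟙_ T) h2 z hz
  obtain ⟨y, rfl, hy⟩ := Cyc.exists_cocycle H (sphE T 18) c hc
  rw [← hq] at hk
  have hkx : (CV U M).k 2 (m + 1) m rfl (q x) = 0 := by
    have h3 : q x = (CV U M).j 2 (m + 1) ((X.eD (𝟙_ T) h2).symm ((sphE T 18).inv ≫ t)) := by
      apply (X.eE (𝟙_ T) h2).injective
      refine Eq.trans ?_ (X.eE_j (𝟙_ T) h2 _).symm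
      rw [AddEquiv.apply_symm_apply]
      refine (U.eT_qE (𝟙_ T) (tensorRight M) (𝟙_ T) h2 _).trans ?_
      refine (Category.assoc _ _ _).trans (Eq.trans (congrArg _ ?_) (Category.assoc _ _ _).symm)
      refine Eq.trans ?_ ht.symm
      rw [qq, Category.assoc, red_nat, phiV_apply, D.phi_apply, Category.assoc, Category.assoc]
      rfl
    rw [h3, Couple.k_j]
  obtain ⟨a, b, g, hg, hab, h⟩ := hA y.1 x.1 y.2 x.2 hy hx
  have hkg : (CV U M).k 2 (m + 1) m rfl (q (Cob.dwt Laz 1 18 ⟨g, hg⟩)) = 0 := by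
    rw [hq, phiV_d, ← Category.assoc, ← U.d_qE (𝟙_ T) (tensorRight M) (𝟙_ T) rfl h1 h2,
      Couple.d_apply, Couple.k_j]
  have h4 := congrArg ((CV U M).k 2 (m + 1) m rfl)
    (hq0 (a • y + b • x - Cob.dwt Laz 1 18 ⟨g, hg⟩) h)
  have h5 := congrArg ((CV U M).k 2 (m + 1) m rfl)
    (hq0 ((3 : ℤ) • y) (mem_IC_one.2 ⟨y.1, by simp⟩))
  simp only [map_sub, map_add, map_zsmul, hkx, hkg, smul_zero, add_zero, sub_zero, map_zero]
    at h4 h5
  have sq : ∀ c : ℤ, ¬ 3 ∣ c → ∃ k, c * c = 1 + k * 3 := fun c hc => by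
    obtain ⟨e, rfl | rfl⟩ : ∃ e, c = 3 * e + 1 ∨ c = 3 * e - 1 := ⟨(c + 1) / 3, by omega⟩
    · exact ⟨e * (3 * e + 2), by ring⟩
    · exact ⟨e * (3 * e - 2), by ring⟩
  obtain ⟨a', rfl⟩ : 3 ∣ a := by
    by_contra ha
    obtain ⟨k, hk'⟩ := sq a ha
    have h6 := congrArg (a • ·) h4
    simp only [smul_smul, hk', add_smul, mul_smul, h5, smul_zero, add_zero, one_smul] at h6
    exact hk h6
  obtain ⟨k, hk'⟩ := sq b fun hb => hab ⟨dvd_mul_right _ _, hb⟩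
  obtain ⟨r, hr⟩ := mem_IC_one.1 h
  refine ⟨b • ⟨g, hg⟩, mem_IC_one.2 ⟨b * r - b * a' * y.1 - k * x.1, ?_⟩⟩
  have h7 : (b : Cob Laz 2) * b = 1 + k * 3 := by exact_mod_cast congrArg Int.cast hk'
  rw [AddSubgroup.coe_zsmul, map_zsmul]
  simp only [zsmul_eq_mul] at hr ⊢
  push_cast at hr
  linear_combination (b : Cob Laz 2) * hr - x.1 * h7

theorem af3_one (F : SpaceFunctor T) (D : MUData T) (hA : A2) {H : T} [MonObj H] [IsCommMonObj H]
    (hH : Tr.IsHF 3 η[H]) (θ : (stdEven T).S 17 ⟶ 𝟙_ T) : AF3 H θ := by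
  have h3 : (3 : ℤ) • η[H] = 0 := (hH.ord 3).2 (dvd_refl _)
  obtain ⟨U⟩ := exists_unitCof D.R
  obtain ⟨k, hk⟩ := descend h3 (𝟙_ T)
  obtain ⟨N, i, δ, hN⟩ := exists_cone ((3 : ℤ) ^ (k + 1) • 𝟙 (𝟙_ T))
  obtain ⟨M, i', δ', hM⟩ := exists_cone (((3 : ℕ) : ℤ) • 𝟙 (𝟙_ T))
  obtain ⟨r, hr⟩ := hN.desc₂ i' (by
    rw [pow_succ, mul_smul, Preadditive.zsmul_comp]
    exact (congrArg _ hM.zero₁₂).trans (smul_zero _))
  have hw : (17 : ℤ) + 1 = 18 := rfl
  obtain ⟨t, x, x', hx, ht, ht'⟩ := exists_lift D U (p := 3) (by norm_num) hN hw (by norm_num) θ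
  obtain ⟨g, hg⟩ := cobdy_of_perm F D U hA hM (t ≫ (_ ◁ r)) x (mem_IC_one.2
    ⟨3 ^ k * x'.1, (congrArg Subtype.val hx).trans (by
      rw [AddSubgroup.coe_zsmul, zsmul_eq_mul]; push_cast; ring)⟩) (by
    rw [Category.assoc, whisker_exchange, reassoc_of% ht', Dt.red, Dt.red, Category.assoc,
      ← MonoidalCategory.whiskerLeft_comp, hr])
  have h₁ := (af3_of_mem D hH.conc U (p := 3) h3 i t x g hg ht').comp (eS hw).inv (𝟙 _)
  rw [ht, Category.comp_id, Iso.inv_hom_id_assoc] at h₁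
  exact hk _ (by omega) N i δ hN _ θ h₁.of_shift.of_shift

/-- **The stem `34` has Adams filtration at least three.** -/
theorem j1 [LocallySmall.{0} T] (F : SpaceFunctor T) (D : MUData T) (hA : A2) (H : T)
    (o : 𝟙_ T ⟶ H) (ho : Tr.IsHF 3 o) (θ : (𝟙_ T)⟦(34 : ℤ)⟧ ⟶ 𝟙_ T) : Tr.AF o 3 θ := by
  obtain ⟨H₀, _, _, hH₀⟩ := exists_HFmon F (p := 3) (by norm_num)
  refine Tr.trans F F hH₀ ho 3 _ (fun θ₀ => ?_) θ
  have h := (af3_one F D hA hH₀ ((sphE T 17).hom ≫ θ₀)).af.pre (sphE T 17).inv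
  exact (Iso.inv_hom_id_assoc (sphE T 17) θ₀) ▸ h

end Vale.Agent.P236K
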