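import Vale.Agent.P236K.Fin
import Vale.Agent.P236K.One

/-!
# P236K: the statement from the survival of two classes in the `MU`-tower of `S / 3`
-/

open CategoryTheory

namespace Vale.Agent.P236K

open Vale.Agent.P251 Vale.Agent.P251.M Vale.Agent.P251.I Vale.Agent.P251.St Vale.Agent.P236Z

theorem final_of_moore (hA : A2)
    (h : ∀ (T : SHCat) (_ : SpaceFunctor T.C) (D : MUData T.C), Moore D 2 ∧ Moore D 3) :
    (∃ (T : SHCat) (S : Susp T), Nonempty (P251CX.IsSH T S.1)) ∧
      ∀ (T : SHCat) (_ : Susp T), Goal T := by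
  refine final_of fun T S => ?_
  have := locallySmall_self.{0} T.C
  obtain ⟨M⟩ := nonempty_MUMon S.toSpaceFunctor (stdEven T.C) (lineIso S.toSpaceFunctor)
  obtain ⟨b⟩ := M.nonempty_muBasis
  obtain ⟨h2, h3⟩ := h T S.toSpaceFunctor (M.data b)
  exact ⟨_, _, _, M.muUniv b, h2.divides.lifts, h3.divides.lifts,
    fun H o ho θ => j1 S.toSpaceFunctor (M.data b) hA H o ho θ⟩

end Vale.Agent.P236K
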