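import Vale.Agent.P236K.Tw
import Vale.Agent.P236K.Alg
import Vale.Agent.P251.B.Final

/-!
# P236K: from the tower of `MU` to the tower of `HF_3`
-/

open CategoryTheory MonoidalCategory MonObj Limits Pretriangulated

set_option linter.unusedSectionVars false

universe u

namespace Vale.Agent.P236K

open Vale.Agent.P251 Vale.Agent.P251.S Vale.Agent.P251.T Vale.Agent.P251.M Vale.Agent.P251.F
  Vale.Agent.P251.I EvenSpheres Vale.Agent.P257.H80 Vale.Agent.P251.H Vale.Agent.P236Z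
  Vale.Agent.P236Z.Dt

variable {T : Type u} [Category.{0} T] [Preadditive T] [HasZeroObject T]
    [HasShift T ℤ] [∀ n : ℤ, (shiftFunctor T n).Additive] [Pretriangulated T] [IsTriangulated T]
    [MonoidalCategory T] [SymmetricCategory T] [TensorTriangulated T] [MonoidalClosed T]
    [HasCoproducts.{0} T] [HasProducts.{0} T] [StableCat T]
  {F : SpaceFunctor T} {e : F.S.obj CCF ≅ (stdEven T).L} {D : MUData T}

/-- the canonical tower -/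
@[reducible] noncomputable def cofTw {R : T} [MonObj R] (U : UnitCof R) : Tw R where
  B1 := U.cobar.B 1 (𝟙_ T)
  B2 := U.cobar.B 2 (𝟙_ T)
  k0 := (ρ_ R).inv ≫ U.cobar.k 0 (𝟙_ T)
  b0 := U.bd 0 (𝟙_ T)
  D0 := by
    have h := Tr.dist_iso (f' := η[R]) (g' := (ρ_ R).inv ≫ U.cobar.k 0 (𝟙_ T))
      (U.towerTriangle_distinguished 0 (𝟙_ T)) (Iso.refl _) (ρ_ R).symm (Iso.refl _) (by
        change η[R] ≫ (ρ_ R).inv = 𝟙 _ ≫ (λ_ (𝟙_ T)).inv ≫ η[R] ▷ 𝟙_ T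
        rw [Category.id_comp, rightUnitor_inv_naturality, unitors_inv_equal]) (Category.comp_id _)
    rwa [Iso.refl_hom, Iso.refl_inv, Category.id_comp, CategoryTheory.Functor.map_id,
      Category.comp_id] at h
  k1 := U.cobar.k 1 (𝟙_ T)
  b1 := U.bd 1 (𝟙_ T)
  D1 := U.towerTriangle_distinguished 1 (𝟙_ T)

/-- `R^{⊗ 3} ⟶ R ⊗ (R ⊗ R)` -/
noncomputable def j3 (R : T) : Am R 3 ⟶ R ⊗ (R ⊗ R) :=
  (((λ_ R).hom ▷ R) ▷ R) ≫ (α_ R R R).hom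

instance (R : T) [MonObj R] : IsMonHom (j3 R) := by
  unfold j3
  infer_instance

theorem inl_assoc (R : T) [MonObj R] : inlM (R ⊗ R) R ≫ (α_ R R R).hom = e01 R := by
  simp [inlM, e01]

theorem v0_j3 (R : T) [MonObj R] : Am.v R (0 : Fin 3) ≫ j3 R = inlM R R ≫ e01 R := by
  change ((inrM (𝟙_ T) R ≫ inlM _ R) ≫ inlM _ R) ≫ j3 R = _
  have h : inrM (𝟙_ T) R ≫ (λ_ R).hom = 𝟙 R := by
    change ((λ_ R).inv ≫ 𝟙 _ ▷ R) ≫ (λ_ R).hom = 𝟙 R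
    simp
  rw [j3, Category.assoc, Category.assoc, inlM_whiskerRight_assoc, inlM_whiskerRight_assoc,
    reassoc_of% h, inl_assoc]

theorem v1_j3 (R : T) [MonObj R] : Am.v R (1 : Fin 3) ≫ j3 R = inrM R R ≫ e01 R := by
  change (inrM (𝟙_ T ⊗ R) R ≫ inlM _ R) ≫ j3 R = _
  rw [j3, Category.assoc, inlM_whiskerRight_assoc, inrM_whiskerRight_assoc, inl_assoc]

theorem v1_j3' (R : T) [MonObj R] : inrM R R ≫ e01 R = inlM R R ≫ e12 R := inr_whisker _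

theorem v2_j3 (R : T) [MonObj R] : Am.v R (2 : Fin 3) ≫ j3 R = inrM R R ≫ e12 R := by
  change inrM ((𝟙_ T ⊗ R) ⊗ R) R ≫ j3 R = _
  rw [j3, inrM_whiskerRight_assoc, ← inr_whisker]
  change ((λ_ R).inv ≫ ((λ_ (𝟙_ T)).inv ≫ (η[R] ⊗ₘ η[R])) ▷ R) ≫ _ = _
  simp only [inrM, MonoidalCategory.tensorHom_def, comp_whiskerRight, Category.assoc,
    MonoidalCategory.whiskerLeft_comp]
  monoidal

variable (U : UnitCof D.R)

theorem qq_two : qq D U 2 = j3 D.R ≫ (cofTw U).q := by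
  rw [qq, CobarData.q_two]
  change ((ρ_ _).inv ≫ (α_ _ _ _).hom ≫ (α_ _ _ _).hom ≫ (α_ _ _ _).hom ≫ (λ_ _).hom) ≫
    D.R ◁ (D.R ◁ (U.ρ ▷ 𝟙_ T) ≫ U.cobar.k 1 (𝟙_ T)) = j3 D.R ≫
    D.R ◁ (D.R ◁ ((ρ_ D.R).inv ≫ U.ρ ▷ 𝟙_ T) ≫ U.cobar.k 1 (𝟙_ T))
  simp only [MonoidalCategory.whiskerLeft_comp, ← Category.assoc, j3]
  congr 2
  monoidal

theorem thom_t1 {H N : T} [MonObj H] [IsCommMonObj H] (hH : Tr.IsHF 3 η[H]) (u : D.R ⟶ H)
    [IsMonHom u] [MonObj N] [IsCommMonObj N] {t1 : Cob Laz 1} (ht : IsT1 3 t1) (φ : H ⊗ H ⟶ N)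
    [IsMonHom φ] (ψ : Am D.R 3 ⟶ N) [IsMonHom ψ] (α : Fin 2 → Fin 3)
    (h0 : Am.v D.R (α 0) ≫ ψ = u ≫ inlM H H ≫ φ) (h1 : Am.v D.R (α 1) ≫ ψ = u ≫ inrM H H ≫ φ) :
    HRing.map ψ (D.ev 2 (Cob.map α t1)) = 8 * HRing.map φ (xi u) := by
  obtain ⟨q, rfl⟩ := Det.t1_eq ht
  have h2 : Am.map D.R α ≫ ψ = pairM (u ≫ inlM H H ≫ φ) (u ≫ inrM H H ≫ φ) :=
    eq_pairM (by rw [Am.v_map_assoc, h0]) (by rw [Am.v_map_assoc, h1])
  rw [← D.ev_map, map_map _ _ _ h2, map_add, map_add, map_mul, map_mul, map_mul, map_mul,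
    ← ser_c, ← ser_c, ser_c_one hH, zero_mul, add_zero, map_ofNat, map_ofNat,
    map_xi u φ rfl rfl]

/-- **Thom reduction.** -/
theorem thom_red {H : T} [MonObj H] [IsCommMonObj H] (hH : Tr.IsHF 3 η[H]) (u : D.R ⟶ H)
    [IsMonHom u] (V : Tw H) {t1 : Cob Laz 1} (ht : IsT1 3 t1) {j n : ℕ} {c : ℤ}
    (t : (stdEven T).S (Det.w0 j) ⟶ U.cobar.B 2 (𝟙_ T)) (x : Cob.wt Laz 2 (Det.w0 j))
    (g : Cob.wt Laz 1 (Det.w0 j)) (hx : t ≫ unitMap D.R _ = D.evw 2 _ x ≫ qq D U 2)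
    (hc : x.1 - Cob.d 1 g.1 - (c : Cob Laz 2) * bj t1 j ∈ IC 3 n 2) :
    ∃ (t' : (stdEven T).S (Det.w0 j) ⟶ V.B2) (W : _ ⟶ H ⊗ (H ⊗ H)),
      HRing.of (stdEven T) _ _ W = (c * 8 ^ (3 * 3 ^ j)) • bel u (3 ^ j) ∧
      t' ≫ unitMap H V.B2 = W ≫ V.q ∧ t' ≫ V.bd = t ≫ (cofTw U).bd := by
  obtain ⟨φ, h1, h2⟩ := (cofTw U).exists_map V u
  let ψ : Am D.R 3 ⟶ H ⊗ (H ⊗ H) := j3 D.R ≫ (u ⊗ₘ (u ⊗ₘ u))
  have v0 : Am.v D.R (0 : Fin 3) ≫ ψ = u ≫ inlM H H ≫ e01 H := by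
    rw [← Category.assoc, v0_j3, Category.assoc, e01_nat, ← Category.assoc, inl_tensor,
      Category.assoc]
  have v1 : Am.v D.R (1 : Fin 3) ≫ ψ = u ≫ inrM H H ≫ e01 H := by
    rw [← Category.assoc, v1_j3, Category.assoc, e01_nat, ← Category.assoc, inr_tensor,
      Category.assoc]
  have v2 : Am.v D.R (2 : Fin 3) ≫ ψ = u ≫ inrM H H ≫ e12 H := by
    rw [← Category.assoc, v2_j3, Category.assoc, e12_nat, ← Category.assoc, inr_tensor,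
      Category.assoc]
  let g' : (stdEven T).S (Det.w0 j) ⟶ U.cobar.B 2 (𝟙_ T) :=
    D.evw 1 _ g ≫ qq D U 1 ≫ U.cobar.k 1 (𝟙_ T)
  have h3 : (t - g') ≫ unitMap D.R _ = D.evw 2 _ (x - Cob.dwt Laz 1 _ g) ≫ qq D U 2 := by
    rw [Preadditive.sub_comp, hx, map_sub, Preadditive.sub_comp, D.evw_dwt, ← dd, Category.assoc,
      Category.assoc, Category.assoc, dd_qq D U 1]
  refine ⟨(t - g') ≫ φ, D.evw 2 _ (x - Cob.dwt Laz 1 _ g) ≫ ψ, ?_, ?_, ?_⟩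
  · have h4 := evw_thom D hH.conc ((hH.ord _).2 dvd_rfl) u (inlM H H ≫ e01 H) ψ v0
      (x - Cob.dwt Laz 1 _ g - c • ⟨_, isWt_bj ht j⟩) (by
        change x.1 - Cob.d 1 g.1 - c • bj t1 j ∈ _
        rwa [zsmul_eq_mul])
    rw [map_sub _ _ (c • _), Preadditive.sub_comp, sub_eq_zero, map_zsmul,
      Preadditive.zsmul_comp] at h4
    rw [h4]
    refine (map_zsmul (DirectSum.of ((stdEven T).Gr _) _) _ _).trans ?_
    rw [mul_smul]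
    congr 1
    refine (HRing.map_of ψ _ _).symm.trans ?_
    rw [D.of_evw]
    dsimp only
    rw [bj, map_bp, map_bp, thom_t1 hH u ht (e01 H) ψ _ v0 v1,
      thom_t1 hH u ht (e12 H) ψ _ (v1.trans (by rw [v1_j3'])) v2, bel, bp, bp, zsmul_eq_mul]
    push_cast
    ring
  · have h4 : unitMap H (cofTw U).B2 = unitMap D.R _ ≫ u ▷ _ := by
      rw [unitMap, unitMap, Category.assoc, ← comp_whiskerRight, IsMonHom.one_hom]
    rw [Category.assoc, unitMap_nat φ, h4, Category.assoc, reassoc_of% h3, qq_two, Category.assoc,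
      Category.assoc, Category.assoc, Tw.q, Tw.q, whisker_exchange_assoc,
      ← MonoidalCategory.whiskerLeft_comp, h2, MonoidalCategory.tensorHom_def u (u ⊗ₘ u),
      Category.assoc, MonoidalCategory.whiskerLeft_comp]
  · have h4 : U.cobar.k 1 (𝟙_ T) ≫ (cofTw U).bd = 0 := by
      rw [Tw.bd, ← Category.assoc]
      exact (congrArg (· ≫ _) (cofTw U).D1.zero₂₃).trans zero_comp
    rw [Category.assoc, h1, Preadditive.sub_comp, Category.assoc, Category.assoc, h4, comp_zero,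
      comp_zero, sub_zero]

/-- If the boundary of `h` is divisible by `3` in the second stage, the quotient gives an element
of order three of the sphere, with cocycle `d h / 3`. -/
theorem of_div {w : ℤ} (h : Cob.wt Laz 1 w) (y : Cob.wt Laz 2 w) (hy : Cob.d 1 h.1 = 3 * y.1)
    (t : (stdEven T).S w ⟶ U.cobar.B 2 (𝟙_ T))
    (ht : (3 : ℤ) • t = D.evw 1 w h ≫ qq D U 1 ≫ U.cobar.k 1 (𝟙_ T)) :
    t ≫ unitMap D.R _ = D.evw 2 w y ≫ qq D U 2 ∧ (3 : ℤ) • (t ≫ (cofTw U).bd) = 0 := by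
  obtain ⟨M, i, δ, hM⟩ := exists_cone ((3 : ℤ) • 𝟙 (𝟙_ T))
  constructor
  · rw [← sub_eq_zero, ← cancel_epi (B.sphE T w).inv, comp_zero]
    refine B.torsionFree_W D U (p := 3) (by norm_num) hM 2 w _ ?_
    have h1 : Cob.dwt Laz 1 w h = (3 : ℤ) • y := Subtype.ext (hy.trans (by
      change _ = (3 : ℤ) • y.1
      rw [zsmul_eq_mul]
      rfl))
    rw [← Preadditive.comp_zsmul, Nat.cast_ofNat, smul_sub, ← Preadditive.zsmul_comp, ht,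
      ← Preadditive.zsmul_comp, ← map_zsmul, ← h1, D.evw_dwt, ← dd, Category.assoc, Category.assoc,
      Category.assoc, dd_qq D U 1, sub_self, comp_zero]
  · have h4 : U.cobar.k 1 (𝟙_ T) ≫ (cofTw U).bd = 0 := by
      rw [Tw.bd, ← Category.assoc]
      exact (congrArg (· ≫ _) (cofTw U).D1.zero₂₃).trans zero_comp
    rw [← Preadditive.zsmul_comp, ht, Category.assoc, Category.assoc, h4, comp_zero, comp_zero]

variable (D)

/-- An element of order three of the sphere, with a lift to the second stage of the tower of `MU`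
whose cocycle is a unit multiple of `b_j` modulo coboundaries and `(3, v_1, …)`. -/
def Lifts (j : ℕ) : Prop :=
  ∃ (t1 : Cob Laz 1) (_ : IsT1 3 t1) (U : UnitCof D.R)
    (t : (stdEven T).S (Det.w0 j) ⟶ U.cobar.B 2 (𝟙_ T)) (x : Cob.wt Laz 2 (Det.w0 j))
    (g : Cob.wt Laz 1 (Det.w0 j)) (c : ℤ) (n : ℕ), ¬ 3 ∣ c ∧
      t ≫ unitMap D.R _ = D.evw 2 _ x ≫ qq D U 2 ∧
      x.1 - Cob.d 1 g.1 - (c : Cob Laz 2) * bj t1 j ∈ IC 3 n 2 ∧ (3 : ℤ) • (t ≫ (cofTw U).bd) = 0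

/-- A cocycle `h` modulo three which lifts a unit multiple of `t_1 ^ (3 ^ (j + 1))`, whose boundary
in the second stage of the tower of `MU` is divisible by three. -/
def Divides (j : ℕ) : Prop :=
  ∃ (t1 : Cob Laz 1) (_ : IsT1 3 t1) (U : UnitCof D.R) (h : Cob.wt Laz 1 (Det.w0 j)) (c : ℤ)
    (n : ℕ) (t : (stdEven T).S (Det.w0 j) ⟶ U.cobar.B 2 (𝟙_ T)), ¬ 3 ∣ c ∧
      (3 : Cob Laz 2) ∣ Cob.d 1 h.1 ∧ h.1 - c * t1 ^ 3 ^ (j + 1) ∈ IC 3 n 1 ∧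
      (3 : ℤ) • t = D.evw 1 _ h ≫ qq D U 1 ≫ U.cobar.k 1 (𝟙_ T)

/-- A cocycle `h` modulo three which lifts a unit multiple of `t_1 ^ (3 ^ (j + 1))` and survives in
the tower of the Moore spectrum. -/
def Moore (j : ℕ) : Prop :=
  ∃ (t1 : Cob Laz 1) (_ : IsT1 3 t1) (U : UnitCof D.R) (M : T) (i : 𝟙_ T ⟶ M)
    (δ : M ⟶ (𝟙_ T)⟦(1 : ℤ)⟧) (_ : Dist ((3 : ℤ) • 𝟙 (𝟙_ T)) i δ) (h : Cob.wt Laz 1 (Det.w0 j))
    (c : ℤ) (n : ℕ) (s : (stdEven T).S (Det.w0 j) ⟶ U.cobar.B 1 (𝟙_ T) ⊗ M), ¬ 3 ∣ c ∧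
      (3 : Cob Laz 2) ∣ Cob.d 1 h.1 ∧ h.1 - c * t1 ^ 3 ^ (j + 1) ∈ IC 3 n 1 ∧
      s ≫ unitMap D.R _ ▷ M = D.evw 1 _ h ≫ qq D U 1 ≫ red i _

variable {D}

theorem Moore.divides {j : ℕ} (h : Moore D j) : Divides D j := by
  obtain ⟨t1, ht, U, M, i, δ, hM, h, c, n, s, hc, hd, hI, hs⟩ := h
  obtain ⟨t, ht'⟩ := exists_zsmul_of_red hM (D.evw 1 _ h ≫ qq D U 1 ≫ U.cobar.k 1 (𝟙_ T)) (by
    change _ ≫ red i _ = 0
    rw [Category.assoc, Category.assoc, red_nat, ← reassoc_of% hs, (dist_bdM D U M 1).zero₁₂,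
      comp_zero])
  exact ⟨t1, ht, U, h, c, n, t, hc, hd, hI, ht'⟩

theorem Divides.lifts {j : ℕ} (h : Divides D j) : Lifts D j := by
  obtain ⟨t1, ht, U, h, c, n, t, hc, ⟨y, hy⟩, hI, ht'⟩ := h
  have hyw : Cob.IsWt (Det.w0 j) y := Cob.isWt_of_smul (m := 3) (by norm_num) (by
    rw [zsmul_eq_mul]
    push_cast
    rw [← hy]
    exact Cob.IsWt.d h.2)
  obtain ⟨g, hg, hb⟩ := exists_bj ht h.2 hy hI
  obtain ⟨h1, h2⟩ := of_div U h ⟨y, hyw⟩ hy t ht'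
  exact ⟨t1, ht, U, t, ⟨y, hyw⟩, ⟨g, hg⟩, -c, 3, by rwa [dvd_neg], h1, hb, h2⟩

/-- the class `β₁` -/
theorem divides_zero (D : MUData T) : Divides D 0 := by
  obtain ⟨t1, ht⟩ := T1 3
  obtain ⟨U⟩ := exists_unitCof D.R
  obtain ⟨C, i, δ, hC⟩ := exists_cone (((3 : ℕ) : ℤ) • 𝟙 (𝟙_ T))
  obtain ⟨r, hr⟩ := d_pow ht 0
  let h : Cob.wt Laz 1 (Det.w0 0) := ⟨t1 ^ 3 ^ (0 + 1), ((Det.isWt_t1 ht).pow _ :)⟩
  have hd : Cob.d 1 h.1 = 3 * (-bj t1 0 + 3 * r) := hr.trans (by ring)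
  have hyw : Cob.IsWt (Det.w0 0) (-bj t1 0 + 3 * r) := Cob.isWt_of_smul (m := 3) (by norm_num) (by
    rw [zsmul_eq_mul]
    push_cast
    rw [← hd]
    exact Cob.IsWt.d h.2)
  have h1 : Cob.dwt Laz 1 _ h = (3 : ℤ) • (⟨_, hyw⟩ : Cob.wt Laz 2 (Det.w0 0)) :=
    Subtype.ext (hd.trans (by
      change _ = (3 : ℤ) • (-bj t1 0 + 3 * r)
      rw [zsmul_eq_mul]
      rfl))
  let θ : (𝟙_ T)⟦2 * Det.w0 0⟧ ⟶ D.R ⊗ U.cobar.B 1 (𝟙_ T) :=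
    (B.sphE T _).inv ≫ D.evw 1 _ h ≫ qq D U 1
  obtain ⟨x, hx, -⟩ : ∃ x : (𝟙_ T)⟦2 * Det.w0 0⟧ ⟶ U.cobar.B 2 (𝟙_ T),
      (3 : ℤ) • x = θ ≫ U.cobar.k 1 (𝟙_ T) ∧ _ :=
    B.exists_beta_tower (U.tow (𝟙_ T)) (redC i) (𝟙_ T) 3 10
    (fun t y hy => exists_zsmul_of_red hC y hy)
    (fun s hs => B.van_modP D U (p := 3) (by norm_num) hC rfl (fun w' hw' => by
      push_cast at hw' ⊢
      omega)) 12 (by norm_num)
    (fun y => B.conn_red hC (B.conn_B D U 12) _ (by norm_num) y) (2 * Det.w0 0) rfl θ (by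
      have h7 := (redC i).naturality (U.cobar.k 1 (𝟙_ T) ≫ unitMap D.R (U.cobar.B 2 (𝟙_ T)))
      refine (congrArg (_ ≫ ·) h7.symm).trans ?_
      change ((B.sphE T _).inv ≫ D.evw 1 _ h ≫ qq D U 1) ≫
        (U.cobar.k 1 (𝟙_ T) ≫ unitMap D.R (U.cobar.B 2 (𝟙_ T))) ≫ red i _ = 0
      rw [Category.assoc, Category.assoc, Category.assoc, ← dd_qq_assoc D U 1, dd,
        ← Category.assoc (D.evw 1 _ h), ← D.evw_dwt, h1, map_zsmul, ← Category.assoc ((3 : ℤ) • _),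
        Preadditive.zsmul_comp, zsmul_red' (n := 3) hC, comp_zero])
  refine ⟨t1, ht, U, h, 1, 0, (B.sphE T _).hom ≫ x, by norm_num, ⟨_, hd⟩, ?_, ?_⟩
  · rw [Int.cast_one, _root_.one_mul, sub_self]
    exact zero_mem _
  · rw [← Preadditive.comp_zsmul, hx, Category.assoc, Iso.hom_inv_id_assoc, Category.assoc]

end Vale.Agent.P236K
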