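import Vale.Agent.P236K.PwG
import Vale.Agent.P236K.Thom

/-!
# P236K: the cube of the class of the mapping cone

If `g : S^106 ⊗ M ⟶ S` is dual to a class of `π_107 M` which is detected by a unit multiple of
`t₁ ^ 27`, the mapping cone of `g` carries a homology class whose image in `H ⊗ H` is a unit
multiple of `ξ₁ ^ 27` (up to the conjugation); its cube is not zero.
-/

open CategoryTheory MonoidalCategory MonObj Limits Pretriangulated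

set_option linter.unusedSectionVars false

universe u

namespace Vale.Agent.P236K

open Vale.Agent.P251 Vale.Agent.P251.T Vale.Agent.P251.M Vale.Agent.P251.F Vale.Agent.P251.I
  Vale.Agent.P251.H Vale.Agent.P257.H314 Vale.Agent.P236T Vale.Agent.P236Z Vale.Agent.P236Z.Dt
open Vale.Agent.P251.S hiding IC

variable {T : Type u} [Category.{0} T] [Preadditive T] [HasZeroObject T]
    [HasShift T ℤ] [∀ n : ℤ, (shiftFunctor T n).Additive] [Pretriangulated T] [IsTriangulated T]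
    [MonoidalCategory T] [SymmetricCategory T] [TensorTriangulated T] [MonoidalClosed T]
    [HasCoproducts.{0} T] [HasProducts.{0} T] [StableCat T]
  {F : SpaceFunctor T} {e : F.S.obj CCF ≅ (stdEven T).L} {D : MUData T}

namespace PwW1

open EvenSpheres Vale.Agent.P257.H80 Vale.Agent.P257.H820

variable {H : T} [MonObj H] [IsCommMonObj H]

/-- The product of two homology classes. -/
theorem exists_mul {C₁ C₂ : T} (u₁ : C₁ ⟶ H) (u₂ : C₂ ⟶ H) {w v l : ℤ} (h : w + v = l)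
    (x₁ : (stdEven T).S w ⟶ C₁ ⊗ H) (x₂ : (stdEven T).S v ⟶ C₂ ⊗ H) :
    ∃ x : (stdEven T).S l ⟶ (C₁ ⊗ C₂) ⊗ H,
      HRing.of (stdEven T) _ l (x ≫ descM u₁ u₂ ▷ H) =
        HRing.of (stdEven T) _ w (x₁ ≫ u₁ ▷ H) * HRing.of (stdEven T) _ v (x₂ ≫ u₂ ▷ H) := by
  refine ⟨(stdEven T).ext h x₁ x₂ ≫ tensorμ C₁ H C₂ H ≫ (C₁ ⊗ C₂) ◁ μ[H], ?_⟩
  rw [of_mul_of h, gmul, ext_comp, Category.assoc, Category.assoc, Category.assoc]
  congr 2
  change _ = _ ≫ tensorμ H H H H ≫ (μ[H] ⊗ₘ μ[H])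
  rw [← tensorHom_id u₁, ← tensorHom_id u₂, tensorμ_natural_assoc, tensorHom_comp_tensorHom,
    id_tensorHom_id, Category.id_comp, MonoidalCategory.tensorHom_def', descM]

/-- A class with nonzero cube. -/
theorem big_of_cls {C : T} {j : 𝟙_ T ⟶ C} (uC : C ⟶ H) (hj : j ≫ uC = η[H]) {w l k : ℤ}
    (hl : w + (w + w) = l) (hk : 2 * l = k) (x : (stdEven T).S w ⟶ C ⊗ H)
    (hx : HRing.of (stdEven T) _ w (x ≫ uC ▷ H) ^ 3 ≠ 0) : Big η[H] k (j ⊗ₘ (j ⊗ₘ j)) := by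
  subst hk
  obtain ⟨x₂, h₂⟩ := exists_mul uC uC rfl x x
  obtain ⟨x₃, h₃⟩ := exists_mul uC (descM uC uC) hl x x₂
  let a : H ≅ (𝟙_ T ⊗ (𝟙_ T ⊗ 𝟙_ T)) ⊗ H :=
    (λ_ H).symm ≪≫ whiskerRightIso ((ρ_ _).symm ≪≫ whiskerLeftIso _ (λ_ _).symm) H
  refine ⟨descM uC (descM uC uC) ≫ a.hom, (B.sphE T l).inv ≫ x₃, ?_, fun h => hx ?_⟩
  · rw [descM, descM, Category.assoc, tensorHom_comp_tensorHom_assoc,
      tensorHom_comp_tensorHom_assoc, hj, MonObj.one_mul_hom, ← Category.assoc,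
      MonObj.one_mul_hom, red]
    simp only [a, Iso.trans_hom, Iso.symm_hom, whiskerRightIso_hom, whiskerLeftIso_hom]
    monoidal
  · rw [comp_whiskerRight, Category.assoc, Preadditive.IsIso.comp_left_eq_zero, ← Category.assoc,
      Preadditive.IsIso.comp_right_eq_zero] at h
    rw [pow_three, ← h₂, ← h₃, h]
    exact map_zero (DirectSum.of ((stdEven T).Gr _) _)

variable (hH : Tr.IsHF 3 η[H]) (u : D.R ⟶ H) [IsMonHom u]

include hH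

theorem xi_pow_ne (hD : MUUniv e D) {κ : ℤ} (hκ : ¬ 3 ∣ κ) {j n : ℕ} (hn : n = 3 ^ j) :
    (κ : HRing (stdEven T) (H ⊗ H)) * xi u ^ n ≠ 0 := by
  subst hn
  intro h
  refine not_cob hD hH u j hκ rfl 0 0 0 ?_
  have h1 : (κ : HRing (stdEven T) _) * HRing.map (e01 H) (xi u) ^ 3 ^ j = 0 := by
    have h2 := congrArg (HRing.map (e01 H)) h
    rwa [map_mul, map_intCast, map_pow, map_zero] at h2
  rw [zero_comp, zero_comp, zero_comp, add_zero, add_zero, bel, bp, zsmul_eq_mul]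
  refine (map_zero (DirectSum.of ((stdEven T).Gr _) _)).trans ?_
  generalize HRing.map (e01 H) (xi u) ^ 3 ^ j = a at h1 ⊢
  generalize HRing.map (e12 H) (xi u) ^ 3 ^ j = b
  linear_combination (-(a * b + b * b)) * h1

/-- the Thom map of the first stage of the cobar complex -/
noncomputable def th (u : D.R ⟶ H) : Am D.R 2 ⟶ H ⊗ H :=
  pairM (u ≫ inlM H H) (u ≫ inrM H H)

omit hH in
instance : IsMonHom (th u) := by
  unfold th
  infer_instance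

omit hH in
theorem th_eq : th u = ((λ_ D.R).hom ▷ D.R) ≫ (u ⊗ₘ u) := by
  symm
  refine eq_pairM ?_ ?_
  · change (inrM (𝟙_ T) D.R ≫ inlM _ D.R) ≫ _ = _
    have h : inrM (𝟙_ T) D.R ≫ (λ_ D.R).hom = 𝟙 D.R := by
      change ((λ_ D.R).inv ≫ 𝟙 _ ▷ D.R) ≫ (λ_ D.R).hom = 𝟙 D.R
      simp
    rw [Category.assoc, inlM_whiskerRight_assoc, reassoc_of% h, inl_tensor]
  · change inrM (𝟙_ T ⊗ D.R) D.R ≫ _ = _
    rw [inrM_whiskerRight_assoc, inr_tensor]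

theorem th_t1 : HRing.map (th u) (D.ev 1 t1) = 8 * xi u := by
  obtain ⟨q, hq⟩ := Det.t1_eq isT1_t1
  change HRing.map (pairM (u ≫ inlM H H) (u ≫ inrM H H)) _ = _
  rw [hq, map_add, map_add, map_mul, map_mul, map_mul, map_mul, ← ser_c, ← ser_c,
    ser_c_one hH, zero_mul, add_zero, map_ofNat, map_ofNat, xi]

theorem th_evw {w : ℤ} {z : Cob.wt Laz 1 w} {c : ℤ} {r n : ℕ} (hw : Cob.IsWt w (t1 ^ n))
    (hz : z.1 - c * t1 ^ n ∈ IC 3 r 1) :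
    HRing.of (stdEven T) _ w (D.evw 1 w z ≫ th u) = c * (8 * xi u) ^ n := by
  have h4 := evw_thom D hH.conc ((hH.ord _).2 dvd_rfl) u (inlM H H) (th u) (v_zero_pairM _ _)
    (z - c • ⟨_, hw⟩) (h := r) (by
      change z.1 - c • t1 ^ n ∈ _
      rwa [zsmul_eq_mul])
  rw [map_sub, Preadditive.sub_comp, sub_eq_zero, map_zsmul, Preadditive.zsmul_comp] at h4
  rw [h4]
  refine (map_zsmul (DirectSum.of ((stdEven T).Gr _) _) _ _).trans ?_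
  rw [zsmul_eq_mul]
  congr 1
  refine (HRing.map_of (th u) _ _).symm.trans ?_
  rw [D.of_evw, map_pow, map_pow, th_t1 hH]

omit [IsCommMonObj H] in
theorem hom_zero {P : T} {k : ℤ} (a : P ≅ (𝟙_ T)⟦k⟧) (hk : k ≠ 0) (f : P ⟶ H) : f = 0 := by
  rw [← cancel_epi a.inv, hH.conc k hk (a.inv ≫ f), comp_zero]

omit [IsCommMonObj H] in
theorem hom_zero_shift {P : T} {k : ℤ} (a : P ≅ (𝟙_ T)⟦k⟧) (hk : k ≠ 1)
    (f : P ⟶ H⟦(1 : ℤ)⟧) : f = 0 := by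
  obtain ⟨g, hg⟩ := (sh (k - 1) 1 k (by omega)).surjective (a.inv ≫ f)
  rw [← cancel_epi a.inv, ← hg, hH.conc _ (by omega) g, map_zero, comp_zero]

omit hH [IsCommMonObj H] in
theorem bdry_shR (V : UnitCof H) (M : T) :
    V.bdry M = V.δ ▷ M ≫ (shR (𝟙_ T) M).hom ≫ (λ_ M).hom⟦(1 : ℤ)⟧' := by
  rw [shR_hom, Category.assoc, Category.assoc, ← Functor.map_comp, braiding_leftUnitor,
    BraidedCategory.braiding_naturality_left_assoc, csh_one, UnitCof.bdry, Category.assoc,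
    Category.assoc]

omit [IsCommMonObj H] in
/-- The class of the mapping cone of `g`: its image in `J ⊗ H` is determined by the map which is
dual to `g`. -/
theorem exists_cls {M B P C : T} {i : 𝟙_ T ⟶ M} {δ : M ⟶ (𝟙_ T)⟦(1 : ℤ)⟧} {n k : ℤ}
    (hM : Dist (n • 𝟙 (𝟙_ T)) i δ) (a : P⟦(1 : ℤ)⟧ ≅ (𝟙_ T)⟦k⟧) (h0 : k ≠ 0) (h1 : k ≠ 1)
    {g : B ⟶ 𝟙_ T} {j : 𝟙_ T ⟶ C} {π : C ⟶ B⟦(1 : ℤ)⟧} (hC : Dist g j π) (uC : C ⟶ H)
    (hj : j ≫ uC = η[H]) (V : UnitCof H) (m : M ⟶ H) (κ : P ⟶ B ⊗ M)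
    (s : (𝟙_ T)⟦k⟧ ⟶ V.J ⊗ M) (hs : a.hom ≫ s ≫ V.bdry M = (κ ≫ Tr.sc g M)⟦(1 : ℤ)⟧')
    (W : (𝟙_ T)⟦k⟧ ⟶ H ⊗ H) (hW : s ≫ V.J ◁ m = W ≫ V.ρ ▷ H) :
    ∃ x : (𝟙_ T)⟦k⟧ ⟶ C ⊗ H, x ≫ uC ▷ H = W := by
  have hV : Dist η[H] V.ρ V.δ := V.dist
  obtain ⟨g₁, e₁, e₂⟩ := hC.rot.map₃ hV (𝟙 _) uC (by rw [hj, Category.id_comp])
  rw [CategoryTheory.Functor.map_id, Category.comp_id] at e₂
  obtain ⟨t, ht⟩ : ∃ t : (𝟙_ T)⟦k⟧ ⟶ B⟦(1 : ℤ)⟧ ⊗ M,
      a.hom ≫ t = -(κ⟦(1 : ℤ)⟧' ≫ (shR B M).inv) := ⟨a.inv ≫ _, a.hom_inv_id_assoc _⟩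
  have e₃ : t ≫ g₁ ▷ M = s := by
    have hT : Dist (unitMap H M) (V.ρ ▷ M) (V.bdry M) := V.triangle_distinguished M
    obtain ⟨b, hb⟩ := hT.lift₃ (t ≫ g₁ ▷ M - s) (by
      have e₄ : (-g⟦(1 : ℤ)⟧') ▷ M = -(g⟦(1 : ℤ)⟧' ▷ M) := (tensorRight M).map_neg
      rw [Preadditive.sub_comp, sub_eq_zero, ← cancel_epi a.hom, hs, bdry_shR, Category.assoc,
        ← comp_whiskerRight_assoc, ← e₂, e₄, Preadditive.neg_comp, shR_nat_left_assoc,
        reassoc_of% ht, Preadditive.neg_comp, Preadditive.comp_neg, neg_neg, Category.assoc,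
        Iso.inv_hom_id_assoc, Tr.sc, Functor.map_comp, Functor.map_comp])
    obtain ⟨b', rfl⟩ := (dist_red hM H).lift₃ b (hom_zero_shift hH (Iso.refl _) h1 _)
    rw [← sub_eq_zero, ← hb, hH.conc k h0 b', zero_comp, zero_comp]
  obtain ⟨d, E⟩ := Tr.dist_tensR hC.rot.rot H
  obtain ⟨x, hx⟩ := E.lift₂ (t ≫ _ ◁ m) (by
    rw [← cancel_mono (sphTensor 1 H).hom, zero_comp]
    exact hom_zero_shift hH (Iso.refl _) h1 _)
  obtain ⟨d', E'⟩ := Tr.dist_tensR hV H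
  obtain ⟨b, hb⟩ := E'.lift₂ (x ≫ uC ▷ H - W) (by
    rw [Preadditive.sub_comp, Category.assoc, ← comp_whiskerRight, ← e₁, comp_whiskerRight,
      reassoc_of% hx, whisker_exchange, reassoc_of% e₃, hW, sub_self])
  refine ⟨x, ?_⟩
  rw [← sub_eq_zero, ← hb, ← Category.comp_id b, ← (λ_ H).hom_inv_id, ← Category.assoc,
    hH.conc k h0 (b ≫ _), zero_comp, zero_comp]

omit hH in
/-- The image in `J ⊗ H` of an element of the first stage of the tower of `MU`. -/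
theorem stage_one (U : UnitCof D.R) (V : UnitCof H) {φ : U.J ⟶ V.J} (hφ : U.ρ ≫ φ = u ≫ V.ρ)
    {M P : T} {i : 𝟙_ T ⟶ M} {m : M ⟶ H} (hm : i ≫ m = η[H]) (s : P ⟶ U.J ⊗ M)
    (z : P ⟶ Am D.R 2) (hs : s ≫ unitMap D.R _ =
      (z ≫ (D.qAm U 2).inv) ≫ U.cobar.Qm 2 i ≫ U.cobar.q 1 M) :
    (s ≫ φ ▷ M) ≫ V.J ◁ m = (z ≫ th u ≫ (β_ H H).hom) ≫ V.ρ ▷ H := by
  have h1 : unitMap H (U.J ⊗ M) = unitMap D.R _ ≫ u ▷ _ := by
    rw [unitMap, unitMap, Category.assoc, ← comp_whiskerRight, IsMonHom.one_hom]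
  have h2 : D.R ◁ i ≫ U.ρ ▷ M ≫ φ ▷ M ≫ V.J ◁ m ≫ (β_ V.J H).hom =
      (ρ_ D.R).hom ≫ u ≫ V.ρ ≫ unitMap H V.J := by
    rw [← comp_whiskerRight_assoc, hφ, whisker_exchange_assoc,
      ← MonoidalCategory.whiskerLeft_comp_assoc, hm, BraidedCategory.braiding_naturality_right,
      braiding_tensorUnit_right, Category.assoc, rightUnitor_naturality_assoc, unitMap,
      Category.assoc]
  have h3 : (D.qAm U 2).inv ≫ D.R ◁ (ρ_ D.R).hom = (λ_ D.R).hom ▷ D.R := by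
    change ((ρ_ _).inv ≫ (α_ _ _ _).hom ≫ (α_ _ _ _).hom ≫ (λ_ _).hom) ≫ _ = _
    monoidal
  have h4 : U.cobar.Qm 2 i ≫ U.cobar.q 1 M = D.R ◁ (D.R ◁ i ≫ U.ρ ▷ M) := by
    rw [MonoidalCategory.whiskerLeft_comp]
    exact congrArg _ (Category.comp_id _)
  rw [← cancel_mono (β_ V.J H).hom, ← Category.comp_id (_ ≫ (β_ V.J H).hom), ← unitMap_mulMap]
  simp only [Category.assoc]
  rw [← Category.assoc (V.J ◁ m), ← Category.assoc (φ ▷ M), unitMap_nat_assoc, h1,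
    Category.assoc, reassoc_of% hs, reassoc_of% h4, whisker_exchange_assoc,
    ← MonoidalCategory.whiskerLeft_comp_assoc, Category.assoc, h2,
    BraidedCategory.braiding_naturality_left, SymmetricCategory.symmetry_assoc, th_eq,
    MonoidalCategory.whiskerLeft_comp H, Category.assoc, ← whisker_exchange_assoc,
    reassoc_of% h3, MonoidalCategory.whiskerLeft_comp, MonoidalCategory.whiskerLeft_comp,
    Category.assoc, Category.assoc, whiskerLeft_unitMap_mulMap, Category.comp_id,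
    MonoidalCategory.tensorHom_def, Category.assoc, Category.assoc]

end PwW1

open PwW1 EvenSpheres in
/-- **The cube of the class of the mapping cone.** -/
theorem big_of (hD : MUUniv e D) (G : Geo D) {H : T} [MonObj H] [IsCommMonObj H]
    (hH : Tr.IsHF 3 η[H]) {z : Cob.wt Laz 1 54} {c : ℤ} {r : ℕ} {y : G.C.D 1 107} (hc : ¬ 3 ∣ c)
    (hz : z.1 - c * t1 ^ 27 ∈ IC 3 r 1) (hy : G.C.j 1 107 y = G.X.cls (by norm_num) z)
    {g : (𝟙_ T)⟦(106 : ℤ)⟧ ⊗ G.M ⟶ 𝟙_ T} (hg : Dual G.i G.δ g (bot G y))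
    {C : T} {j : 𝟙_ T ⟶ C} {π : C ⟶ ((𝟙_ T)⟦(106 : ℤ)⟧ ⊗ G.M)⟦(1 : ℤ)⟧} (hC : Dist g j π) :
    Big η[H] 324 (j ⊗ₘ (j ⊗ₘ j)) := by
  obtain ⟨u, _⟩ := exists_thom D hH.conc
  obtain ⟨V⟩ := exists_unitCof H
  have hM : Dist (((3 : ℕ) : ℤ) • 𝟙 (𝟙_ T)) G.i G.δ := G.dist
  obtain ⟨m, hm⟩ := hM.desc₂ η[H] (by
    rw [Preadditive.zsmul_comp, Category.id_comp]
    exact (hH.ord _).2 dvd_rfl)
  obtain ⟨uC, hj⟩ := hC.desc₂ η[H] (by
    obtain ⟨b, hb⟩ := (dist_red hM _).desc₃ (g ≫ η[H]) (hH.conc 106 (by norm_num) _)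
    rw [← hb, hom_zero hH ((shiftFunctorAdd' T 106 1 107 rfl).app (𝟙_ T)).symm (by norm_num) b,
      comp_zero])
  have hU : Dist η[D.R] G.U.ρ G.U.δ := G.U.dist
  have hV : Dist η[H] V.ρ V.δ := V.dist
  obtain ⟨φ, e₁, e₂⟩ := hU.map₃ hV (𝟙 _) u (by rw [IsMonHom.one_hom, Category.id_comp])
  rw [CategoryTheory.Functor.map_id, Category.comp_id] at e₂
  obtain ⟨κ, -, hκ⟩ := hg
  have h1 : (107 : ℤ) + ((1 : ℕ) : ℤ) = 2 * 54 := by norm_num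
  have h2 : (107 : ℤ) + 1 = 2 * 54 := by norm_num
  let a : ((𝟙_ T)⟦(106 : ℤ)⟧ ⊗ (𝟙_ T)⟦(1 : ℤ)⟧)⟦(1 : ℤ)⟧ ≅ (𝟙_ T)⟦(2 * 54 : ℤ)⟧ :=
    (shiftFunctor T (1 : ℤ)).mapIso (tensorSph 1 _ ≪≫
      ((shiftFunctorAdd' T 106 1 107 rfl).app (𝟙_ T)).symm) ≪≫
      ((shiftFunctorAdd' T 107 1 (2 * 54) h2).app (𝟙_ T)).symm
  let s : (𝟙_ T)⟦(2 * 54 : ℤ)⟧ ⟶ G.U.J ⊗ G.M := G.eD h1 y
  have h3 : s ≫ unitMap D.R _ = G.cE z := (G.j_eq_cls h1 y z).1 hy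
  have h4 : sh 107 1 (2 * 54) h2 (G.eD (s := 0) (n := 107) (t := 107) rfl (G.C.i 0 107 y)) =
      s ≫ G.U.bdry G.M := G.eD_i (s := 0) rfl h1 h2 y
  obtain ⟨x, hx⟩ := exists_cls hH hM a (by norm_num) (by norm_num) hC uC hj V m
    (_ ◁ κ ≫ (α_ _ _ _).inv) (s ≫ φ ▷ G.M) (by
      rw [Category.assoc _ (α_ _ _ _).inv, hκ, Category.assoc, bdry_shR,
        ← comp_whiskerRight_assoc, ← e₂, ← bdry_shR, ← h4, bot]
      simp [a, sh]) _
    (stage_one u G.U V e₁ hm s ((G.c 54).inv ≫ D.evw 1 54 z) (by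
      rw [h3, Geo.cE_apply, Geo.ch_apply, MUData.phi_apply]
      simp only [Category.assoc]))
  refine big_of_cls uC hj (w := 54) (l := 162) (by norm_num) (by norm_num)
    ((G.c 54).hom ≫ x) fun h => xi_pow_ne hH u hD (κ := (c * 8 ^ 27) ^ 3) (fun h => ?_)
      (j := 4) (n := 81) (by norm_num) ?_
  · rcases Int.prime_three.dvd_or_dvd (Int.prime_three.dvd_of_dvd_pow h) with h | h
    · exact hc h
    · exact absurd (Int.prime_three.dvd_of_dvd_pow h) (by norm_num)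
  · rw [Category.assoc, hx, Category.assoc, Iso.hom_inv_id_assoc, ← Category.assoc,
      ← HRing.map_of, th_evw hH u (w := 54) (isWt_t1.pow 27 :) hz, ← map_pow] at h
    have h5 := congrArg (HRing.map (β_ H H).hom) h
    rw [map_map _ _ _ (SymmetricCategory.symmetry H H), HRing.map_id, map_zero,
      RingHom.id_apply] at h5
    push_cast
    linear_combination h5

end Vale.Agent.P236K
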