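import Vale.Agent.P236K.PwW0
import Vale.Agent.P236T.Mul
import Vale.Agent.P236T.Act
import Vale.Agent.P236T.Model

/-!
# P236K: the cube of the dual map is deep

`deep_of`: if `y` annihilates `HQ 4 108`, then the cube of the map `g` which is dual to the image
of `y` in filtration zero factors as `Γ ≫ n`, where `n` has filtration two and `Γ` kills `π_322`.
-/

open CategoryTheory MonoidalCategory MonObj Limits Pretriangulated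

set_option linter.unusedSectionVars false

universe v u

namespace Vale.Agent.P236K

open Vale.Agent.P251 Vale.Agent.P251.T Vale.Agent.P251.M Vale.Agent.P251.F Vale.Agent.P251.I
  Vale.Agent.P251.H Vale.Agent.P257.H314 Vale.Agent.P236T Vale.Agent.P236Z Vale.Agent.P236Z.Dt
open Vale.Agent.P251.S hiding IC
open Vale.Agent.P257.H820 Vale.Agent.P236Z.Tr

variable {T : Type u} [Category.{v} T] [Preadditive T] [HasZeroObject T]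
    [HasShift T ℤ] [∀ n : ℤ, (shiftFunctor T n).Additive] [Pretriangulated T]
    [MonoidalCategory T] [SymmetricCategory T] [TensorTriangulated T]

namespace PwW2

open PwW0

/-! ### factorisations and shifts -/

theorem ft_zero {A B C : T} {f : A ⟶ C} {g : B ⟶ C} (h : FT f g) (hg : g = 0) : f = 0 := by
  obtain ⟨w, rfl⟩ := h
  rw [hg, comp_zero]

theorem ft_shift {A B C : T} {f : A ⟶ C} {g : B ⟶ C} (h : FT f g) (k : ℤ) :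
    FT (f⟦k⟧') (g⟦k⟧') := by
  obtain ⟨w, rfl⟩ := h
  exact ⟨w⟦k⟧', (Functor.map_comp _ _ _).symm⟩

theorem ft_of_shift (k : ℤ) {A B C : T} {f : A ⟶ C} {g : B ⟶ C} (h : FT (f⟦k⟧') (g⟦k⟧')) :
    FT f g := by
  obtain ⟨w, hw⟩ := h
  obtain ⟨w, rfl⟩ := (shiftFunctor T k).map_surjective w
  exact ⟨w, (shiftFunctor T k).map_injective ((Functor.map_comp _ _ _).trans hw)⟩

theorem ft_sh {P Y : T} {t k t' : ℤ} (h : t + k = t') (z : P⟦t⟧ ⟶ Y) :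
    FT (sh t k t' h z) (z⟦k⟧') := ⟨_, rfl⟩

theorem ft_sh' {P Y : T} {t k t' : ℤ} (h : t + k = t') (z : P⟦t⟧ ⟶ Y) :
    FT (z⟦k⟧') (sh t k t' h z) := FT.iso ((shiftFunctorAdd' T t k t' h).app P) _

theorem ft_tens {P Y Z : T} {t k t' : ℤ} (h : t + k = t') (z : P⟦t⟧ ⟶ Y)
    (ψ : (𝟙_ T)⟦k⟧ ⊗ Y ⟶ Z) :
    FT ((𝟙_ T)⟦k⟧ ◁ z ≫ ψ) (sh t k t' h z ≫ (sphTensor k Y).inv ≫ ψ) := by
  rw [whiskerLeft_sph, Category.assoc, Category.assoc]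
  exact ((ft_sh' h z).post _).pre _

theorem ft_sign {A C : T} (f : A ⟶ C) {ε : ℤ} (h : ε = 1 ∨ ε = -1) : FT f (ε • f) := by
  refine ⟨ε • 𝟙 A, ?_⟩
  rw [Preadditive.zsmul_comp, Category.id_comp, smul_smul]
  rcases h with rfl | rfl <;> simp

/-- `X` is a sphere of dimension `a`. -/
def IsS (a : ℤ) (X : T) : Prop := Nonempty (X ≅ (𝟙_ T)⟦a⟧)

theorem IsS.refl (a : ℤ) : IsS a ((𝟙_ T)⟦a⟧) := ⟨Iso.refl _⟩

theorem IsS.tens {a b : ℤ} {X : T} (h : IsS a X) (e : ℤ) (hb : a + e = b) :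
    IsS b ((𝟙_ T)⟦e⟧ ⊗ X) := by
  obtain ⟨f⟩ := h
  exact ⟨whiskerLeftIso _ f ≪≫ sphTensor e _ ≪≫ ((shiftFunctorAdd' T a e b hb).app _).symm⟩

/-! ### deep maps -/

section Deep

variable {H : T} {o : 𝟙_ T ⟶ H}

theorem deep_pre {k : ℤ} {X X' Y : T} (e : X' ⟶ X) {f : X ⟶ Y} (h : Deep o k f) :
    Deep o k (e ≫ f) := by
  obtain ⟨N, Γ, n, rfl, hn, hΓ⟩ := h
  exact ⟨N, e ≫ Γ, n, Category.assoc _ _ _, hn, fun β => by rw [← Category.assoc, hΓ]⟩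

theorem deep_post {k : ℤ} {X Y Y' : T} {f : X ⟶ Y} (h : Deep o k f) (e : Y ⟶ Y') :
    Deep o k (f ≫ e) := by
  obtain ⟨N, Γ, n, rfl, hn, hΓ⟩ := h
  exact ⟨N, Γ, n ≫ e, (Category.assoc _ _ _).symm, hn.post e, hΓ⟩

theorem shift_eq {X Y : T} (f : X ⟶ Y) (k : ℤ) :
    f⟦k⟧' = (tensorSph k X).inv ≫ f ▷ (𝟙_ T)⟦k⟧ ≫ (tensorSph k Y).hom := by
  rw [tensorSph_naturality, Iso.inv_hom_id_assoc]

theorem deep_of_shift {a k k' : ℤ} (hk : k + a = k') {X Y : T} {f : X ⟶ Y}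
    (h : Deep o k' (f⟦a⟧')) : Deep o k f := by
  obtain ⟨N, Γ, n, e, hn, hΓ⟩ := h
  let E := shiftFunctorCompIsoId T a (-a) (add_neg_cancel a)
  have h1 : ∀ {A B : T} (b : A ⟶ B), b ≫ E.inv.app B = E.inv.app A ≫ (b⟦a⟧')⟦-a⟧' :=
    fun b => E.inv.naturality b
  refine ⟨N⟦-a⟧, E.inv.app X ≫ Γ⟦-a⟧', n⟦-a⟧' ≫ E.hom.app Y, ?_, AF.post ?_ _, fun β => ?_⟩
  · rw [Category.assoc, ← Functor.map_comp_assoc, e, ← reassoc_of% h1 f, Iso.inv_hom_id_app]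
    exact Category.comp_id _
  · rw [shift_eq]
    exact ((hn.whiskerRight _).post _).pre _
  · rw [reassoc_of% h1 β, ← Functor.map_comp,
      ft_zero ((ft_sh' hk β).post Γ) (hΓ _), Functor.map_zero, comp_zero]

theorem null_bd {R : T} [MonObj R] (U : UnitCof R) (u : R ⟶ H) (hu : η[R] ≫ u = o) (s : ℕ)
    (Y : T) : Null o (U.bd s Y) := by
  have h1 : U.bd s Y ≫ (unitMap R (U.cobar.B s Y))⟦(1 : ℤ)⟧' = 0 := (U.tow Y).c_a s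
  have h2 : ∀ Z : T, hur o Z = unitMap R Z ≫ u ▷ Z := fun Z => by
    rw [hur, unitMap, Category.assoc, ← comp_whiskerRight, hu]
  rw [← unitMap_csh, ← Category.assoc, Preadditive.IsIso.comp_right_eq_zero] at h1
  rw [Null, h2, ← Category.assoc, h1, zero_comp]

theorem af_bd {R : T} [MonObj R] (U : UnitCof R) (u : R ⟶ H) (hu : η[R] ≫ u = o) (Y : T) :
    AF o 2 (U.bd 1 Y ≫ (U.bd 0 Y)⟦(1 : ℤ)⟧') := by
  refine AF.succ (AF.of_null (null_bd U u hu 1 Y)) ?_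
  rw [shift_eq]
  exact (((null_bd U u hu 0 Y).whiskerRight _).post _).pre _

theorem deep_of_lift {M N Z : T} {e j k m : ℤ} (h : e + 1 = j) (h' : j + 1 = k)
    {x : M⟦k⟧ ⟶ N} {n : N ⟶ (M⟦(1 : ℤ)⟧)⟦(1 : ℤ)⟧} {τ : M⟦e⟧ ⟶ M}
    (hx : x ≫ n = (shiftFunctorAdd' T j 1 k h').hom.app M ≫
      ((shiftFunctorAdd' T e 1 j h).hom.app M ≫ τ⟦(1 : ℤ)⟧')⟦(1 : ℤ)⟧')
    (hn : AF o 2 n) (f : Z ⟶ M⟦e⟧) (hf : ∀ β : (𝟙_ T)⟦m⟧ ⟶ Z, ∃ (Q : T) (w : Q ⟶ M),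
      FT (β ≫ f) (w⟦e⟧') ∧ w⟦k⟧' ≫ x = 0) : Deep o m (f ≫ τ) := by
  refine deep_of_shift (a := 1) rfl (deep_of_shift (a := 1) rfl ⟨N, (f⟦(1 : ℤ)⟧' ≫
    (shiftFunctorAdd' T e 1 j h).inv.app M)⟦(1 : ℤ)⟧' ≫ (shiftFunctorAdd' T j 1 k h').inv.app M ≫
      x, n, ?_, hn, fun β => ?_⟩)
  · rw [Category.assoc, Category.assoc, hx, Iso.inv_hom_id_app_assoc, ← Functor.map_comp,
      Category.assoc, Iso.inv_hom_id_app_assoc, ← Functor.map_comp]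
  · obtain ⟨β, rfl⟩ := (sh (m + 1) 1 _ rfl).surjective β
    obtain ⟨β, rfl⟩ := (sh m 1 _ rfl).surjective β
    obtain ⟨Q, w, hw, h0⟩ := hf β
    have h1 : (w⟦e⟧')⟦(1 : ℤ)⟧' ≫ (shiftFunctorAdd' T e 1 j h).inv.app M =
      (shiftFunctorAdd' T e 1 j h).inv.app Q ≫ w⟦j⟧' :=
      (shiftFunctorAdd' T e 1 j h).inv.naturality w
    have h2 : (w⟦j⟧')⟦(1 : ℤ)⟧' ≫ (shiftFunctorAdd' T j 1 k h').inv.app M =
      (shiftFunctorAdd' T j 1 k h').inv.app Q ≫ w⟦k⟧' :=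
      (shiftFunctorAdd' T j 1 k h').inv.naturality w
    have h3 : FT (sh m 1 _ rfl β ≫ f⟦(1 : ℤ)⟧' ≫ (shiftFunctorAdd' T e 1 j h).inv.app M)
        (w⟦j⟧') := by
      rw [← Category.assoc, ← sh_comp]
      refine (((ft_sh _ _).trans (ft_shift hw 1)).post _).trans ?_
      rw [h1]
      exact FT.of_comp _ _
    rw [← Category.assoc, ← sh_comp]
    refine ft_zero (((ft_sh _ _).trans (ft_shift h3 1)).post _) ?_
    rw [reassoc_of% h2, h0, comp_zero]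

end Deep

theorem cube_eq {X₁ X₂ X₃ : T} (j₁ : X₁ ⟶ 𝟙_ T) (j₂ : X₂ ⟶ 𝟙_ T) (j₃ : X₃ ⟶ 𝟙_ T) (M : T) :
    (j₁ ⊗ₘ (j₂ ⊗ₘ j₃)) ▷ M = ((α_ _ _ _).hom ≫ X₁ ◁ (α_ _ _ _).hom) ≫
      (X₁ ◁ (X₂ ◁ sc j₃ M ≫ sc j₂ M) ≫ sc j₁ M) ≫
        (λ_ M).inv ≫ ((λ_ (𝟙_ T)).inv ≫ 𝟙_ T ◁ (λ_ (𝟙_ T)).inv) ▷ M := by
  have h1 : ∀ {X X' : T} (j : X ⟶ 𝟙_ T) (j' : X' ⟶ 𝟙_ T),
      j ⊗ₘ j' = Tr.mul j j' ≫ (λ_ (𝟙_ T)).inv := fun j j' => by
    rw [Tr.mul, sc, MonoidalCategory.tensorHom_def, Category.assoc, Category.assoc,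
      leftUnitor_inv_naturality, Iso.hom_inv_id_assoc]
  have h2 : j₁ ⊗ₘ (j₂ ⊗ₘ j₃) =
      Tr.mul j₁ (Tr.mul j₂ j₃) ≫ (λ_ (𝟙_ T)).inv ≫ 𝟙_ T ◁ (λ_ (𝟙_ T)).inv := by
    rw [← reassoc_of% h1 j₁ (Tr.mul j₂ j₃), h1 j₂ j₃, MonoidalCategory.tensorHom_def,
      MonoidalCategory.tensorHom_def, MonoidalCategory.whiskerLeft_comp, Category.assoc]
  have h3 : Tr.mul j₁ (Tr.mul j₂ j₃) ▷ M = sc (Tr.mul j₁ (Tr.mul j₂ j₃)) M ≫ (λ_ M).inv := by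
    rw [sc, Category.assoc, Iso.hom_inv_id, Category.comp_id]
  rw [h2, comp_whiskerRight, h3, sc_mul, sc_naturality, sc_mul, sc_naturality,
    MonoidalCategory.whiskerLeft_comp]
  simp only [Category.assoc]

/-! ### maps to `M ⊗ M` -/

section Key

variable {M : T} {i : 𝟙_ T ⟶ M} {δ : M ⟶ (𝟙_ T)⟦(1 : ℤ)⟧} {n : ℤ}

theorem lift_R (hC : Dist (n • 𝟙 (𝟙_ T)) i δ) {X Y : T} (a : X ⟶ M ⊗ Y) (ha : a ≫ δ ▷ Y = 0) :
    ∃ b : X ⟶ 𝟙_ T ⊗ Y, b ≫ i ▷ Y = a := by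
  have D : Dist _ (i ▷ Y) (δ ▷ Y ≫ _) := dist_whiskerRight Y hC
  exact D.lift₃ a ((Category.assoc _ _ _).symm.trans ((congrArg (· ≫ _) ha).trans zero_comp))

theorem kap_eq (hC : Dist (n • 𝟙 (𝟙_ T)) i δ) (h1 : ∀ f : (𝟙_ T)⟦(1 : ℤ)⟧ ⟶ M, f = 0) {c : ℤ}
    (K : BockT.Kap i δ c) {κ : (𝟙_ T)⟦(1 : ℤ)⟧ ⟶ M ⊗ M} (h : κ ≫ δ ▷ M = red i _) :
    κ = K.κ := by
  obtain ⟨b, hb⟩ := lift_R hC (κ - K.κ) (by
    rw [Preadditive.sub_comp, h, K.left]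
    exact sub_self _)
  rw [← sub_eq_zero, ← hb, ← Category.comp_id b, ← (λ_ M).hom_inv_id, ← Category.assoc,
    h1 (b ≫ _), zero_comp, zero_comp]

/-- Every map `𝟙⟦1⟧ ⊗ P ⟶ M ⊗ M` comes from a map `M ⊗ P ⟶ M`. -/
theorem key (hC : Dist (n • 𝟙 (𝟙_ T)) i δ) (h3 : n • 𝟙 M = 0) {c : ℤ} (K : BockT.Kap i δ c)
    {P : T} (β : (𝟙_ T)⟦(1 : ℤ)⟧ ⊗ P ⟶ M ⊗ M) :
    ∃ φ : M ⊗ P ⟶ M, K.κ ▷ P ≫ (α_ M M P).hom ≫ M ◁ φ = β := by
  obtain ⟨w, hw⟩ := full_L 1 (β ≫ δ ▷ M)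
  obtain ⟨d, D⟩ := dist_tensR hC P
  obtain ⟨φ, hφ⟩ := D.desc₂ ((λ_ P).hom ≫ w) (by
    rw [zsmul_R, Preadditive.zsmul_comp, ← Preadditive.comp_zsmul, ← Preadditive.comp_zsmul,
      ← Category.comp_id w, ← Preadditive.comp_zsmul, h3, comp_zero, comp_zero, comp_zero])
  have e1 : BockT.red i ((𝟙_ T)⟦(1 : ℤ)⟧) ▷ P ≫ (α_ _ M P).hom =
      (𝟙_ T)⟦(1 : ℤ)⟧ ◁ ((λ_ P).inv ≫ i ▷ P) := by
    rw [BockT.red_eq]
    simp
  obtain ⟨a, ha⟩ := lift_R hC (β - K.κ ▷ P ≫ (α_ M M P).hom ≫ M ◁ φ) (by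
    rw [Preadditive.sub_comp, Category.assoc, Category.assoc, whisker_exchange,
      ← associator_naturality_left_assoc, ← comp_whiskerRight_assoc, K.left, reassoc_of% e1,
      ← MonoidalCategory.whiskerLeft_comp, Category.assoc, hφ, Iso.inv_hom_id_assoc, hw,
      sub_self])
  refine ⟨φ + c • (δ ▷ P ≫ a ≫ (λ_ M).hom), ?_⟩
  have e2 : ((λ_ ((𝟙_ T)⟦(1 : ℤ)⟧)).inv ≫ i ▷ (𝟙_ T)⟦(1 : ℤ)⟧) ▷ P ≫ (α_ M _ P).hom =
      (λ_ _).inv ≫ i ▷ ((𝟙_ T)⟦(1 : ℤ)⟧ ⊗ P) := by simp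
  rw [MonoidalPreadditive.whiskerLeft_add, Preadditive.comp_add, Preadditive.comp_add, zsmul_L,
    Preadditive.comp_zsmul, Preadditive.comp_zsmul, MonoidalCategory.whiskerLeft_comp,
    ← associator_naturality_middle_assoc, ← comp_whiskerRight_assoc, K.right, zsmul_R,
    Preadditive.zsmul_comp, reassoc_of% e2, ← whisker_exchange, ← leftUnitor_inv_naturality_assoc,
    Category.assoc, Iso.hom_inv_id_assoc, smul_smul, ← Preadditive.comp_zsmul, ← zsmul_R, K.sq,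
    ha, add_sub_cancel]

theorem dual_key {A S P : T} (κ : S ⟶ M ⊗ M) (g : A ⊗ M ⟶ 𝟙_ T) (φ : M ⊗ P ⟶ M) :
    A ◁ (κ ▷ P ≫ (α_ M M P).hom ≫ M ◁ φ) ≫ (α_ A M M).inv ≫ sc g M =
      (α_ A S P).inv ≫ (A ◁ κ ≫ (α_ A M M).inv ≫ sc g M) ▷ P ≫ φ := by
  rw [MonoidalCategory.whiskerLeft_comp, MonoidalCategory.whiskerLeft_comp, Category.assoc,
    Category.assoc, associator_inv_naturality_right_assoc, ← sc_naturality, sc_tensor]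
  simp

theorem ft_sc {A S P : T} (θ : A ⟶ 𝟙_ T) (x : S ⟶ M) (φ : M ⊗ P ⟶ M) :
    FT (A ◁ (x ▷ P ≫ φ) ≫ sc θ M) ((A ◁ x ≫ sc θ M) ▷ P ≫ φ) := by
  refine ⟨(α_ A S P).inv, ?_⟩
  rw [MonoidalCategory.whiskerLeft_comp, Category.assoc, ← sc_naturality θ φ, sc_tensor,
    comp_whiskerRight, Category.assoc, Category.assoc, associator_inv_naturality_middle_assoc]

end Key

/-! ### the action of a map `M ⊗ P ⟶ M` on the tower -/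

section Tower

variable {R : T} [MonObj R] (U : UnitCof R)

@[reassoc]
theorem bV_right (s : ℕ) (Y : T) {V V' : T} (f : V ⟶ V') :
    U.cobar.B s Y ◁ f ≫ (bV U V' s Y).hom = (bV U V s Y).hom ≫ U.cobar.Bm s (Y ◁ f) := by
  induction s generalizing Y with
  | zero => exact (Category.comp_id _).trans (Category.id_comp _).symm
  | succ s ih =>
    have h1 := ih (U.J ⊗ Y)
    have h2 : U.cobar.Bm s ((U.J ⊗ Y) ◁ f) ≫ U.cobar.Bm s (α_ U.J Y V').hom =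
        U.cobar.Bm s (α_ U.J Y V).hom ≫ U.cobar.Bm (s + 1) (Y ◁ f) := by
      rw [CobarData.Bm_succ, ← CobarData.Bm_comp, ← CobarData.Bm_comp,
        associator_naturality_right]
    rw [bV_succ, bV_succ, Category.assoc, ← h2]
    exact (reassoc_of% h1) _

@[reassoc]
theorem bV_assoc (V P : T) (s : ℕ) (Y : T) :
    (α_ (U.cobar.B s Y) V P).hom ≫ (bV U (V ⊗ P) s Y).hom = (bV U V s Y).hom ▷ P ≫
      (bV U P s (Y ⊗ V)).hom ≫ U.cobar.Bm s (α_ Y V P).hom := by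
  induction s generalizing Y with
  | zero =>
    refine (Category.comp_id _).trans ?_
    refine Eq.trans ?_ (congrArg (· ≫ _) (id_whiskerRight _ _).symm)
    exact ((Category.id_comp _).trans (Category.id_comp _)).symm
  | succ s ih =>
    have h1 := ih (U.J ⊗ Y)
    have h2 := bV_nat U P s (α_ U.J Y V).hom
    have h3 : U.cobar.Bm s (α_ (U.J ⊗ Y) V P).hom ≫ U.cobar.Bm s (α_ U.J Y (V ⊗ P)).hom =
        U.cobar.Bm s ((α_ U.J Y V).hom ▷ P) ≫ U.cobar.Bm s (α_ U.J (Y ⊗ V) P).hom ≫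
          U.cobar.Bm (s + 1) (α_ Y V P).hom := by
      rw [CobarData.Bm_succ, ← CobarData.Bm_comp, ← CobarData.Bm_comp, ← CobarData.Bm_comp,
        ← pentagon]
    rw [bV_succ, bV_succ, bV_succ, comp_whiskerRight, Category.assoc, Category.assoc]
    refine ((reassoc_of% h1) _).trans (congrArg _ ?_)
    rw [h3]
    exact ((reassoc_of% h2) _).symm

/-- The action of `φ` on the stages. -/
def ph {M P : T} (φ : M ⊗ P ⟶ M) (s : ℕ) : U.cobar.B s M ⊗ P ⟶ U.cobar.B s M :=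
  (bV U P s M).hom ≫ U.cobar.Bm s φ

theorem ph_bd {M P : T} (φ : M ⊗ P ⟶ M) (s : ℕ) : ph U φ (s + 1) ≫ U.bd s M =
    U.bd s M ▷ P ≫ (shR _ P).hom ≫ (ph U φ s)⟦(1 : ℤ)⟧' := by
  have h := wV_c U P s M
  rw [ph, ph, Category.assoc, U.bd_naturality, ← reassoc_of% h, Functor.map_comp]

/-- The map `A ⊗ V ⟶ B a V` defined by `t : A ⟶ B a 𝟙`. -/
def xT {A : T} {a : ℕ} (t : A ⟶ U.cobar.B a (𝟙_ T)) (V : T) : A ⊗ V ⟶ U.cobar.B a V :=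
  t ▷ V ≫ (bV U V a (𝟙_ T)).hom ≫ U.cobar.Bm a (λ_ V).hom

theorem xT_ph {A M P : T} {a : ℕ} (t : A ⟶ U.cobar.B a (𝟙_ T)) (φ : M ⊗ P ⟶ M) :
    A ◁ φ ≫ xT U t M = (α_ A M P).inv ≫ xT U t M ▷ P ≫ ph U φ a := by
  have h : (α_ (𝟙_ T) M P).hom ≫ 𝟙_ T ◁ φ ≫ (λ_ M).hom = (λ_ M).hom ▷ P ≫ φ := by simp
  rw [Iso.eq_inv_comp, xT, ph, whisker_exchange_assoc, bV_right_assoc,
    ← associator_naturality_left_assoc, bV_assoc_assoc, comp_whiskerRight, comp_whiskerRight,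
    Category.assoc, Category.assoc, bV_nat_assoc, ← CobarData.Bm_comp, ← CobarData.Bm_comp,
    ← CobarData.Bm_comp, h]

theorem ft_xT {A S M P : T} {a : ℕ} (t : A ⟶ U.cobar.B a (𝟙_ T)) (x : S ⟶ M) (φ : M ⊗ P ⟶ M) :
    FT (A ◁ (x ▷ P ≫ φ) ≫ xT U t M) ((A ◁ x ≫ xT U t M) ▷ P ≫ ph U φ a) := by
  refine ⟨(α_ A S P).inv, ?_⟩
  rw [MonoidalCategory.whiskerLeft_comp, Category.assoc, xT_ph, comp_whiskerRight,
    Category.assoc, associator_inv_naturality_middle_assoc]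

theorem ft_step {M P A A' B B' : T} (φ : M ⊗ P ⟶ M) {s : ℕ} {y : A ⟶ U.cobar.B s M}
    {y' : A' ⟶ U.cobar.B (s + 1) M} {z : B ⟶ U.cobar.B s M} {z' : B' ⟶ U.cobar.B (s + 1) M}
    (hy : FT (y⟦(1 : ℤ)⟧') (y' ≫ U.bd s M)) (hz : FT (z' ≫ U.bd s M) (z⟦(1 : ℤ)⟧'))
    (h : FT (y' ▷ P ≫ ph U φ (s + 1)) z') : FT (y ▷ P ≫ ph U φ s) z := by
  refine ft_of_shift 1 ((FT.iso (shR A P) _).trans ?_)
  rw [Functor.map_comp, ← shR_nat_left_assoc]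
  refine ((hy.whiskerRight P).post _).trans ?_
  rw [comp_whiskerRight, Category.assoc, ← ph_bd, ← Category.assoc]
  exact (h.post _).trans hz

end Tower

variable [HasCoproducts.{0} T] {D : MUData T} (G : Geo D)

theorem ft_eD {s : ℕ} {n t t' : ℤ} (h : n + (s : ℤ) = t) (h' : n + (s : ℤ) = t')
    (y : G.C.D s n) : FT (G.eD h y) (G.eD h' y) := by
  subst h h'
  exact FT.refl _

theorem ft_proj {P : T} (φ : G.M ⊗ P ⟶ G.M) {b s : ℕ} (hb : b ≤ s) {n n' : ℤ}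
    {y : G.C.D s n} {z : G.C.D s n'} (h : FT (G.eD rfl y ▷ P ≫ ph G.U φ s) (G.eD rfl z)) :
    FT (G.eD rfl (G.C.proj n hb y) ▷ P ≫ ph G.U φ b) (G.eD rfl (G.C.proj n' hb z)) := by
  induction s, hb using Nat.le_induction with
  | base => rwa [G.C.proj_self, G.C.proj_self]
  | succ s hb ih =>
    rw [G.C.proj_succ n hb, G.C.proj_succ n' hb]
    refine ih (ft_step G.U φ ?_ ?_ h)
    · rw [← G.eD_i rfl rfl (by push_cast; ring)]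
      exact ft_sh' _ _
    · rw [← G.eD_i rfl rfl (by push_cast; ring)]
      exact ft_sh _ _

theorem ft_mu {a : ℕ} {k e n n' : ℤ} (he : e + a = k) (hs : 0 + a = a) (hn : n + e = n')
    (t : (𝟙_ T)⟦k⟧ ⟶ G.U.cobar.B a (𝟙_ T)) (y : G.C.D 0 n) :
    FT ((𝟙_ T)⟦k⟧ ◁ G.eD rfl y ≫ xT G.U t G.M) (G.eD rfl (G.mu he (G.xM t) hs hn y)) := by
  rw [G.eD_mu he _ hs hn rfl rfl (by push_cast; omega)]
  have h : G.U.κB k 0 G.M ≫ G.U.cobar.Bm 0 (G.xM t) ≫ (eB G.U hs G.M).hom =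
      (sphTensor k G.M).inv ≫ xT G.U t G.M := (Category.id_comp _).trans (Category.comp_id _)
  rw [h]
  exact ft_tens _ _ _

/-! ### the lift to filtration two -/

theorem tf_odd_W (s : ℕ) {w t : ℤ} (ht : t + 1 = 2 * w)
    (f : (𝟙_ T)⟦t⟧ ⟶ D.R ⊗ G.U.cobar.B s (𝟙_ T)) (hf : ((3 : ℕ) : ℤ) • f = 0) : f = 0 := by
  have : Fact (Nat.Prime 3) := ⟨Nat.prime_three⟩
  obtain ⟨g, hg⟩ := (dist_red G.dist _).lift₁ (sh t 1 _ ht f) (by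
    rw [← sh_comp, Preadditive.comp_zsmul, Category.comp_id, hf, map_zero])
  obtain ⟨c, hc⟩ : ∃ c : (𝟙_ T)⟦2 * w⟧ ⟶ G.U.cobar.Q (s + 1) (𝟙_ T) ⊗ G.M,
      c ≫ G.U.cobar.q s (𝟙_ T) ▷ G.M = g :=
    G.U.cobar.q_surjective (F := homM ((𝟙_ T)⟦2 * w⟧) G.M) s (𝟙_ T) g
  obtain ⟨z, hz⟩ := D.phi_red_surj G.U (p := 3) (by norm_num) G.dist s w ((G.c w).hom ≫ c)
  have h1 : red G.i _ ≫ bdC G.δ (G.U.cobar.Q (s + 1) (𝟙_ T)) = 0 := (dist_red G.dist _).zero₂₃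
  have h2 : c ≫ bdC G.δ _ = 0 := by
    rw [← cancel_epi (G.c w).hom, reassoc_of% hz, comp_zero]
    exact (congrArg _ h1).trans comp_zero
  rw [← hc, Category.assoc, bdC_naturality, reassoc_of% h2, zero_comp, eq_comm,
    AddEquiv.map_eq_zero_iff] at hg
  exact hg

theorem exists_t {w e k : ℤ} (he : e = 2 * w) (h : e + 1 + 1 = k) (θ : (𝟙_ T)⟦e⟧ ⟶ 𝟙_ T)
    (h3 : ((3 : ℕ) : ℤ) • θ = 0) :
    ∃ t : (𝟙_ T)⟦k⟧ ⟶ G.U.cobar.B 2 (𝟙_ T), hat₂ G.U h t = θ := by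
  have : Fact (Nat.Prime 3) := ⟨Nat.prime_three⟩
  subst he
  have D₀ : Dist (unitMap D.R (G.U.cobar.B 0 (𝟙_ T))) (G.U.cobar.k 0 (𝟙_ T))
    (G.U.bd 0 (𝟙_ T)) := G.U.towerTriangle_distinguished 0 _
  have D₁ : Dist (unitMap D.R (G.U.cobar.B 1 (𝟙_ T))) (G.U.cobar.k 1 (𝟙_ T))
    (G.U.bd 1 (𝟙_ T)) := G.U.towerTriangle_distinguished 1 _
  obtain ⟨t₁, h₁⟩ := D₀.lift₁ (sh (2 * w) 1 _ rfl θ) (by
    rw [← sh_comp, B.torsionFree_W D G.U (p := 3) (by norm_num) G.dist 0 w (θ ≫ _)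
      (by rw [← Preadditive.zsmul_comp, h3, zero_comp]), map_zero])
  obtain ⟨b, hb⟩ := D₀.lift₃ (((3 : ℕ) : ℤ) • t₁) (by
    rw [Preadditive.zsmul_comp, h₁, ← map_zsmul, h3, map_zero])
  obtain ⟨b, rfl⟩ := exists_zsmul_of_red G.dist b
    (B.odd_W D G.U (p := 3) (by norm_num) G.dist 0 w _)
  obtain ⟨t₂, h₂⟩ := D₁.lift₁ (sh (2 * w + 1) 1 k h (t₁ - b ≫ G.U.cobar.k 0 (𝟙_ T))) (by
    rw [← sh_comp, tf_odd_W G 1 (w := w + 1) (by ring) (_ ≫ _) (by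
      rw [← Preadditive.zsmul_comp, smul_sub, ← hb, Preadditive.zsmul_comp, sub_self,
        zero_comp]), map_zero])
  refine ⟨t₂, ?_⟩
  rw [hat₂, AddEquiv.symm_apply_eq, AddEquiv.symm_apply_eq, reassoc_of% h₂, ← sh_comp,
    Preadditive.sub_comp, Category.assoc, D₀.zero₂₃, comp_zero, sub_zero, h₁]

theorem xM_bd_bd {e k : ℤ} (h : e + 1 + 1 = k) (t : (𝟙_ T)⟦k⟧ ⟶ G.U.cobar.B 2 (𝟙_ T)) :
    G.xM t ≫ G.U.bd 1 G.M ≫ (G.U.bd 0 G.M)⟦(1 : ℤ)⟧' =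
      (shiftFunctorAdd' T (e + 1) 1 k h).hom.app G.M ≫
        ((shiftFunctorAdd' T e 1 (e + 1) rfl).hom.app G.M ≫
          (tz (hat₂ G.U h t) G.M)⟦(1 : ℤ)⟧')⟦(1 : ℤ)⟧' := by
  have h1 := Act.xM_bd G (a := 1) h (x := t) (AddEquiv.apply_symm_apply _ _)
  have h2 := Act.xM_bd G (a := 0) (e := e) rfl (x' := hat₂ G.U h t)
    (x := (sh (e + 1) 1 k h).symm (t ≫ G.U.bd 1 (𝟙_ T))) ((AddEquiv.apply_symm_apply _ _).trans
      (by rw [sh_symm_comp, Category.assoc]))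
  rw [reassoc_of% h1, ← Functor.map_comp, h2, Act.xM_zero]

variable [IsTriangulated T] [MonoidalClosed T] [HasProducts.{0} T] [StableCat T]

/-- The product of `y` with two copies of `t` lifts to filtration seven. -/
theorem exists_seven (y : G.C.D 1 107)
    (hy : ∀ u : HQ 4 108, P236T.H.cup (n := 5) (u := 162) rfl (by norm_num)
      (G.X.jc (w := 54) (by norm_num) y) u = 0)
    (t : (𝟙_ T)⟦2 * (54 : ℤ)⟧ ⟶ G.U.cobar.B 2 (𝟙_ T)) (he : (106 : ℤ) + ((2 : ℕ) : ℤ) = 2 * 54) :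
    ∃ z : G.C.D 7 319, G.C.proj 319 (show 2 ≤ 7 by norm_num) z =
      G.mu (s := 0) (n := 213) he (G.xM t) rfl rfl (G.C.proj 213 (Nat.le_add_right 0 2)
        (G.mu (s := 0) he (G.xM t) rfl rfl (G.C.i 0 107 y))) := by
  obtain ⟨b, hb, e⟩ := G.cE_surj_cc (G.i⟦2 * (54 : ℤ)⟧' ≫ G.xM t ≫ unitMap D.R _) (by
    have h : unitMap D.R _ ≫ G.U.cobar.k 2 G.M = 0 := (G.U.tow G.M).a_b 2
    rw [CobarData.D, Category.assoc, Category.assoc, reassoc_of% h, zero_comp, comp_zero,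
      comp_zero])
  let P := G.mulA (by norm_num) he b (G.xM t) e
  obtain ⟨y₃, e₃⟩ : ∃ x : G.C.D 3 213, x = P.μ rfl rfl y := ⟨_, rfl⟩
  obtain ⟨y₅, e₅⟩ : ∃ x : G.C.D 5 319, x = P.μ rfl rfl y₃ := ⟨_, rfl⟩
  obtain ⟨y₆, e₆⟩ := G.X.of_jc_eq_zero (w := 162) (by norm_num) (y := y₅) (by
    rw [e₅, P.jc_μ hb _ _ (w := 108) rfl (by norm_num), e₃,
      P.jc_μ hb _ _ (w := 54) rfl (by norm_num),
      P236T.H.cup_assoc _ _ (bc := 4) rfl rfl _ _ (vw := 108) rfl (by norm_num), hy])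
  obtain ⟨y₇, e₇⟩ := G.X.step_odd (by norm_num) y₆
  refine ⟨y₇, ?_⟩
  rw [← e₇ 2 (by norm_num), ← e₆ 2 (by norm_num), e₅, P.proj_μ (b := 0) _ rfl _ (by norm_num),
    e₃, P.proj_μ_act _ _ (Nat.zero_le 1), G.C.proj_succ 107 le_rfl, G.C.proj_self]
  rfl

end PwW2

open PwW0 PwW2

variable [IsTriangulated T] [MonoidalClosed T] [HasCoproducts.{0} T] [HasProducts.{0} T]
  [StableCat T]

/-- **The cube of the dual map is deep.** -/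
theorem deep_of (F : SpaceFunctor T) {D : MUData T} (G : Geo D)
    (hs : ∀ y : G.C.D 7 322, G.C.proj 322 (show 2 ≤ 7 by norm_num) y = 0) (y : G.C.D 1 107)
    (hy : ∀ u : HQ 4 108, P236T.H.cup (n := 5) (u := 162) rfl (by norm_num)
      (G.X.jc (w := 54) (by norm_num) y) u = 0)
    {g : (𝟙_ T)⟦(106 : ℤ)⟧ ⊗ G.M ⟶ 𝟙_ T} (hg : Dual G.i G.δ g (bot G y)) {H : T}
    {o : 𝟙_ T ⟶ H} (u : D.R ⟶ H) (hu : η[D.R] ≫ u = o) :
    Deep o 322 (((red G.i _ ≫ g) ⊗ₘ ((red G.i _ ≫ g) ⊗ₘ g)) ▷ G.M) := by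
  obtain ⟨c, ⟨K⟩⟩ := BockT.exists_kap G.dist G.pi_one (BockT.pi_zero G F)
  obtain ⟨κ, hκ, hg⟩ := hg
  obtain rfl := kap_eq G.dist G.pi_one K hκ
  have he : (106 : ℤ) + ((2 : ℕ) : ℤ) = 2 * 54 := by norm_num
  have hk : (106 : ℤ) + 1 + 1 = 2 * 54 := by norm_num
  obtain ⟨t, ht⟩ := exists_t G (w := 53) (by norm_num) hk (red G.i _ ≫ g) (by
    rw [← Preadditive.zsmul_comp]
    exact (congrArg (· ≫ g) (zsmul_red G.dist _)).trans zero_comp)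
  obtain ⟨ε, hε, ha⟩ := G.act_two he hk ⟨54, rfl⟩ (by norm_num) t (s := 0) (n := 107)
    (n' := 213) rfl
  obtain ⟨z, hz⟩ := exists_seven G y hy t he
  have h1 := xM_bd_bd G hk t
  rw [ht] at ha h1
  generalize red G.i _ ≫ g = θ at ha h1
  have h2 : sc θ G.M = (sphTensor 106 G.M).hom ≫ tz θ G.M := (Iso.hom_inv_id_assoc _ _).symm
  rw [cube_eq]
  refine deep_pre _ (deep_post ?_ _)
  rw [h2, ← Category.assoc, ← h2]
  refine deep_of_lift rfl hk h1 (af_bd G.U u hu G.M) _ fun β => ?_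
  obtain ⟨E⟩ := ((((IsS.refl (T := T) 3).tens 1 rfl).tens 106 rfl).tens 106 rfl).tens 106
    (show _ = (322 : ℤ) by norm_num)
  obtain ⟨β₂, e₂⟩ := full_L 106 (E.hom ≫ β ≫ _ ◁ _ ◁ (α_ _ _ _).hom)
  obtain ⟨β₁, rfl⟩ := full_L 106 β₂
  obtain ⟨β₀, rfl⟩ := full_L 106 β₁
  obtain ⟨φ, rfl⟩ := key G.dist G.three_id K β₀
  refine ⟨_, _ ◁ ((α_ _ _ _).inv ≫ bot G y ▷ (𝟙_ T)⟦(3 : ℤ)⟧ ≫ φ) ≫ sc θ G.M, ?_, ?_⟩
  · refine ⟨E.inv ≫ (sphTensor 106 _).hom, ?_⟩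
    rw [← hg, ← dual_key, Category.assoc, ← sphTensor_naturality,
      MonoidalCategory.whiskerLeft_comp _ _ (sc θ G.M),
      MonoidalCategory.whiskerLeft_comp _ (_ ◁ _) (_ ≫ _),
      MonoidalCategory.whiskerLeft_comp _ (_ ◁ _ ◁ _), Category.assoc, Category.assoc, e₂]
    simp
  · obtain ⟨E'⟩ := (IsS.refl (T := T) (319 + (7 : ℕ))).tens 3 (b := 322 + (7 : ℕ)) (by norm_num)
    have f1 : FT (G.eD rfl z ▷ (𝟙_ T)⟦(3 : ℤ)⟧ ≫ ph G.U φ 7) (G.eD rfl ((G.eD (n := 322) rfl).symm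
        (E'.inv ≫ (β_ _ _).hom ≫ G.eD rfl z ▷ (𝟙_ T)⟦(3 : ℤ)⟧ ≫ ph G.U φ 7))) := by
      rw [AddEquiv.apply_symm_apply, ← Category.assoc]
      exact FT.iso (E'.symm ≪≫ β_ _ _) _
    have f2 := ft_zero (ft_proj G φ (show 2 ≤ 7 by norm_num) f1) (by rw [hs, map_zero])
    have f3 : FT (bot G y) (G.eD rfl (G.C.i 0 107 y)) := ((ft_eD G _ _ _).pre _).pre _
    have f4 : FT (_ ◁ G.eD rfl (G.C.i 0 107 y) ≫ sc θ G.M) (G.eD rfl (G.C.proj 213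
        (Nat.le_add_right 0 2) (G.mu (s := 0) he (G.xM t) rfl rfl (G.C.i 0 107 y)))) := by
      rw [ha]
      exact (ft_tens _ _ _).trans (ft_sign _ hε)
    have f5 := (((((f3.whiskerRight _).post φ).pre (α_ ((𝟙_ T)⟦(106 : ℤ)⟧) _ _).inv).whiskerLeft
      _).post _).trans ((ft_sc θ _ φ).trans ((f4.whiskerRight _).post φ))
    have f6 := ((f5.whiskerLeft _).post _).trans ((ft_xT G.U t _ φ).trans
      (((ft_mu G (n' := 319) he rfl rfl t _).whiskerRight _).post _))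
    rw [hz] at f2
    rw [← cancel_epi (sphTensor _ _).hom, comp_zero, ← sphTensor_naturality_assoc]
    exact (congrArg _ (Iso.hom_inv_id_assoc _ _)).trans (ft_zero f6 f2)

end Vale.Agent.P236K
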