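import Vale.Agent.P236K.PwG
import Vale.Agent.P236Z.Det.All
import Vale.Agent.P236Z.Dt.Thom

/-!
# P236K: from a class of `HF_3`-filtration one to a permanent cycle which lifts `t₁ ^ 81`
-/

open CategoryTheory MonoidalCategory MonObj Limits Pretriangulated

set_option linter.unusedSectionVars false

universe u

namespace Vale.Agent.P236K

open Vale.Agent.P251 Vale.Agent.P251.T Vale.Agent.P251.M Vale.Agent.P251.F Vale.Agent.P251.I
  Vale.Agent.P251.H Vale.Agent.P257.H314 Vale.Agent.P236T Vale.Agent.P236Z Vale.Agent.P236Z.Dt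
open Vale.Agent.P251.S hiding IC

variable {T : Type u} [Category.{0} T] [Preadditive T] [HasZeroObject T]
    [HasShift T ℤ] [∀ n : ℤ, (shiftFunctor T n).Additive] [Pretriangulated T] [IsTriangulated T]
    [MonoidalCategory T] [SymmetricCategory T] [TensorTriangulated T] [MonoidalClosed T]
    [HasCoproducts.{0} T] [HasProducts.{0} T] [StableCat T]

namespace PwW3

/-- A cocycle modulo three in weight `162` is a multiple of `t₁ ^ 81` modulo `(3, v₁, v₂)`, up to a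
coboundary. -/
theorem exists_cong (z : Cob.wt Laz 1 162) (hz : Cc z) : ∃ (c : ℤ) (Z : Cob.wt Laz 0 162),
    (z - Cob.dwt Laz 0 162 Z).1 - c * t1 ^ 81 ∈ IC 3 3 1 := by
  obtain ⟨dd⟩ := Det.exists_dat Det.norm Det.evp isT1_t1
  obtain ⟨r, hr⟩ := mem_IC_iff.1 hz
  obtain ⟨c, Z, G, h', hG, e⟩ := Det.listA Det.land Det.hone isT1_t1 dd (j := 3) (h := z.1)
    (Det.isWt_cast z.2 (by norm_num)) ⟨r, by rw [← hr, zsmul_eq_mul]; rfl⟩
  have hT : Cob.IsWt 162 ((c : Cob Laz 1) * t1 ^ 81) :=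
    Det.isWt_int_mul c (Det.isWt_cast (isWt_t1.pow 81) (by norm_num))
  have h3 : z.1 - Det.D Z - c * t1 ^ 81 ∈ Det.II 1 :=
    e.symm ▸ Ideal.add_mem _ (Ideal.pow_le_self two_ne_zero hG) (Det.three_mul_mem _)
  have h4 := Det.proj_mem_II 162 h3
  rw [Det.proj_sub, Det.proj_self hT, Det.proj_sub, Det.proj_self z.2, ← Det.d_C,
    Cob.proj_d] at h4
  exact ⟨c, ⟨_, Cob.isWt_proj 162 (MvPolynomial.C Z)⟩, h4⟩

theorem af_of_shift {H : T} {o : 𝟙_ T ⟶ H} {s : ℕ} {X Y : T} {f : X ⟶ Y}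
    (h : Tr.AF o s (f⟦(1 : ℤ)⟧')) : Tr.AF o s f := by
  refine Tr.AF.of_whiskerRight (Tr.invOf (Iso.refl ((𝟙_ T)⟦(1 : ℤ)⟧))) ?_
  rw [(Iso.eq_comp_inv _).2 (tensorSph_naturality 1 f), Category.assoc]
  exact (h.post _).pre _

variable {D : MUData T} (G : Geo D) {H : T} [MonObj H] [IsCommMonObj H]

/-- An element of the first stage whose cochain lies in `(3, v₁, …)` has filtration two. -/
theorem af_two (hH : Tr.IsHF 3 η[H]) {w : ℤ} {r : ℕ} (z : Cob.wt Laz 1 w) (hz : z.1 ∈ IC 3 r 1)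
    (t : (𝟙_ T)⟦2 * w⟧ ⟶ G.U.cobar.B 1 G.M) (ht : t ≫ unitMap D.R _ = G.cE z) :
    Tr.AF η[H] 2 (t ≫ G.U.bd 0 G.M) := by
  obtain ⟨u, hu⟩ := exists_thom D hH.conc
  have hun : ∀ Y, Tr.hur η[H] Y = unitMap D.R Y ≫ (u ▷ Y) := fun Y => by
    rw [Tr.hur, unitMap, Category.assoc, ← comp_whiskerRight, IsMonHom.one_hom]
  refine Tr.AF.succ (Tr.AF.of_null ?_) ?_
  · have h3 := evw_thom D hH.conc ((hH.ord _).2 dvd_rfl) u (inrM (𝟙_ T) H ≫ inlM _ D.R) (s := 1)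
      (((𝟙_ T) ◁ u) ▷ D.R) (by
        have h4 : Am.v D.R (0 : Fin 2) = inrM (𝟙_ T) D.R ≫ inlM _ D.R := rfl
        have h5 : inrM (𝟙_ T) D.R ≫ (𝟙_ T) ◁ u = u ≫ inrM (𝟙_ T) H := by
          rw [inrM, inrM, Category.assoc, ← whisker_exchange, leftUnitor_inv_naturality_assoc]
        rw [h4, Category.assoc, inlM_whiskerRight, reassoc_of% h5]) z hz
    have h4 : (D.qAm G.U 2).inv ≫ (u ▷ (D.R ⊗ 𝟙_ T)) = (((𝟙_ T) ◁ u) ▷ D.R) ≫
        (ρ_ _).inv ≫ (α_ _ _ _).hom ≫ (α_ _ _ _).hom ≫ (λ_ _).hom := by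
      change ((ρ_ _).inv ≫ (α_ _ _ _).hom ≫ (α_ _ _ _).hom ≫ (λ_ _).hom) ≫ _ = _
      monoidal
    have h5 : G.cE z = (G.c w).inv ≫ D.evw 1 w z ≫ (D.qAm G.U 2).inv ≫
        D.R ◁ (D.R ◁ G.i ≫ G.U.ρ ▷ G.M) := by
      rw [G.cE_apply, G.ch_apply, MUData.phi_apply, Category.assoc, Category.assoc,
        MonoidalCategory.whiskerLeft_comp]
      exact congrArg _ (congrArg _ (congrArg _ (congrArg _ (Category.comp_id _))))
    rw [Tr.Null, hun, reassoc_of% ht, h5]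
    simp only [Category.assoc]
    rw [whisker_exchange, reassoc_of% h4, reassoc_of% h3, zero_comp, comp_zero]
  · have h1 : G.U.bd 0 G.M ≫ (unitMap D.R G.M)⟦(1 : ℤ)⟧' = 0 :=
      comp_distTriang_mor_zero₃₁ _ (G.U.towerTriangle_distinguished 0 G.M)
    rw [Tr.Null, hun, (Iso.eq_comp_inv _).2 (unitMap_csh 1 _), Category.assoc, reassoc_of% h1,
      zero_comp]

end PwW3

open PwW3 in
set_option linter.unusedVariables false in
theorem perm_of_shallow (F : SpaceFunctor T) {D : MUData T} (G : Geo D) {H : T} [MonObj H]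
    [IsCommMonObj H] (hH : Tr.IsHF 3 η[H]) (h : Shallow η[H] 323 G.M) :
    G.X.Perm 81 162 323 (by norm_num) := by
  obtain ⟨f, hf⟩ := h
  have a0 : (323 : ℤ) + ((0 : ℕ) : ℤ) = 323 := rfl
  have a1 : (323 : ℤ) + ((1 : ℕ) : ℤ) = 2 * 162 := rfl
  have a2 : (324 : ℤ) + ((0 : ℕ) : ℤ) = 2 * 162 := rfl
  have a3 : (324 : ℤ) = 323 + 1 := rfl
  obtain ⟨y, hy⟩ := G.X.exists_i_of_odd (m := 323) (t := 0) (by norm_num) ((G.eD a0).symm f)
  obtain ⟨z, hz, hj⟩ := G.X.exists_rep a1 y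
  obtain ⟨c, Z, hc⟩ := exists_cong z hz
  have h1 : G.C.j 1 323 (y - G.C.k 0 324 323 a3 (G.X.cls a2 Z)) =
      G.X.cls a1 (z - Cob.dwt Laz 0 162 Z) := by
    rw [map_sub, map_sub, hj, ← G.X.cls_d a2 a3 a1, G.C.d_apply]
  refine ⟨_, c, 3, _, fun hc' => hf (af_of_shift ?_), hz.sub ?_, hc, h1⟩
  · obtain ⟨c', e⟩ := hc'
    have h2 : (z - Cob.dwt Laz 0 162 Z).1 ∈ IC 3 3 1 := by
      have := Ideal.add_mem _ hc (Det.three_mul_mem ((c' : Cob Laz 1) * t1 ^ 81))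
      rwa [e, Int.cast_mul, Int.cast_ofNat, _root_.mul_assoc, sub_add_cancel] at this
    have h3 := af_two G hH _ h2 _ ((G.j_eq_cls a1 _ _).1 h1)
    rw [← G.eD_i a0 a1 rfl, map_sub, G.C.i_k, sub_zero, hy, AddEquiv.apply_symm_apply] at h3
    have h4 := h3.pre ((shiftFunctorAdd' T 323 1 (2 * 162) rfl).inv.app (𝟙_ T))
    exact (Iso.inv_hom_id_app_assoc (shiftFunctorAdd' T 323 1 (2 * 162) rfl) (𝟙_ T)
      (f⟦(1 : ℤ)⟧') ▸ h4 :)
  · change Cob.d 1 (Cob.d 0 Z.1) ∈ _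
    rw [Cob.d_d]
    exact zero_mem _

end Vale.Agent.P236K
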