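import Vale.Agent.P236K.PwT
import Vale.Agent.P236K.PwW1
import Vale.Agent.P236K.PwW2
import Vale.Agent.P236K.PwW3
import Vale.Agent.P236T.Final

/-!
# P236K: the statement from the algebraic input and the power construction
-/

open CategoryTheory MonoidalCategory MonObj Limits Pretriangulated

universe u

namespace Vale.Agent.P236K

open Vale.Agent.P251 Vale.Agent.P251.T Vale.Agent.P251.M Vale.Agent.P251.F Vale.Agent.P251.I
  Vale.Agent.P251.H Vale.Agent.P257 Vale.Agent.P257.H314 Vale.Agent.P236T Vale.Agent.P236Z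
  Vale.Agent.P236Z.Dt
open Vale.Agent.P251.S hiding IC

section

variable {T : Type u} [Category.{0} T] [Preadditive T] [HasZeroObject T]
    [HasShift T ℤ] [∀ n : ℤ, (shiftFunctor T n).Additive] [Pretriangulated T] [IsTriangulated T]
    [MonoidalCategory T] [SymmetricCategory T] [TensorTriangulated T] [MonoidalClosed T]
    [HasCoproducts.{0} T] [HasProducts.{0} T] [StableCat T]
    {F : SpaceFunctor T} {e : F.S.obj CCF ≅ (stdEven T).L} {D : MUData T}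

theorem moore_of_core [LocallySmall.{0} T] (hD : MUUniv e D) (h : AlgFacts')
    (hc : ∀ (H M : T) (o : 𝟙_ T ⟶ H) (i : 𝟙_ T ⟶ M) (δ : M ⟶ (𝟙_ T)⟦(1 : ℤ)⟧),
      Cf o i δ → Core F o M) : Moore D 2 ∧ Moore D 3 := by
  obtain ⟨G, P, hP⟩ := exists_top F D
  obtain ⟨N, hN, hPer, h⟩ := h
  obtain ⟨⟨z, hz, dz, c, r, h3, hr, hδ, hcup⟩, hEx, hCol⟩ := h P.delta
  have J2 : P.delta.J2 := ⟨⟨z, hz, dz, c, r, h3, hr, hδ⟩, hEx⟩
  have hn : (107 : ℤ) + ((1 : ℕ) : ℤ) = 2 * 54 := by norm_num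
  have h0 := P.sk.kc_eq_zero rfl hn (m := 106) rfl (by norm_num) (fun _ y => P.surv106 J2 y) _ hδ
  obtain ⟨y, hy⟩ := G.C.exact_k _ _ 106 rfl _
    ((P.X.kc_cl hn rfl (z := ⟨z, hz⟩) dz).symm.trans h0)
  rw [hP] at hy
  obtain ⟨H, _, _, hH⟩ := exists_HFmon F (p := 3) (by norm_num)
  obtain ⟨u, hu⟩ := exists_thom D hH.conc
  obtain ⟨g, hg⟩ := exists_dual F G (bot G y)
  obtain ⟨C, j, π, hC⟩ := exists_cone g
  let v : 𝟙_ T ≅ (𝟙_ T)⟦(0 : ℤ)⟧ := ((shiftFunctorZero T ℤ).app _).symm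
  have e0 : (β_ (𝟙_ T) (𝟙_ T)).hom = 𝟙 _ := by
    rw [braiding_tensorUnit_left, unitors_equal, Iso.hom_inv_id]
  have hS := pow_of_core F (hc H G.M η[H] G.i G.δ ⟨G.dist, G.pi_one,
    H709.pi_low D G.U (p := 3) (by norm_num) G.dist (by norm_num) (by norm_num), hH,
    ⟨μ[H], MonObj.mul_one H⟩⟩) _ _ (red G.i ((𝟙_ T)⟦(106 : ℤ)⟧)) g 106 (by norm_num)
    ⟨⟨v⟩, ⟨Iso.refl _⟩, e0, PwT.ev_even (PwT.ev_iso v.symm e0) 53, ⟨_, dist_red G.dist _⟩,
      ⟨C, j, π, hC, big_of hD G hH (z := ⟨z, hz⟩) h3 hr hy hg hC⟩,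
      deep_of F G (P.surv322 hN hPer hCol) y (fun w => by
        rw [G.X.jc_eq hn hy dz]
        exact hcup w) hg u (IsMonHom.one_hom u)⟩
  exact G.moore_of P hP ⟨P.perm27 J2, hP ▸ perm_of_shallow F G hH hS⟩

end

open Vale.Agent.P251.St in
/-- **The statement from the algebraic input and the power construction for spaces.** -/
theorem final_of_core (hA : A2) (h : AlgFacts')
    (hc : ∀ (T : St.SHCat) (F : SpaceFunctor T.C) (H M : T.C) (o : 𝟙_ T.C ⟶ H) (i : 𝟙_ T.C ⟶ M)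
      (δ : M ⟶ (𝟙_ T.C)⟦(1 : ℤ)⟧), Cf o i δ → Core F o M) :
    (∃ (T : St.SHCat) (S : St.Susp T), Nonempty (P251CX.IsSH T S.1)) ∧
      ∀ (T : St.SHCat) (_ : St.Susp T), Goal T := by
  refine final_of fun T S => ?_
  have := locallySmall_self.{0} T.C
  obtain ⟨M⟩ := nonempty_MUMon S.toSpaceFunctor (stdEven T.C) (lineIso S.toSpaceFunctor)
  obtain ⟨b⟩ := M.nonempty_muBasis
  obtain ⟨h2, h3⟩ := moore_of_core (M.muUniv b) h (hc T S.toSpaceFunctor)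
  exact ⟨_, _, _, M.muUniv b, h2.divides.lifts, h3.divides.lifts,
    fun H o ho θ => j1 S.toSpaceFunctor (M.data b) hA H o ho θ⟩

end Vale.Agent.P236K
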