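import Vale.Agent.P236K.PwC
import Vale.Agent.P236K.Fin3

/-!
# P236K: the statement from the algebraic input
-/

namespace Vale.Agent.P236K

open Vale.Agent.P251 Vale.Agent.P251.St in
/-- **The statement from the algebraic input.** -/
theorem final_of_alg' (hA : A2) (h : AlgFacts') :
    (∃ (T : St.SHCat) (S : St.Susp T), Nonempty (P251CX.IsSH T S.1)) ∧
      ∀ (T : St.SHCat) (_ : St.Susp T), Goal T :=
  final_of_core hA h fun _ F _ _ _ _ _ hC => core F hC

end Vale.Agent.P236K
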