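import Vale.Agent.P236K.Core

/-!
# P236K: the group `π_4 (H ⊗ H)` has order three and is generated by `ξ_1`
-/

open CategoryTheory MonoidalCategory MonObj Limits Pretriangulated

set_option linter.unusedSectionVars false

universe u

namespace Vale.Agent.P236K

open Vale.Agent.P251 Vale.Agent.P251.S Vale.Agent.P251.T Vale.Agent.P251.M Vale.Agent.P251.F
  Vale.Agent.P251.I EvenSpheres Vale.Agent.P257.H80 Vale.Agent.P251.H Vale.Agent.P236Z

variable {T : Type u} [Category.{0} T] [Preadditive T] [HasZeroObject T]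
    [HasShift T ℤ] [∀ n : ℤ, (shiftFunctor T n).Additive] [Pretriangulated T] [IsTriangulated T]
    [MonoidalCategory T] [SymmetricCategory T] [TensorTriangulated T] [MonoidalClosed T]
    [HasCoproducts.{0} T] [HasProducts.{0} T] [StableCat T]
  {F : SpaceFunctor T} {e : F.S.obj CCF ≅ (stdEven T).L} {D : MUData T}

theorem odd_shift {Y : T} (hY : X.Odd0 Y) {w : ℤ} (f : (stdEven T).S w ⟶ Y⟦(1 : ℤ)⟧) : f = 0 := by
  let c : (stdEven T).S w ≅ ((𝟙_ T)⟦2 * (w - 1) + 1⟧)⟦(1 : ℤ)⟧ :=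
    (stdEven T).sphIso (Iso.refl _) w ≪≫
      (shiftFunctorAdd' T (2 * (w - 1) + 1) 1 (2 * w) (by omega)).app (𝟙_ T)
  obtain ⟨g, hg⟩ := (shiftFunctor T (1 : ℤ)).map_surjective (c.inv ≫ f)
  rw [← cancel_epi c.inv, ← hg, hY _ g, Functor.map_zero, comp_zero]

open X in
theorem exists_PD_surj (D : MUData T) {p : ℕ} [Fact p.Prime] (hp : p ≠ 2) :
    ∃ Q : PD D p 1, ∀ (Y : T), Odd0 (Y ⊗ D.R) → ∀ (w : ℤ) (f : (stdEven T).S w ⟶ Y ⊗ Q.P),
      ∃ g, g ≫ Y ◁ Q.u = f := by
  obtain ⟨M, iM, δM, hM⟩ := distinguished_cocone_triangle ((p : ℤ) • 𝟙 (𝟙_ T))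
  obtain ⟨o⟩ := QIn.quot (baseQIn D.R hM) (baseQIn_van D.R
    (Int.odd_coe_nat p |>.2 ((Fact.out : p.Prime).odd_of_ne_two hp)) hM (odd_base D hp hM))
  let _ := o.mon
  have _ := o.comm
  have h1 : IsMonHom (iB D iM) := o.hom
  refine ⟨{ P := D.R ⊗ M
            u := iB D iM
            odd := odd_base D hp hM
            surj := surj_lift_base D hp hM
            ker := ker_lift_base D hp hM
            desc := ?_
            uniq := ?_ }, ?_⟩
  · intro N _ _ g _ hN hg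
    have h2 := (vv_zero_lawOf_iff g).1 (hg 0 zero_lt_one)
    have h3 : (baseQIn D.R hM).v ≫ g = 0 := by
      change ((p : ℤ) • η[D.R]) ≫ g = 0
      rw [Preadditive.zsmul_comp, IsMonHom.one_hom, h2]
    exact o.desc N g h3 (fun f => hN.h1 0 f) fun f hf => eq_zero_of_two hp h2 f hf
  · intro N _ f f' hf hf' hN h
    exact o.uniq N f f' hf hf' h (fun f => hN.h1 0 f)
  · intro Y hY w f
    have E : Dist _ _ _ := redTri_distinguished hM (Y ⊗ D.R)
    obtain ⟨g, hg⟩ := E.lift₃ (f ≫ (α_ Y D.R M).inv) (odd_shift hY _)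
    refine ⟨g, ?_⟩
    rw [← cancel_mono (α_ Y D.R M).inv, ← hg, Category.assoc]
    congr 1
    change Y ◁ ((ρ_ D.R).inv ≫ D.R ◁ iM) ≫ (α_ Y D.R M).inv =
      (ρ_ (Y ⊗ D.R)).inv ≫ (Y ⊗ D.R) ◁ iM
    monoidal

theorem exists_mul_of_deg {A : Type*} [CommRing A] {c : ℕ → A} (h0 : c 0 = 0) {a : ℕ →₀ ℕ}
    (ha : Cob.degU a = 2) : ∃ κ : ℤ, (a.prod fun i m => c i ^ m) = κ • c 1 := by
  by_cases h : a 0 = 0
  · refine ⟨1, ?_⟩
    have key : ∀ i, ((a i : ℕ) : ℤ) * ((i + 1 : ℕ) : ℤ) ≤ 2 := fun i => by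
      by_cases hi : i ∈ a.support
      · rw [← ha]
        exact Finset.single_le_sum (f := fun m => ((a m : ℕ) : ℤ) * ((m + 1 : ℕ) : ℤ))
          (fun _ _ => by positivity) hi
      · rw [Finsupp.notMem_support_iff.1 hi]
        simp
    have h2 : a = Finsupp.single 1 (a 1) := by
      ext i
      rcases i with _ | _ | i
      · simpa using h
      · simp
      · have h3 := key (i + 2)
        rw [Finsupp.single_eq_of_ne (by omega)]
        by_contra h4
        have h5 : (1 : ℤ) ≤ (a (i + 2) : ℕ) := by exact_mod_cast Nat.one_le_iff_ne_zero.2 h4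
        push_cast at h3
        nlinarith
    rw [h2, Cob.degU, Finsupp.sum_single_index (by simp)] at ha
    have h3 : a 1 = 1 := by
      push_cast at ha
      omega
    rw [h2, h3, Finsupp.prod_single_index (h := fun i m => c i ^ m) (pow_zero _), pow_one, one_smul]
  · refine ⟨0, ?_⟩
    rw [zero_smul, Finsupp.prod, Finset.prod_eq_zero (Finsupp.mem_support_iff.2 h)]
    rw [h0, zero_pow h]

variable {H : T} [MonObj H] [IsCommMonObj H] (hH : Tr.IsHF 3 η[H]) (u : D.R ⟶ H) [IsMonHom u]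

include hH

theorem three_HF {N : T} [MonObj N] [IsCommMonObj N] (f : H ⟶ N) [IsMonHom f] :
    (3 : HRing (stdEven T) N) = 0 := by
  have h := (intCast_HF hH 3).2 dvd_rfl
  rw [← map_ofNat (HRing.map f) 3, ← Int.cast_ofNat, h, map_zero]

theorem ser_c_one {N : T} [MonObj N] [IsCommMonObj N] (f g : H ⟶ N) [IsMonHom f] [IsMonHom g] :
    (ser (u ≫ f) (u ≫ g)).c 1 = 0 := by
  have h := ser_smul (u ≫ f) (u ≫ g)
  rw [lawOf_comp, lawOf_comp, lawOf_add hH.conc, map_addLaw, map_addLaw,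
    P257.H604.smul_addLaw_iff (p := 3) (by exact_mod_cast three_HF hH f) (ser_strict _ _)] at h
  refine h 1 ?_
  rintro ⟨k, hk⟩
  rcases k with _ | k
  · simp at hk
  · omega

/-- `π_4 (H ⊗ H)` is generated by `ξ_1`. -/
theorem exists_smul_xi (hD : MUUniv e D) (z : (stdEven T).S 2 ⟶ H ⊗ H) :
    ∃ κ : ℤ, HRing.of (stdEven T) _ 2 z = κ • xi u := by
  obtain ⟨Q, hQ⟩ := exists_PD_surj D (p := 3) (by norm_num)
  obtain ⟨W⟩ := exists_BD hD one_ne_zero Q
  obtain ⟨β, _, hβ⟩ := exists_beta hH u W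
  obtain ⟨c1, -, cH⟩ := near_beta hH one_ne_zero W β
  have c2 := CofIn.whiskerLeft (Q := BigCell T _) H (fun Z hZ => cH.tensor hZ _ (zero_add _)) c1
  obtain ⟨y, rfl⟩ := surj_of_cofIn (cofIn_conn D.conn_unit c2) (by norm_num) z
  obtain ⟨g, hg⟩ := hQ H (odd_tensor hD u (odd_HF hH)) 2 (y ≫ H ◁ W.s)
  have h1 : y ≫ H ◁ β = g ≫ descM (inlM H H) (u ≫ inrM H H) := by
    have h2 : descM (inlM H H) (u ≫ inrM H H) = H ◁ u := by
      apply hom_ext_tensor
      · rw [inlM_descM, inl_whisker]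
      · rw [inrM_descM, inr_whisker]
    rw [h2, ← hβ, MonoidalCategory.whiskerLeft_comp, MonoidalCategory.whiskerLeft_comp,
      Category.assoc, reassoc_of% hg, ← MonoidalCategory.whiskerLeft_comp_assoc, W.s_r,
      MonoidalCategory.whiskerLeft_id, Category.id_comp]
  obtain ⟨t, n, ht, hz⟩ := exists_pv hD u (m := 3) (w := 2) (by norm_num)
    (exists_high_of (fun k hk _ f => by
      rw [← cancel_epi ((stdEven T).sphIso (Iso.refl _) k).inv, comp_zero]
      exact hH.conc _ (by omega) _) fun f => by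
      obtain ⟨a, ha⟩ := hH.gen ((stdEven T).zero.hom ≫ f)
      exact ⟨a, by rw [← Preadditive.comp_zsmul, ← ha, Iso.inv_hom_id_assoc]⟩) g
  rw [h1, ← HRing.map_of, hz, map_pv, pv]
  simp only [map_bK]
  have h3 : ∀ a ∈ t, ∃ κ : ℤ, (a.prod fun i m =>
      (ser (u ≫ inlM H H) (u ≫ inrM H H)).c (i + 1) ^ m) = κ • xi u := fun a ha =>
    exists_mul_of_deg (c := fun i => (ser (u ≫ inlM H H) (u ≫ inrM H H)).c (i + 1))
      (ser_c_one hH u _ _) (ht a ha)
  choose! κ hκ using h3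
  refine ⟨∑ a ∈ t, n a * κ a, ?_⟩
  rw [Finset.sum_smul]
  exact Finset.sum_congr rfl fun a ha => by rw [hκ a ha, mul_smul]

theorem smul_xi_eq_zero (hD : MUUniv e D) (κ : ℤ) : κ • xi u = 0 ↔ 3 ∣ κ := by
  constructor
  · intro h
    by_contra hκ
    refine not_cob hD hH u 0 (κ := κ ^ 3) (fun h => hκ (Int.prime_three.dvd_of_dvd_pow h)) rfl
      0 0 0 ?_
    have h1 : (κ : HRing (stdEven T) _) * HRing.map (e01 H) (xi u) = 0 := by
      rw [← zsmul_eq_mul, ← map_zsmul, h, map_zero]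
    rw [zero_comp, zero_comp, zero_comp, add_zero, add_zero, bel, bp, zsmul_eq_mul]
    refine (map_zero (DirectSum.of ((stdEven T).Gr _) _)).trans ?_
    push_cast
    linear_combination (-(κ : HRing (stdEven T) _) ^ 2 * (HRing.map (e01 H) (xi u) *
      HRing.map (e12 H) (xi u) + HRing.map (e12 H) (xi u) ^ 2)) * h1
  · rintro ⟨k, rfl⟩
    rw [zsmul_eq_mul]
    push_cast
    rw [three_HF hH (inlM H H), zero_mul, zero_mul]

theorem card_four (hD : MUUniv e D) : Nat.card ((stdEven T).S 2 ⟶ H ⊗ H) = 3 := by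
  obtain ⟨u, _⟩ := Dt.exists_thom D hH.conc
  obtain ⟨x, hx⟩ := isHomog_xi u
  have h1 : ∀ κ : ℤ, κ • x = 0 ↔ 3 ∣ κ := fun κ => by
    rw [← smul_xi_eq_zero hH u hD, hx]
    constructor
    · intro h
      exact (map_zsmul (DirectSum.of ((stdEven T).Gr _) _) _ _).symm.trans
        ((congrArg _ h).trans (map_zero _))
    · intro h
      exact of_injective ((map_zsmul (DirectSum.of ((stdEven T).Gr _) _) _ _).trans
        (h.trans (map_zero (DirectSum.of ((stdEven T).Gr _) _)).symm))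
  have h2 : AddSubgroup.zmultiples x = ⊤ := by
    rw [eq_top_iff]
    intro z _
    obtain ⟨κ, hκ⟩ := exists_smul_xi hH u hD z
    exact ⟨κ, of_injective ((map_zsmul (DirectSum.of ((stdEven T).Gr _) _) _ _).trans
      (by rw [hκ, hx]))⟩
  have h3 : addOrderOf x = 3 := addOrderOf_eq_prime
    (by rw [← natCast_zsmul, h1]; exact dvd_rfl)
    (fun h => by have := (h1 1).1 (by rw [h, smul_zero]); norm_num at this)
  rw [← h3, ← Nat.card_zmultiples, h2, AddSubgroup.card_top]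

end Vale.Agent.P236K
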