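import Vale.Agent.P236K.Ret
import Vale.Agent.P236Z.Cv.Div
import Vale.Agent.P221.H246.Ser
import Vale.Agent.P257.H604.Log
import Vale.Agent.P251.Z.KMU

/-!
# P236K: highly connected maps; values of cooperations on pairs of orientations
-/

open CategoryTheory MonoidalCategory MonObj Limits Pretriangulated

set_option linter.unusedSectionVars false

universe u

namespace Vale.Agent.P236K

open Vale.Agent.P251 Vale.Agent.P251.S Vale.Agent.P251.T Vale.Agent.P251.M Vale.Agent.P251.F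
  Vale.Agent.P251.I EvenSpheres Vale.Agent.P257.H80 Vale.Agent.P251.H Vale.Agent.P236Z

variable {T : Type u} [Category.{0} T] [Preadditive T] [HasZeroObject T]
    [HasShift T ℤ] [∀ n : ℤ, (shiftFunctor T n).Additive] [Pretriangulated T] [IsTriangulated T]
    [MonoidalCategory T] [SymmetricCategory T] [TensorTriangulated T] [MonoidalClosed T]
    [HasCoproducts.{0} T] [HasProducts.{0} T] [StableCat T]
  {F : SpaceFunctor T} {e : F.S.obj CCF ≅ (stdEven T).L} {D : MUData T}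
  {p : ℕ} [hp : Fact p.Prime]

/-! ### highly connected maps -/

theorem surj_of_cofIn {a w : ℤ} {X Y : T} {f : X ⟶ Y} (hf : CofIn (Conn a) f) (hw : 2 * w < a)
    (y : (stdEven T).S w ⟶ Y) : ∃ x, x ≫ f = y := by
  obtain ⟨Z, g, h, E, hZ⟩ := hf
  refine E.lift₂ y ?_
  rw [← cancel_epi ((stdEven T).sphIso (Iso.refl _) w).inv, comp_zero]
  exact hZ _ hw _

theorem inj_of_cofIn {a w : ℤ} {X Y : T} {f : X ⟶ Y} (hf : CofIn (Conn a) f) (hw : 2 * w + 1 < a)
    {x x' : (stdEven T).S w ⟶ X} (h : x ≫ f = x' ≫ f) : x = x' := by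
  obtain ⟨Z, g, d, E, hZ⟩ := hf
  rw [← sub_eq_zero, ← cancel_epi ((stdEven T).sphIso (Iso.refl _) w).inv, comp_zero]
  refine Cv.DivAux.inj_of_surj E (fun z => ⟨0, by rw [zero_comp, hZ _ hw z]⟩) _ ?_
  rw [Category.assoc, Preadditive.sub_comp, h, sub_self, comp_zero]

theorem cofIn_tensor {a : ℤ} {X Y X' Y' : T} {f : X ⟶ Y} {f' : X' ⟶ Y'}
    (hf : CofIn (BigCell T a) f) (hf' : CofIn (BigCell T a) f') (hY : BigCell T 0 Y)
    (hX' : BigCell T 0 X') : CofIn (BigCell T a) (f ⊗ₘ f') := by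
  rw [MonoidalCategory.tensorHom_def]
  exact CofIn.comp (bigCell_extClosed a)
    (CofIn.whiskerRight (bigCell_extClosed a) X' (fun Z hZ => hX'.tensor hZ a (by simp)) hf)
    (CofIn.whiskerLeft Y (fun Z hZ => hY.tensor hZ a (by simp)) hf')

theorem cofIn_conn (h0 : Conn (0 : ℤ) (𝟙_ T)) {a : ℤ} {X Y : T} {f : X ⟶ Y}
    (hf : CofIn (BigCell T a) f) : CofIn (Conn a) f :=
  hf.mono fun _ hZ => P257.H762.BigCell.conn' h0 hZ

theorem cofIn_of_pi {B H : T} {ηB : 𝟙_ T ⟶ B} {β : B ⟶ H} (hH : Tr.IsHF p (ηB ≫ β)) {m : ℤ}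
    (hB : ∀ k : ℤ, k ≠ 0 → k < m → ∀ f : (𝟙_ T)⟦k⟧ ⟶ B, f = 0)
    (hg : ∀ f : 𝟙_ T ⟶ B, ∃ a : ℤ, f = a • ηB) (hc : (p : ℤ) • ηB = 0) :
    CofIn (Conn (m + 1)) β := by
  obtain ⟨C, g, d, E⟩ := exists_cone β
  let ε : (𝟙_ T)⟦(0 : ℤ)⟧ ≅ 𝟙_ T := (shiftFunctorZero T ℤ).app (𝟙_ T)
  refine ⟨C, g, d, E, fun k hk f => ?_⟩
  let c : (𝟙_ T)⟦k⟧ ≅ ((𝟙_ T)⟦k - 1⟧)⟦(1 : ℤ)⟧ :=
    (shiftFunctorAdd' T (k - 1) 1 k (by omega)).app (𝟙_ T)
  obtain ⟨g', hg'⟩ := (shiftFunctor T (1 : ℤ)).map_surjective (c.inv ≫ f ≫ d)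
  have h1 : g' = 0 := by
    by_cases hk1 : k - 1 = 0
    · obtain rfl : k = 1 := by omega
      have h2 : g' ≫ β = 0 := by
        apply (shiftFunctor T (1 : ℤ)).map_injective
        rw [Functor.map_comp, hg', Category.assoc, Category.assoc, E.zero₃₁, comp_zero, comp_zero,
          Functor.map_zero]
      obtain ⟨a, ha⟩ := hg (ε.inv ≫ g')
      have h3 : a • (ηB ≫ β) = 0 := by
        rw [← Preadditive.zsmul_comp, ← ha]
        exact (Category.assoc _ _ _).trans ((congrArg (ε.inv ≫ ·) h2).trans comp_zero)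
      obtain ⟨b, rfl⟩ := (hH.ord a).1 h3
      rw [mul_comm, mul_smul, hc, smul_zero] at ha
      exact (cancel_epi ε.inv).1 (ha.trans comp_zero.symm)
    · exact hB _ hk1 (by omega) g'
  obtain ⟨y, rfl⟩ := E.lift₃ f (by rw [← cancel_epi c.inv, ← hg', h1, Functor.map_zero, comp_zero])
  by_cases hk0 : k = 0
  · subst hk0
    obtain ⟨a, ha⟩ := hH.gen (ε.inv ≫ y)
    rw [← cancel_epi ε.inv, ← Category.assoc, ha, Preadditive.zsmul_comp, Category.assoc, E.zero₁₂,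
      comp_zero, smul_zero, comp_zero]
  · rw [hH.conc k hk0 y, zero_comp]

/-! ### the additive law -/

theorem lawOf_add {K : T} [MonObj K] [IsCommMonObj K]
    (h0 : ∀ k : ℤ, k ≠ 0 → ∀ g : (𝟙_ T)⟦k⟧ ⟶ K, g = 0) (k : D.R ⟶ K) [IsMonHom k] :
    lawOf k = P251.F.addLaw _ := by
  classical
  apply Laz.lift_injective
  apply Laz.hom_ext
  intro i j
  have h1 : Laz.lift (P251.F.addLaw (HRing (stdEven T) K)) (Laz.a i j) = 0 := by
    rw [Laz.lift_a, addLaw_ps, map_add, MvPowerSeries.coeff_X, MvPowerSeries.coeff_X, if_neg,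
      if_neg, add_zero]
    · intro h
      have h1 := DFunLike.congr_fun h 0
      simp at h1
    · intro h
      have h1 := DFunLike.congr_fun h 1
      simp at h1
  have h2 : Cob.IsWt ((i + j + 1 : ℕ) : ℤ) (MvPolynomial.C (Laz.a i j) : Cob Laz 0) := by
    intro B _ c u
    rw [Cob.ev_C, Cob.ev_C]
    change Laz.lift ((InvSeries.lin u)⁻¹ • Laz.univ.map c.pt) (Laz.a i j) = _
    have h1 : c.pt (Laz.a i j) = Laz.lift (Laz.univ.map c.pt) (Laz.a i j) := by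
      rw [Laz.lift_map_univ]
    rw [h1, Laz.lift_a, Laz.lift_a, zpow_natCast, Units.val_pow_eq_pow_val]
    exact coeff_e2_lin_inv_smul u _ (i := i + 1) (j := j + 1) (by ring)
  obtain ⟨a, ha⟩ := isHomog_evK k h2
  have h3 : a = 0 := by
    rw [← cancel_epi ((stdEven T).sphIso (Iso.refl _) _).inv, comp_zero]
    exact h0 _ (by omega) _
  rw [h1, lawOf_eq, Laz.lift_map_univ, RingHom.comp_apply, ha, h3]
  exact map_zero (DirectSum.of ((stdEven T).Gr K) _)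

/-! ### polynomials in the classes `b_i` -/

section poly

variable {K : T} [MonObj K] [IsCommMonObj K]

theorem exists_high_of {m : ℤ} (hs : ∀ k : ℤ, k ≠ 0 → k < m → ∀ f : (stdEven T).S k ⟶ K, f = 0)
    (hg : ∀ f : (stdEven T).S 0 ⟶ K, ∃ a : ℤ, f = a • ((stdEven T).zero.inv ≫ η[K]))
    (x : HRing (stdEven T) K) : ∃ n : ℤ, x - n ∈ high K m := by
  induction x using DirectSum.induction_on with
  | zero => exact ⟨0, by rw [Int.cast_zero, sub_zero]; exact zero_mem _⟩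
  | of k a =>
    by_cases h0 : k = 0
    · subst h0
      obtain ⟨n, rfl⟩ := hg a
      exact ⟨n, by rw [intCast_eq, sub_self]; exact zero_mem _⟩
    · refine ⟨0, ?_⟩
      rw [Int.cast_zero, sub_zero]
      by_cases hk : k < m
      · rw [hs k h0 hk a, map_zero]
        exact zero_mem _
      · exact AddSubgroup.subset_closure ⟨k, a, by omega, rfl⟩
  | add x y hx hy =>
    obtain ⟨a, ha⟩ := hx
    obtain ⟨b, hb⟩ := hy
    refine ⟨a + b, ?_⟩
    have h := add_mem ha hb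
    rwa [show x - a + (y - b) = x + y - ((a + b : ℤ) : HRing (stdEven T) K) by
      push_cast; ring] at h

theorem high_map {K' : T} [MonObj K'] (f : K ⟶ K') [IsMonHom f] {m : ℤ}
    {x : HRing (stdEven T) K} (hx : x ∈ high K m) : HRing.map f x ∈ high K' m := by
  induction hx using AddSubgroup.closure_induction with
  | mem x hx =>
    obtain ⟨k, a, hk, rfl⟩ := hx
    exact AddSubgroup.subset_closure ⟨k, _, hk, HRing.map_of f k a⟩
  | zero => rw [map_zero]; exact zero_mem _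
  | add x y _ _ hx hy => rw [map_add]; exact add_mem hx hy
  | neg x _ hx => rw [map_neg]; exact neg_mem hx

/-- the value of an integral polynomial -/
noncomputable def pv {A : Type*} [CommRing A] (t : Finset (ℕ →₀ ℕ)) (n : (ℕ →₀ ℕ) → ℤ)
    (c : ℕ → A) : A := ∑ a ∈ t, n a • a.prod fun i m => c i ^ m

theorem map_pv {A A' : Type*} [CommRing A] [CommRing A'] (φ : A →+* A') (t : Finset (ℕ →₀ ℕ))
    (n : (ℕ →₀ ℕ) → ℤ) (c : ℕ → A) : φ (pv t n c) = pv t n fun i => φ (c i) := by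
  rw [pv, pv, map_sum]
  refine Finset.sum_congr rfl fun a _ => ?_
  rw [map_zsmul, map_finsuppProd]
  simp only [map_pow]

theorem isHomog_bK (k : D.R ⟶ K) [IsMonHom k] (i : ℕ) :
    IsHomog (K ⊗ D.R) ((i + 1 : ℕ) : ℤ) (Z.bK D k i) := by
  obtain ⟨a, ha⟩ := D.ev_wt 1 _ _ (Cob.isWt_X (N := Laz) (0 : Fin 1) i)
  exact ⟨a ≫ D.toKR k, by rw [Z.bK, ha, HRing.map_of]⟩

theorem exists_pv (hD : MUUniv e D) (k : D.R ⟶ K) [IsMonHom k] {m w : ℤ} (hw : w < m)
    (hK : ∀ x : HRing (stdEven T) K, ∃ n : ℤ, x - n ∈ high K m)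
    (z : (stdEven T).S w ⟶ K ⊗ D.R) : ∃ (t : Finset (ℕ →₀ ℕ)) (n : (ℕ →₀ ℕ) → ℤ),
      (∀ a ∈ t, Cob.degU a = w) ∧ HRing.of (stdEven T) _ w z = pv t n (Z.bK D k) := by
  classical
  let φ : MvPolynomial ℕ ℤ →+* HRing (stdEven T) (K ⊗ D.R) :=
    MvPolynomial.eval₂Hom (Int.castRingHom _) (Z.bK D k)
  have key : ∀ P, ∃ f, Z.epsH (Z.bK D k) P - φ f ∈ high (K ⊗ D.R) m := fun P => by
    induction P using MvPolynomial.induction_on with
    | C c =>
      obtain ⟨n, hn⟩ := hK c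
      refine ⟨n, ?_⟩
      have h := high_map (inlM K D.R) hn
      rwa [map_sub, map_intCast, ← Z.epsH_C (Z.bK D k), ← map_intCast φ] at h
    | add x y hx hy =>
      obtain ⟨a, ha⟩ := hx
      obtain ⟨b, hb⟩ := hy
      refine ⟨a + b, ?_⟩
      have h := add_mem ha hb
      rwa [sub_add_sub_comm, ← map_add, ← map_add] at h
    | mul_X x i hx =>
      obtain ⟨a, ha⟩ := hx
      obtain ⟨b, hb⟩ := isHomog_bK k i
      refine ⟨a * MvPolynomial.X i, ?_⟩
      have h1 : φ (MvPolynomial.X i) = Z.bK D k i := MvPolynomial.eval₂_X _ _ _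
      rw [map_mul, map_mul, Z.epsH_X, h1, ← sub_mul, hb]
      exact high_mul (by positivity) ha b
  obtain ⟨P, hP⟩ := (Z.epsK_bijective k hD).2 (HRing.of (stdEven T) _ w z)
  obtain ⟨f, hf⟩ := key P
  have h1 := high_apply hf hw
  rw [hP, DirectSum.sub_apply, DirectSum.of_eq_same, sub_eq_zero] at h1
  have h2 : ∀ a : ℕ →₀ ℕ, IsHomog (K ⊗ D.R) (Cob.degU a) (a.prod fun i m => Z.bK D k i ^ m) :=
    fun a => IsHomog.prod _ _ _ fun i _ => (isHomog_bK k i).pow _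
  choose y hy using h2
  let π : HRing (stdEven T) (K ⊗ D.R) →+ HRing (stdEven T) (K ⊗ D.R) :=
    (DirectSum.of ((stdEven T).Gr (K ⊗ D.R)) w).comp (DFinsupp.evalAddMonoidHom w)
  refine ⟨f.support.filter fun a => Cob.degU a = w, fun a => f.coeff a,
    fun a ha => (Finset.mem_filter.1 ha).2, ?_⟩
  have h3 : HRing.of (stdEven T) _ w z = π (φ f) := by rw [h1]; rfl
  rw [h3, pv, Finset.sum_filter]
  conv_lhs => rw [f.as_sum, map_sum, map_sum]
  refine Finset.sum_congr rfl fun a _ => ?_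
  have h4 : φ (MvPolynomial.monomial a (f.coeff a)) =
      f.coeff a • a.prod fun i m => Z.bK D k i ^ m := by
    rw [zsmul_eq_mul]
    exact MvPolynomial.eval₂_monomial _ _
  rw [h4, map_zsmul, hy]
  split_ifs with h
  · subst h
    exact congrArg _ (congrArg (DirectSum.of ((stdEven T).Gr (K ⊗ D.R)) _)
      (DirectSum.of_eq_same (β := (stdEven T).Gr (K ⊗ D.R)) _ _))
  · have h5 : π (HRing.of (stdEven T) _ _ (y a)) = 0 :=
      (congrArg (DirectSum.of ((stdEven T).Gr (K ⊗ D.R)) _)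
        (DirectSum.of_eq_of_ne (β := (stdEven T).Gr (K ⊗ D.R)) _ w _ (Ne.symm h))).trans
          (map_zero _)
    rw [h5, smul_zero]

theorem map_bK (k : D.R ⟶ K) [IsMonHom k] {N : T} [MonObj N] [IsCommMonObj N] (ψ : K ⟶ N)
    [IsMonHom ψ] (o : D.R ⟶ N) [IsMonHom o] (i : ℕ) :
    HRing.map (descM ψ o) (Z.bK D k i) = (ser (k ≫ ψ) o).c (i + 1) := by
  have h : D.toKR k ≫ descM ψ o = pairM (k ≫ ψ) o := by
    apply eq_pairM
    · rw [← Category.assoc, D.v_zero_toKR, Category.assoc, inlM_descM]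
    · rw [← Category.assoc, D.v_one_toKR, inrM_descM]
  rw [ser_c, ← HRing_map_congr' h, HRing.map_comp]
  rfl

theorem odd_tensor (hD : MUUniv e D) (k : D.R ⟶ K) [IsMonHom k] (hK : X.Odd0 K) :
    X.Odd0 (K ⊗ D.R) := by
  obtain ⟨b, -, -⟩ := D.exists_basis_of k hD
  intro l f
  have h1 := b.odd (Iso.refl _) (𝟙_ T) (fun l f => by
    rw [← cancel_mono (ρ_ K).hom, zero_comp]
    exact hK l _) l (f ≫ (ρ_ _).inv)
  rwa [← cancel_mono (ρ_ (K ⊗ D.R)).inv, zero_comp]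

end poly

/-- The values of an element of `π_*(B ⊗ B)` on pairs of additive orientations are given by a
homogeneous polynomial in the coefficients of the series. -/
theorem BD.exists_val (hD : MUUniv e D) {n : ℕ} (hn : n ≠ 0) {Q : X.PD D p n} (W : BD Q) {w : ℤ}
    (hw : w < (p : ℤ) ^ n - 1) (z : (stdEven T).S w ⟶ W.B ⊗ W.B) :
    ∃ (t : Finset (ℕ →₀ ℕ)) (c : (ℕ →₀ ℕ) → ℤ), (∀ a ∈ t, Cob.degU a = w) ∧
      ∀ (N : T) [MonObj N] [IsCommMonObj N] (_ : X.Odd0 N) (ψ ψ' : W.B ⟶ N) [IsMonHom ψ]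
        [IsMonHom ψ'], lawOf (W.b ≫ ψ') = P251.F.addLaw _ →
        HRing.of (stdEven T) N w (z ≫ descM ψ ψ') =
          pv t c fun i => (ser (W.b ≫ ψ) (W.b ≫ ψ')).c (i + 1) := by
  have h0 : ∀ i < n, vv p i (lawOf (W.b ≫ inlM W.B D.R)) = 0 := fun i hi => by
    rw [lawOf_comp, vv_map, W.vv_b hi, map_zero]
  have hL : LocO p (W.B ⊗ D.R) := locO_of_char (char_of_vv _ (h0 0 (Nat.pos_of_ne_zero hn)))
  obtain ⟨τ, hτ, hb⟩ := W.desc (W.B ⊗ D.R) (typM hD hL (inrM W.B D.R)) (odd_tensor hD W.b W.odd)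
    (fun i hi => X.vv_lawOf_lt (W.b ≫ inlM W.B D.R) _ h0 hi) _ (lawOf_typM hD hL _)
  obtain ⟨t, c, ht, hz⟩ := exists_pv hD W.b hw (exists_high_of W.sparse W.gen)
    (z ≫ descM (inlM W.B D.R) τ)
  refine ⟨t, c, ht, fun N _ _ hN ψ ψ' _ _ hl => ?_⟩
  have hL' : LocO p N := locO_of_char (char_of_vv (W.b ≫ ψ) (by
    rw [lawOf_comp, vv_map, W.vv_b (Nat.pos_of_ne_zero hn), map_zero]))
  have h1 : τ ≫ descM ψ (W.b ≫ ψ') = ψ' := by
    apply W.uniq hN
    rw [← Category.assoc, hb, ← typM_comp hD hL _ hL']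
    exact (typM_congr hD hL' (inrM_descM _ _)).trans
      (typM_eq hD hL' _ (hl.trans (haz_spZ p _).symm))
  have h2 : descM (inlM W.B D.R) τ ≫ descM ψ (W.b ≫ ψ') = descM ψ ψ' := by
    apply hom_ext_tensor
    · rw [inlM_descM_assoc, inlM_descM, inlM_descM]
    · rw [inrM_descM_assoc, inrM_descM, h1]
  rw [← h2, ← Category.assoc, ← HRing.map_of, hz, map_pv]
  simp only [map_bK]

end Vale.Agent.P236K
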