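import Vale.Agent.P236K.PwT
import Vale.Agent.P236K.Ex3
import Vale.Agent.P251.M.SpaceCells

/-!
# P236K: cells and vanishing

`Van k X`: `π_k X = 0`; `Iv a b X`: `X` has cells in dimensions `a ≤ k ≤ b`; `Cof a b f`: so has
the cofibre of `f`.
-/

open CategoryTheory MonoidalCategory Limits Pretriangulated

universe v u

namespace Vale.Agent.P236K

open Vale.Agent.P251 Vale.Agent.P251.T Vale.Agent.P251.M Vale.Agent.P251.I Vale.Agent.P251.H
  Vale.Agent.P236Z Vale.Agent.P236Z.Dt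

variable {T : Type u} [Category.{v} T] [Preadditive T] [HasZeroObject T]
    [HasShift T ℤ] [∀ n : ℤ, (shiftFunctor T n).Additive] [Pretriangulated T]
    [MonoidalCategory T] [SymmetricCategory T] [TensorTriangulated T]
    {X Y Z X' Y' P H M : T} {a b c d k l : ℤ}

/-- `π_k X = 0` -/
def Van (k : ℤ) (X : T) : Prop := ∀ f : (𝟙_ T)⟦k⟧ ⟶ X, f = 0

/-- cells in dimensions `a ≤ k ≤ b` -/
abbrev Iv (a b : ℤ) (X : T) : Prop := Tr.Cell (fun k => a ≤ k ∧ k ≤ b) X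

/-- the cofibre has cells in dimensions `a ≤ k ≤ b` -/
abbrev Cof (a b : ℤ) (f : X ⟶ Y) : Prop := CofIn (Iv a b) f

/-- the suspension of a sphere -/
noncomputable def sus (h : k + 1 = l) : ((𝟙_ T)⟦k⟧)⟦(1 : ℤ)⟧ ≅ (𝟙_ T)⟦l⟧ :=
  ((shiftFunctorAdd' T k 1 l h).app _).symm

/-- the suspension moves out of a product -/
noncomputable def shR (X P : T) : X⟦(1 : ℤ)⟧ ⊗ P ≅ (X ⊗ P)⟦(1 : ℤ)⟧ :=
  ((tensorRight P).commShiftIso (1 : ℤ)).app X

@[reassoc] theorem shR_nat (f : X ⟶ Y) (P : T) :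
    f⟦(1 : ℤ)⟧' ▷ P ≫ (shR Y P).hom = (shR X P).hom ≫ (f ▷ P)⟦(1 : ℤ)⟧' :=
  ((tensorRight P).commShiftIso (1 : ℤ)).hom.naturality f

theorem distR {f : X ⟶ Y} {g : Y ⟶ Z} {h : Z ⟶ X⟦(1 : ℤ)⟧} (D : Dist f g h) (P : T) :
    Dist (f ▷ P) (g ▷ P) (h ▷ P ≫ (shR X P).hom) := S.dist_whiskerRight P D

namespace Van

omit [HasZeroObject T] [∀ n : ℤ, (shiftFunctor T n).Additive] [Pretriangulated T]
  [SymmetricCategory T] [TensorTriangulated T] in
theorem iso (h : Van k X) (e : Y ≅ X) : Van k Y := fun f => by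
  rw [← cancel_mono e.hom, h (f ≫ e.hom), zero_comp]

omit [HasZeroObject T] [Pretriangulated T] [SymmetricCategory T] [TensorTriangulated T] in
theorem shift (h : Van k X) (e : k + c = l) : Van l (X⟦c⟧) := fun f => by
  have i := (shiftFunctorAdd' T k c l e).app (𝟙_ T)
  obtain ⟨g, hg⟩ := (shiftFunctor T c).map_surjective (i.inv ≫ f)
  rw [h g, Functor.map_zero] at hg
  rw [← cancel_epi i.inv, ← hg, comp_zero]

omit [SymmetricCategory T] [TensorTriangulated T] in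
theorem ext {f : X ⟶ Y} {g : Y ⟶ Z} {h : Z ⟶ X⟦(1 : ℤ)⟧} (D : Dist f g h) (h₁ : Van k X)
    (h₃ : Van k Z) : Van k Y := fun x => by
  obtain ⟨y, rfl⟩ := D.lift₂ x (h₃ _)
  rw [h₁ y, zero_comp]

end Van

namespace Iv

omit [SymmetricCategory T] [TensorTriangulated T] in
theorem le (h : Iv a b X) (h₁ : c ≤ a) (h₂ : b ≤ d) : Iv c d X :=
  h.mono fun _ _ => by omega

omit [SymmetricCategory T] [TensorTriangulated T] in
theorem sph (e : X ≅ (𝟙_ T)⟦k⟧) : Iv k k X := (Tr.Cell.sphere k ⟨le_rfl, le_rfl⟩).iso e.symm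

omit [SymmetricCategory T] [TensorTriangulated T] in
theorem unit : Iv 0 0 (𝟙_ T) := sph ((shiftFunctorZero T ℤ).app _).symm

omit [SymmetricCategory T] [TensorTriangulated T] in
theorem sh (h : Iv a b X) : Iv (a + 1) (b + 1) (X⟦(1 : ℤ)⟧) := h.shift 1 fun _ _ => by omega

omit [SymmetricCategory T] [TensorTriangulated T] in
theorem cone {f : X ⟶ Y} {g : Y ⟶ Z} {h : Z ⟶ X⟦(1 : ℤ)⟧} (D : Dist f g h)
    (h₁ : Iv (a - 1) (b - 1) X) (h₂ : Iv a b Y) : Iv a b Z :=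
  Tr.Cell.ext D.rot h₂ (h₁.sh.le (by omega) (by omega))

omit [SymmetricCategory T] [TensorTriangulated T] in
theorem biprod [HasBinaryBiproducts T] (h₁ : Iv a b X) (h₂ : Iv a b Y) : Iv a b (X ⊞ Y) :=
  Tr.Cell.ext (binaryBiproductTriangle_distinguished X Y) h₁ h₂

theorem tensor (hX : Iv a b X) (hY : Iv c d Y) : Iv (a + c) (b + d) (X ⊗ Y) := by
  induction hX with
  | zero X h => exact .zero _ ((tensorRight Y).map_isZero h)
  | sphere k hk => exact (hY.shift k fun _ _ => by omega).iso (S.sphTensor k Y).symm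
  | ext D _ _ ih₁ ih₃ => exact .ext (distR D Y) ih₁ ih₃

theorem t3 (h : Iv a b X) : Iv (3 * a) (3 * b) (Ex.t3 X) :=
  (h.tensor (h.tensor h)).le (by omega) (by omega)

omit [SymmetricCategory T] [TensorTriangulated T] in
theorem hom (h : Iv a b X) (hY : ∀ k, a ≤ k → k ≤ b → Van k Y) (f : X ⟶ Y) : f = 0 :=
  h.hom_zero (fun k hk => hY k hk.1 hk.2) f

theorem van (h : Iv a b X) (hP : ∀ c, k - b ≤ c → c ≤ k - a → Van c P) : Van k (X ⊗ P) := by
  induction h with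
  | zero X h => exact fun f => ((tensorRight P).map_isZero h).eq_of_tgt _ _
  | sphere e he =>
    exact ((hP (k - e) (by omega) (by omega)).shift (by ring)).iso (S.sphTensor e P)
  | ext D _ _ ih₁ ih₃ => exact .ext (distR D P) ih₁ ih₃

theorem vanH {p : ℕ} {o : 𝟙_ T ⟶ H} (hH : Tr.IsHF p o) (h : Iv a b X)
    (hk : k < a ∨ b < k) : Van k (X ⊗ H) :=
  h.van fun c _ _ => hH.conc c (by omega)

theorem vanC (h : Iv a b X) (hP : Conn c P) (hk : k < a + c) : Van k (X ⊗ P) :=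
  h.van fun e _ _ => hP e (by omega)

end Iv

namespace Cof

variable {f : X ⟶ Y}

omit [SymmetricCategory T] [TensorTriangulated T] in
theorem le (h : Cof a b f) (h₁ : c ≤ a) (h₂ : b ≤ d) : Cof c d f :=
  h.mono fun _ k => k.le h₁ h₂

omit [SymmetricCategory T] [TensorTriangulated T] in
theorem of {g : Y ⟶ Z} {h : Z ⟶ X⟦(1 : ℤ)⟧} (D : Dist f g h) (hZ : Iv a b Z) : Cof a b f :=
  ⟨_, _, _, D, hZ⟩

theorem left (hX : Iv a b Z) (h : Cof c d f) : Cof (a + c) (b + d) (Z ◁ f) :=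
  CofIn.whiskerLeft Z (fun _ k => hX.tensor k) h

theorem right (h : Cof a b f) (hX : Iv c d Z) : Cof (a + c) (b + d) (f ▷ Z) :=
  let ⟨_, _, _, D, k⟩ := h
  of (distR D Z) (k.tensor hX)

theorem trans [IsTriangulated T] {g : Y ⟶ Z} (h : Cof a b f) (h' : Cof a b g) :
    Cof a b (f ≫ g) := CofIn.comp (Tr.Cell.extClosed _) h h'

/-- the cube of a map -/
theorem f3 [IsTriangulated T] {e e' : ℤ} (h : Cof e e' f) (hX : Iv a b X) (hY : Iv c d Y)
    (h₁ : k ≤ e + 2 * min a c) (h₂ : e' + 2 * max b d ≤ l) :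
    Cof k l (Ex.f3 f) := by
  rw [Ex.f3, MonoidalCategory.tensorHom_def, MonoidalCategory.tensorHom_def,
    MonoidalCategory.whiskerLeft_comp]
  exact ((h.right (hX.tensor hX)).le (by omega) (by omega)).trans
    (((left hY (h.right hX)).le (by omega) (by omega)).trans
      ((left hY (left hY h)).le (by omega) (by omega)))

omit [SymmetricCategory T] [TensorTriangulated T] in
/-- maps out of the target are determined by their restriction -/
theorem ext (h : Cof a b f) (hZ : ∀ k, a ≤ k → k ≤ b → Van k Z) {x y : Y ⟶ Z}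
    (e : f ≫ x = f ≫ y) : x = y := by
  obtain ⟨_, _, _, D, k⟩ := h
  obtain ⟨z, hz⟩ := D.desc₂ (x - y) (by rw [Preadditive.comp_sub, e, sub_self])
  rw [← sub_eq_zero, ← hz, k.hom hZ z, comp_zero]

theorem sur (h : Cof a b f) (hP : ∀ c, k - b ≤ c → c ≤ k - a → Van c P)
    (x : (𝟙_ T)⟦k⟧ ⟶ Y ⊗ P) : ∃ y, y ≫ f ▷ P = x :=
  let ⟨_, _, _, D, i⟩ := h
  (distR D P).lift₂ x (i.van hP _)

theorem inj (h : Cof a b f) (hP : ∀ c, k + 1 - b ≤ c → c ≤ k + 1 - a → Van c P)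
    (x : (𝟙_ T)⟦k⟧ ⟶ X ⊗ P) (e : x ≫ f ▷ P = 0) : x = 0 := by
  obtain ⟨_, _, _, D, i⟩ := h
  obtain ⟨y, hy⟩ := (distR D P).lift₁ (x⟦(1 : ℤ)⟧') (by rw [← Functor.map_comp, e, Functor.map_zero])
  apply (shiftFunctor T (1 : ℤ)).map_injective
  rw [← hy, ← (sus rfl).hom_inv_id_assoc y, i.van hP ((sus rfl).inv ≫ y), comp_zero, zero_comp,
    Functor.map_zero]

end Cof

namespace Cf

variable {o : 𝟙_ T ⟶ H} {j : 𝟙_ T ⟶ M} {δ : M ⟶ (𝟙_ T)⟦(1 : ℤ)⟧} (h : Cf o j δ)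
include h

theorem iv : Iv 0 1 M :=
  Iv.cone h.dist (Iv.unit.le (by omega) (by omega)) (Iv.unit.le (by omega) (by omega))

theorem three : ((3 : ℕ) : ℤ) • 𝟙 M = 0 := by
  obtain ⟨t, ht⟩ := h.dist.desc₃ (((3 : ℕ) : ℤ) • 𝟙 M) (by
    rw [Preadditive.comp_zsmul, Category.comp_id, ← Category.id_comp j, ← Preadditive.zsmul_comp,
      h.dist.zero₁₂])
  rw [← ht, h.one t, comp_zero]

/-- `π_k (X ⊗ M) = 0` one and two dimensions above a cell -/
theorem vanM (e : X ≅ (𝟙_ T)⟦a⟧) (hk : k = a + 1 ∨ k = a + 2) : Van k (X ⊗ M) :=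
  (Iv.sph e).van fun c _ _ => by
    obtain rfl | rfl : c = 1 ∨ c = 2 := by omega
    exacts [h.one, h.two]

theorem vanHM (hX : Iv a b X) (hk : k < a ∨ b + 1 < k) : Van k ((X ⊗ H) ⊗ M) :=
  (h.iv.van fun _ _ _ => hX.vanH h.isHF (by omega)).iso (β_ _ _)

end Cf

section EP

open Ex

variable {F : SpaceFunctor T} (E : EP F) {U : FCat}

theorem ivR : Iv 1 1 (F.S.obj RRF) := Iv.sph F.line

theorem ivA (h : Iv a b (F.S.obj U)) : Iv (3 * a) (3 * b + 1) (E.A U) :=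
  Tr.Cell.ext (E.D₁ U) (h.t3.le (by omega) (by omega))
    ((h.t3.tensor ivR).le (by omega) (by omega))

theorem ivB (h : Iv a b (F.S.obj U)) : Iv (3 * a) (3 * b + 2) (E.B U) :=
  Tr.Cell.ext (E.D₂ U) ((ivA E h).le (by omega) (by omega))
    ((h.t3.tensor (Iv.sph E.eO)).le (by omega) (by omega))

theorem cy_eq (h : (β_ X X).hom = 𝟙 _) : cy X = 𝟙 _ := by
  rw [cy, BraidedCategory.braiding_tensor_right_hom, h]
  simp

@[reassoc] theorem cy_nat (f : X ⟶ Y) : f3 f ≫ cy Y = cy X ≫ f3 f := by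
  rw [cy, cy, BraidedCategory.braiding_naturality_assoc, associator_naturality, Category.assoc]

end EP

namespace Setup

variable {o : 𝟙_ T ⟶ H} {e : ℤ} {V S W : T} {i : S ⟶ W} {g : W ⟶ V} (h : Setup o M d e i g)
include h

theorem ivV : Iv d d V := Iv.sph h.sphV.some

theorem ivS : Iv (d + e) (d + e) S := Iv.sph h.sphS.some

theorem ivW : Iv (d + e) (d + e + 1) W :=
  let ⟨_, D⟩ := h.moore
  Iv.cone D (h.ivS.le (by omega) (by omega)) (h.ivS.le (by omega) (by omega))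

theorem cof : Cof (d + e + 1) (d + e + 1) i :=
  let ⟨_, D⟩ := h.moore
  Cof.of D.rot h.ivS.sh

end Setup

end Vale.Agent.P236K
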