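import Vale.Agent.P236K.PwA

/-!
# P236K: a Toda bracket detected in homology
-/

open CategoryTheory MonoidalCategory Limits Pretriangulated

universe v u

namespace Vale.Agent.P236K

open Vale.Agent.P251 Vale.Agent.P251.T Vale.Agent.P251.M Vale.Agent.P251.I Vale.Agent.P251.H
  Vale.Agent.P236Z Vale.Agent.P236Z.Dt

variable {T : Type u} [Category.{v} T] [Preadditive T] [HasZeroObject T]
    [HasShift T ℤ] [∀ n : ℤ, (shiftFunctor T n).Additive] [Pretriangulated T]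
    [MonoidalCategory T] [SymmetricCategory T] [TensorTriangulated T] {H M : T} {o : 𝟙_ T ⟶ H}

namespace PwB

theorem sub_whisker {X Y : T} (f g : X ⟶ Y) (P : T) : (f - g) ▷ P = f ▷ P - g ▷ P :=
  (tensorRight P).map_sub

theorem neg_whisker {X Y : T} (f : X ⟶ Y) (P : T) : (-f) ▷ P = -f ▷ P := (tensorRight P).map_neg

theorem toda {B P Q J N A A' : T} {β : B ⟶ P} {π : P ⟶ Q} {b : Q ⟶ B⟦(1 : ℤ)⟧} (D : Dist β π b)
    {φ : P ⟶ J} {Γ : B ⟶ N} {n : N ⟶ J} (h : β ≫ φ = Γ ≫ n) (hn : n ▷ H = 0) (x : A ⟶ Q)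
    (hx : x ≫ b ≫ Γ⟦(1 : ℤ)⟧' = 0) (u : A' ⟶ A ⊗ H) (c : A' ⟶ P ⊗ H)
    (hc : c ≫ π ▷ H = u ≫ x ▷ H) : ∃ f : A ⟶ J, u ≫ f ▷ H = c ≫ φ ▷ H := by
  obtain ⟨P', β', π', D'⟩ := exists_mid (x ≫ b)
  obtain ⟨l, l₁, l₂⟩ := D'.map₂ D (𝟙 B) x (by simp)
  obtain ⟨t, ht⟩ := D'.desc₁ (Γ⟦(1 : ℤ)⟧') (by rw [Category.assoc, hx])
  obtain ⟨Γ', rfl⟩ := (shiftFunctor T (1 : ℤ)).map_surjective t
  rw [← Functor.map_comp] at ht
  obtain ⟨f, hf⟩ := D'.desc₂ (l ≫ φ - Γ' ≫ n) (by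
    rw [Preadditive.comp_sub, reassoc_of% l₁, h, ← (shiftFunctor T (1 : ℤ)).map_injective ht,
      Category.assoc, sub_self])
  obtain ⟨c', hc'⟩ := (distR D'.rot H).lift₂ u (by
    rw [comp_whiskerRight, ← reassoc_of% hc, (distR D.rot H).zero₁₂, comp_zero])
  obtain ⟨z, hz⟩ := (distR D H).lift₂ (c' ≫ l ▷ H - c) (by
    rw [Preadditive.sub_comp, Category.assoc, ← comp_whiskerRight, ← l₂, comp_whiskerRight,
      reassoc_of% hc', hc, sub_self])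
  refine ⟨f, ?_⟩
  rw [← hc', Category.assoc, ← comp_whiskerRight, hf, sub_whisker, comp_whiskerRight,
    comp_whiskerRight, hn, comp_zero, sub_zero, ← sub_eq_zero, ← Category.assoc,
    ← Preadditive.sub_comp, ← hz, Category.assoc, ← comp_whiskerRight, h, comp_whiskerRight, hn,
    comp_zero, comp_zero]

theorem hur_red (Y : T) : Tr.hur o Y ≫ (β_ H Y).hom = red o Y := by
  rw [Tr.hur, red, Category.assoc, BraidedCategory.braiding_naturality_left,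
    leftUnitor_inv_braiding_assoc]

variable {μ : H ⊗ H ⟶ H} (hμ : H ◁ o ≫ μ = (ρ_ H).hom)
include hμ

theorem whisker_null {X Y : T} {f : X ⟶ Y} (h : Tr.Null o f) : f ▷ H = 0 := by
  have e : red o Y ▷ H ≫ (α_ _ _ _).hom ≫ Y ◁ ((β_ H H).hom ≫ μ) = 𝟙 _ := by
    rw [red, comp_whiskerRight, Category.assoc, associator_naturality_middle_assoc,
      ← MonoidalCategory.whiskerLeft_comp, BraidedCategory.braiding_naturality_left_assoc, hμ,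
      braiding_rightUnitor, triangle, inv_hom_whiskerRight]
  rw [← Category.comp_id (f ▷ H), ← e, ← comp_whiskerRight_assoc, ← hur_red, reassoc_of% h,
    zero_comp, MonoidalPreadditive.zero_whiskerRight, zero_comp]

/-- a map of filtration two lifts to a null map -/
theorem lift_two {A Y J : T} {p : (Y ⊗ H) ⊗ M ⟶ J} {b : J ⟶ (Y ⊗ M)⟦(1 : ℤ)⟧}
    (D : Dist (red o Y ▷ M) p b) {f : A ⟶ Y ⊗ M} (h : Tr.AF o 2 f) :
    ∃ w : A⟦(1 : ℤ)⟧ ⟶ J, w ≫ b = f⟦(1 : ℤ)⟧' ∧ w ▷ H = 0 := by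
  obtain ⟨_, x, y, rfl, hx, hy⟩ := h
  obtain ⟨z, hz⟩ := D.lift₁ (y⟦(1 : ℤ)⟧') (by
    rw [← Functor.map_comp, ← hur_red, comp_whiskerRight,
      ← (Iso.comp_inv_eq _).2 (Tr.hur_tensor (η := o) Y M), Category.assoc, reassoc_of% hy,
      zero_comp, Functor.map_zero])
  refine ⟨x⟦(1 : ℤ)⟧' ≫ z, by rw [Category.assoc, hz, Functor.map_comp], ?_⟩
  rw [comp_whiskerRight, (Iso.eq_comp_inv _).2 (shR_nat x H), whisker_null hμ hx.null,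
    Functor.map_zero, comp_zero, zero_comp, zero_comp]

omit hμ in
/-- the contraction -/
def con (m : M ⟶ H) (μ : H ⊗ H ⟶ H) (A : T) : (A ⊗ M) ⊗ H ⟶ A ⊗ H :=
  (α_ _ _ _).hom ≫ A ◁ (m ▷ H ≫ μ)

omit hμ in
theorem con_nat (m : M ⟶ H) {A B : T} (f : A ⟶ B) :
    con m μ A ≫ f ▷ H = (f ▷ M) ▷ H ≫ con m μ B := by
  rw [con, con, Category.assoc, whisker_exchange, associator_naturality_left_assoc]

theorem red_con (m : M ⟶ H) (A : T) : red o (A ⊗ M) ≫ con m μ A = A ◁ m := by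
  rw [red, con, Category.assoc, associator_naturality_right_assoc,
    ← MonoidalCategory.whiskerLeft_comp, whisker_exchange_assoc, hμ, rightUnitor_naturality]
  simp

end PwB

open PwB

/-- **The bracket.** -/
theorem shallow_of {j : 𝟙_ T ⟶ M} {δ : M ⟶ (𝟙_ T)⟦(1 : ℤ)⟧} (hC : Cf o j δ) {P : T} {m : M ⟶ H}
    {p : H ⟶ P} {b : P ⟶ M⟦(1 : ℤ)⟧} (DP : Dist m p b) {Y X B K L : T} {n s k₀ k k₁ : ℤ}
    (h₀ : k₀ + 1 = k) (h₁ : k + 1 = k₁) (hs : n + 2 ≤ s) (hk : s + 2 < k₀)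
    (hY : Iv n n Y) (hB : Iv n (n + 2) B) (hL : Iv s (s + 1) L) {g : X ⟶ B} {ι : B ⟶ K}
    {c : K ⟶ X⟦(1 : ℤ)⟧} (D : Dist g ι c) {U : K ⟶ Y ⊗ H} {ρ : B ⊗ M ⟶ Y ⊗ M}
    (hρ : ι ▷ M ≫ U ▷ M = ρ ≫ red o Y ▷ M) {a : L ⟶ X} (hd : Deep o k₀ ((a ≫ g) ▷ M ≫ ρ))
    (ha : ∀ x : (𝟙_ T)⟦k⟧ ⟶ X ⊗ P, ∃ z, z ≫ a ▷ P = x) {y : (𝟙_ T)⟦k₁⟧ ⟶ K ⊗ H}
    (hy : y ≫ U ▷ H ≠ 0) : Shallow o k (Y ⊗ M) := by
  obtain ⟨μ, hμ⟩ := hC.mul
  obtain ⟨J, q, r, DJ⟩ := exists_cone (red o Y ▷ M)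
  obtain ⟨φ, φ₁, φ₂⟩ := (distR D.rot M).map₃ DJ ρ (U ▷ M) hρ
  obtain ⟨N, Γ, u, e, hu, hΓ⟩ := hd
  obtain ⟨w, w₁, w₂⟩ := lift_two hμ DJ hu
  have cL := hL.sh.tensor hC.iv
  have a₁ : a⟦(1 : ℤ)⟧' ▷ M ≫ φ = (-(shR L M).hom ≫ Γ⟦(1 : ℤ)⟧') ≫ w := by
    obtain ⟨z, hz⟩ := DJ.lift₃ (a⟦(1 : ℤ)⟧' ▷ M ≫ φ - (-(shR L M).hom ≫ Γ⟦(1 : ℤ)⟧') ≫ w) (by
      rw [Preadditive.sub_comp, Category.assoc, ← φ₂, Category.assoc _ w, w₁, Category.assoc,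
        ← comp_whiskerRight_assoc, Preadditive.comp_neg, ← Functor.map_comp, neg_whisker,
        Preadditive.neg_comp, shR_nat_assoc, Preadditive.neg_comp, Category.assoc,
        ← Functor.map_comp, ← Functor.map_comp, e, sub_self])
    rw [← sub_eq_zero, ← hz, cL.hom (fun _ _ _ => hC.vanHM hY (by omega)) z, zero_comp]
  obtain ⟨Q, π, t, DQ⟩ := exists_cone (a⟦(1 : ℤ)⟧')
  obtain ⟨x, hx⟩ : ∃ x : (𝟙_ T)⟦k₁⟧ ⟶ Q ⊗ M, x ≫ Q ◁ m = (y ≫ c ▷ H) ≫ π ▷ H := by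
    obtain ⟨_, D'⟩ := Tr.dist_tensL DP Q
    obtain ⟨v, hv⟩ := (shiftFunctor T (1 : ℤ)).map_surjective
      ((sus h₁).hom ≫ ((y ≫ c ▷ H) ≫ _ ◁ p) ≫ (shR X P).hom)
    obtain ⟨z, rfl⟩ := ha v
    refine D'.lift₂ _ ?_
    rw [Functor.map_comp, ← Iso.inv_comp_eq, ← Iso.comp_inv_eq, Category.assoc, Category.assoc,
      (Iso.comp_inv_eq _).2 (((Iso.inv_comp_eq _).2 (shR_nat a P)).symm.trans
        (Category.assoc _ _ _).symm)] at hv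
    rw [Category.assoc, ← whisker_exchange, ← Category.assoc, ← hv]
    simp [(distR DQ P).zero₁₂]
  obtain ⟨c', hc'⟩ := (distR (distR DQ M) H).lift₃ (x ≫ red o _)
    ((cL.vanH hC.isHF (by omega)).shift h₁ _)
  have a₂ : c' ≫ con m μ _ = y ≫ c ▷ H := by
    obtain ⟨z, hz⟩ := (distR DQ H).lift₂ (c' ≫ con m μ _ - y ≫ c ▷ H) (by
      rw [Preadditive.sub_comp, Category.assoc, con_nat, reassoc_of% hc', red_con hμ, hx, sub_self])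
    rw [← sub_eq_zero, ← hz, hL.sh.vanH hC.isHF (by omega) z, zero_comp]
  obtain ⟨y', hy'⟩ := (distR (distR D.rot M) H).lift₃ c'
    (((hB.tensor hC.iv).vanH hC.isHF (by omega)).shift h₁ _)
  have a₃ : y' ≫ con m μ _ = y := by
    obtain ⟨z, hz⟩ := (distR D.rot H).lift₂ (y' ≫ con m μ _ - y) (by
      rw [Preadditive.sub_comp, Category.assoc, con_nat, reassoc_of% hy', a₂, sub_self])
    rw [← sub_eq_zero, ← hz, hB.vanH hC.isHF (by omega) z, zero_comp]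
  obtain ⟨f, hf⟩ := toda (distR DQ M) a₁ w₂ x (by
    obtain ⟨v, hv⟩ := (shiftFunctor T (1 : ℤ)).map_surjective
      ((sus h₁).hom ≫ x ≫ t ▷ M ≫ (shR _ M).hom)
    obtain ⟨v', hv'⟩ := (shiftFunctor T (1 : ℤ)).map_surjective
      ((sus h₀).hom ≫ v ≫ (shR _ M).hom)
    rw [← cancel_epi (sus h₁).hom, Category.assoc, ← reassoc_of% hv, ← Functor.map_comp,
      Preadditive.comp_neg, ← (sus h₀).inv_hom_id_assoc (v ≫ _), ← reassoc_of% hv',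
      ← Functor.map_comp, hΓ v']
    simp) (red o _) c' (hc'.trans (by simp [red, whisker_exchange]))
  obtain ⟨f', hf'⟩ := (shiftFunctor T (1 : ℤ)).map_surjective ((sus h₁).hom ≫ f ≫ r)
  refine ⟨f', fun h => hy ?_⟩
  obtain ⟨w', w₃, w₄⟩ := lift_two hμ DJ h
  obtain ⟨z, hz⟩ := DJ.lift₃ (f - (sus h₁).inv ≫ w') (by
    rw [Preadditive.sub_comp, Category.assoc, w₃, hf', Iso.inv_hom_id_assoc, sub_self])
  rw [hC.vanHM hY (by omega) z, zero_comp, eq_comm, sub_eq_zero] at hz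
  obtain ⟨z', hz'⟩ := (distR DJ H).lift₂ (y' ≫ (U ▷ M) ▷ H) (by
    rw [Category.assoc, ← comp_whiskerRight, ← φ₁, comp_whiskerRight, reassoc_of% hy', ← hf, hz,
      comp_whiskerRight, w₄, comp_zero, comp_zero])
  rw [← a₃, Category.assoc, con_nat, ← reassoc_of% hz',
    (hY.tensor hC.iv).vanH hC.isHF (by omega) z', zero_comp]

end Vale.Agent.P236K
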