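import Vale.Agent.P236K.PwA

/-!
# P236K: the retraction of the extended cube of an even sphere
-/

open CategoryTheory MonoidalCategory Limits Pretriangulated

universe v u

namespace Vale.Agent.P236K

open Vale.Agent.P251 Vale.Agent.P251.T Vale.Agent.P251.M Vale.Agent.P251.I Vale.Agent.P251.H
  Vale.Agent.P236Z Vale.Agent.P236Z.Dt Ex

variable {T : Type u} [Category.{v} T] [Preadditive T] [HasZeroObject T] [HasShift T ℤ]
  [∀ n : ℤ, (shiftFunctor T n).Additive] [Pretriangulated T] [IsTriangulated T]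
  [MonoidalCategory T] [SymmetricCategory T] [TensorTriangulated T] {F : SpaceFunctor T}
  (E : EP F) {H M : T} {o : 𝟙_ T ⟶ H} {j : 𝟙_ T ⟶ M} {δ : M ⟶ (𝟙_ T)⟦(1 : ℤ)⟧} {V S W : FCat}
  {i : S ⟶ W} {g : W ⟶ V} {d e : ℤ}

namespace PwC1

omit [IsTriangulated T]

variable {U : FCat} (h : (β_ (F.S.obj U) (F.S.obj U)).hom = 𝟙 _)

include h in
theorem d₁_zero : E.d₁ U = 0 := by
  have := E.inv U (𝟙 _) (by rw [cy_eq h, Category.comp_id])
  rwa [CategoryTheory.Functor.map_id, Category.comp_id] at this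

include h in
theorem fb_τ : E.fb U ≫ E.τ U = E.fb U := by
  rw [E.fb_τ, h, MonoidalCategory.whiskerLeft_id, Category.id_comp]

include h in
theorem τ_p : E.τ U ≫ E.p U = -E.p U := by
  rw [E.τ_p, h, MonoidalCategory.whiskerLeft_id, id_whiskerRight, Category.comp_id]

/-- the cube of a sphere -/
noncomputable def sph3 {X : T} {k : ℤ} (a : X ≅ (𝟙_ T)⟦k⟧) : t3 X ≅ (𝟙_ T)⟦3 * k⟧ :=
  PwT.sph a (PwT.sph a a rfl) (by ring)

theorem up_zero (hC : Cf o j δ) {X : T} {k : ℤ} (a : X ≅ (𝟙_ T)⟦k⟧)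
    (f : X ⊗ F.S.obj RRF ⟶ X) : f ▷ M = 0 :=
  (((Iv.sph a).tensor ivR).tensor hC.iv).hom (fun _ _ _ => hC.vanM a (by omega)) _

end PwC1

omit [IsTriangulated T] in
open PwC1 in
theorem exists_rho (hC : Cf o j δ) (h : Setup o M d e (F.S.map i) (F.S.map g)) :
    ∃ (s : t3 (F.S.obj S) ⊗ F.S.obj RRF ⟶ E.A S) (r : E.A V ⟶ t3 (F.S.obj V))
      (ρ : E.B V ⊗ M ⟶ t3 (F.S.obj V) ⊗ M), s ≫ E.p S = 𝟙 _ ∧ E.fb V ≫ r = 𝟙 _ ∧
        E.j V ▷ M ≫ ρ = r ▷ M ∧ (s ≫ E.a i ≫ E.a g ≫ r) ▷ M = 0 := by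
  have v3 := sph3 h.sphV.some
  have s3 := sph3 h.sphS.some
  obtain ⟨s, hs⟩ := (E.D₁ S).lift₃ (𝟙 _) (by rw [d₁_zero E h.evS, comp_zero])
  obtain ⟨r', hr'⟩ := (E.D₁ V).desc₁ (𝟙 _) (by rw [d₁_zero E h.evV, zero_comp])
  obtain ⟨r, rfl⟩ := (shiftFunctor T (1 : ℤ)).map_surjective r'
  have hr : E.fb V ≫ r = 𝟙 _ := (shiftFunctor T (1 : ℤ)).map_injective (by
    rw [Functor.map_comp, hr', CategoryTheory.Functor.map_id])
  obtain ⟨ρ', hρ⟩ := (distR (E.D₂ V) M).desc₁ ((r ▷ M)⟦(1 : ℤ)⟧')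
    ((((Iv.sph v3).tensor (Iv.sph E.eO)).tensor hC.iv).hom
      (fun k _ _ => (hC.vanM v3 (k := k - 1) (by omega)).shift (by ring)) _)
  obtain ⟨ρ, rfl⟩ := (shiftFunctor T (1 : ℤ)).map_surjective ρ'
  refine ⟨s, r, ρ, hs, hr, (shiftFunctor T (1 : ℤ)).map_injective (by rw [Functor.map_comp, hρ]),
    ?_⟩
  obtain ⟨aS, h1⟩ := (E.D₁ S).lift₂ (s ≫ E.τ S + s) (by
    rw [Preadditive.add_comp, Category.assoc, τ_p E h.evS, Preadditive.comp_neg, neg_add_cancel])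
  obtain ⟨aV, h2⟩ := (E.D₁ V).desc₂ (E.τ V ≫ r - r) (by
    rw [Preadditive.comp_sub, ← Category.assoc, fb_τ E h.evV, sub_self])
  have h3 : aS ≫ f3 (F.S.map i) ≫ f3 (F.S.map g) =
      f3 (F.S.map i) ▷ _ ≫ f3 (F.S.map g) ▷ _ ≫ aV +
        (s ≫ E.a i ≫ E.a g ≫ r + s ≫ E.a i ≫ E.a g ≫ r) := by
    have e1 : aS ≫ f3 (F.S.map i) ≫ f3 (F.S.map g) = (aS ≫ E.fb S) ≫ E.a i ≫ E.a g ≫ r := by
      rw [Category.assoc, reassoc_of% E.fb_a i, reassoc_of% E.fb_a g, hr, Category.comp_id]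
    have e2 : s ≫ E.a i ≫ E.a g ≫ E.p V ≫ aV =
        f3 (F.S.map i) ▷ _ ≫ f3 (F.S.map g) ▷ _ ≫ aV := by
      rw [reassoc_of% E.a_p g, reassoc_of% E.a_p i, reassoc_of% hs]
    rw [e1, h1, Preadditive.add_comp, Category.assoc, reassoc_of% E.τ_a i, reassoc_of% E.τ_a g, ← e2,
      h2]
    simp only [Preadditive.comp_sub]
    abel
  have h4 := congrArg (· ▷ M) h3
  simp only [MonoidalPreadditive.add_whiskerRight] at h4
  rw [comp_whiskerRight, up_zero hC s3 aS, zero_comp, comp_whiskerRight, comp_whiskerRight,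
    up_zero hC v3 aV, comp_zero, comp_zero, zero_add] at h4
  have h5 : ((3 : ℕ) : ℤ) • (s ≫ E.a i ≫ E.a g ≫ r) ▷ M = 0 := by
    have := (tensorLeft (t3 (F.S.obj V))).map_zsmul (r := ((3 : ℕ) : ℤ)) (f := 𝟙 M)
    rw [hC.three, Functor.map_zero, CategoryTheory.Functor.map_id] at this
    rw [← Category.comp_id (_ ▷ M), ← Preadditive.comp_zsmul]
    exact (congrArg (_ ≫ ·) this.symm).trans comp_zero
  rw [show ((3 : ℕ) : ℤ) = 1 + 1 + 1 from rfl, add_smul, add_smul, one_smul, ← h4, zero_add] at h5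
  exact h5

end Vale.Agent.P236K
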