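import Vale.Agent.P236K.PwA

/-!
# P236K: low homotopy of the extended cube of a Moore object
-/

open CategoryTheory MonoidalCategory Limits Pretriangulated

universe v u

namespace Vale.Agent.P236K

open Vale.Agent.P251 Vale.Agent.P251.T Vale.Agent.P251.M Vale.Agent.P251.I Vale.Agent.P251.H
  Vale.Agent.P236Z Vale.Agent.P236Z.Dt Ex

variable {T : Type u} [Category.{v} T] [Preadditive T] [HasZeroObject T] [HasShift T ℤ]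
  [∀ n : ℤ, (shiftFunctor T n).Additive] [Pretriangulated T] [IsTriangulated T]
  [MonoidalCategory T] [SymmetricCategory T] [TensorTriangulated T]

namespace PwC2

variable {S W B P Z : T} {i : S ⟶ W} {δ : W ⟶ S⟦(1 : ℤ)⟧} {a c : ℤ}

omit [IsTriangulated T] in
/-- one slot -/
theorem slot (D : Dist (((3 : ℕ) : ℤ) • 𝟙 S) i δ) (e : S ≅ (𝟙_ T)⟦a⟧) (h₁ : Conn 4 P)
    (h₂ : ∀ x : (𝟙_ T)⟦(4 : ℤ)⟧ ⟶ P, ((3 : ℕ) : ℤ) • x = 0) {b : S ⊗ S ⟶ B}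
    (hb : Cof (2 * a + 1) c b) {k : ℤ} (hk : k = 3 * a + 5) (x : (𝟙_ T)⟦k⟧ ⟶ (W ⊗ B) ⊗ P) :
    ∃ z y, x = z ≫ (W ◁ b) ▷ P + y ≫ (i ▷ B) ▷ P := by
  obtain ⟨u, hu⟩ := (Cof.left (Iv.sph e).sh hb).sur (fun c _ _ => h₁ c (by omega))
    (x ≫ (δ ▷ B) ▷ P)
  have h3 : ((3 : ℕ) : ℤ) • u = 0 := by
    obtain ⟨f, rfl⟩ := PwT.exists_whisker (PwT.sph ((shiftFunctor T (1 : ℤ)).mapIso e ≪≫ sus rfl)
      (PwT.sph e e rfl) rfl) (show _ + 4 = k by omega) u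
    rw [← Preadditive.comp_zsmul]
    exact (congrArg _ ((tensorLeft _).map_zsmul.symm.trans ((congrArg _ (h₂ f)).trans
      ((tensorLeft _).map_zero _ _)))).trans comp_zero
  obtain ⟨z, hz⟩ := (distR (distR D.rot (S ⊗ S)) P).lift₃ u (by
    rw [← neg_one_zsmul, Functor.map_zsmul, Tr.zsmul_whiskerRight, Tr.zsmul_whiskerRight,
      Preadditive.zsmul_comp, Preadditive.zsmul_comp, Tr.zsmul_whiskerRight,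
      Tr.zsmul_whiskerRight, Preadditive.zsmul_comp, Preadditive.zsmul_comp,
      Preadditive.comp_zsmul, Preadditive.comp_zsmul, ← Preadditive.zsmul_comp u, h3, zero_comp,
      smul_zero])
  obtain ⟨y, hy⟩ := (distR (distR D.rot B) P).lift₂ (x - z ≫ (W ◁ b) ▷ P) (by
    rw [Preadditive.sub_comp, ← hu, ← hz, Category.assoc, Category.assoc, ← comp_whiskerRight,
      ← comp_whiskerRight, whisker_exchange, sub_self])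
  exact ⟨z, y, by rw [hy, add_sub_cancel]⟩

omit [Preadditive T] [HasZeroObject T] [HasShift T ℤ] [∀ n : ℤ, (shiftFunctor T n).Additive]
  [Pretriangulated T] [IsTriangulated T] [TensorTriangulated T] in
theorem rot {φ : t3 W ⟶ Z} (hφ : cy W ≫ φ = φ) {A B C : T} (f : A ⟶ W) (g : B ⟶ W) (h : C ⟶ W) :
    (f ⊗ₘ (g ⊗ₘ h)) ≫ φ = ((β_ _ _).hom ≫ (α_ _ _ _).hom) ≫ (g ⊗ₘ (h ⊗ₘ f)) ≫ φ := by
  conv_lhs => rw [← hφ, cy, Category.assoc, BraidedCategory.braiding_naturality_assoc,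
    associator_naturality_assoc, ← Category.assoc]

theorem cube (D : Dist (((3 : ℕ) : ℤ) • 𝟙 S) i δ) (e : S ≅ (𝟙_ T)⟦a⟧) (h₁ : Conn 4 P)
    (h₂ : ∀ x : (𝟙_ T)⟦(4 : ℤ)⟧ ⟶ P, ((3 : ℕ) : ℤ) • x = 0) {φ : t3 W ⟶ Z} (hφ : cy W ≫ φ = φ)
    {k : ℤ} (hk : k = 3 * a + 5) (x : (𝟙_ T)⟦k⟧ ⟶ t3 W ⊗ P) :
    ∃ y, x ≫ φ ▷ P = y ≫ ((i ⊗ₘ (i ⊗ₘ 𝟙 W)) ≫ φ) ▷ P := by
  have hS := Iv.sph e
  have hW : Iv a (a + 1) W := Iv.cone D (hS.le (by omega) (by omega)) (hS.le (by omega) (by omega))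
  have hi : Cof (a + 1) (a + 1) i := Cof.of D.rot hS.sh
  have h3 : Cof (2 * a + 1) (2 * a + 2) (i ▷ S) := (hi.right hS).le (by omega) (by omega)
  have h4 : Cof (2 * a + 1) (2 * a + 2) (i ⊗ₘ i) := by
    rw [MonoidalCategory.tensorHom_def]
    exact h3.trans ((Cof.left hW hi).le (by omega) (by omega))
  obtain ⟨z, y, rfl⟩ := slot D e h₁ h₂ h4 hk x
  obtain ⟨z', y', h5⟩ := slot D e h₁ h₂ h3 hk (y ≫ ((β_ S (W ⊗ W)).hom ≫ (α_ W W S).hom) ▷ P)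
  have e1 : W ◁ (i ⊗ₘ i) ≫ φ = _ := (id_tensorHom W (i ⊗ₘ i)) ▸ rot hφ (𝟙 W) i i
  have e2 : i ▷ (W ⊗ W) ≫ φ =
      ((β_ S (W ⊗ W)).hom ≫ (α_ W W S).hom) ≫ W ◁ (W ◁ i) ≫ φ := by
    simpa only [id_tensorHom, tensorHom_id, id_whiskerRight] using rot hφ i (𝟙 W) (𝟙 W)
  have e3 : W ◁ (i ▷ S) ≫ W ◁ (W ◁ i) ≫ φ = W ◁ (i ⊗ₘ i) ≫ φ := by
    rw [← whiskerLeft_comp_assoc, MonoidalCategory.tensorHom_def]
  have e4 : i ▷ (W ⊗ S) ≫ W ◁ (W ◁ i) ≫ φ =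
      ((β_ S (W ⊗ S)).hom ≫ (α_ W S S).hom) ≫ W ◁ (i ⊗ₘ i) ≫ φ := by
    rw [← id_tensorHom W (i ⊗ₘ i), ← rot hφ, id_tensorHom, MonoidalCategory.tensorHom_def,
      Category.assoc]
  refine ⟨(z + z' + y' ≫ ((β_ S (W ⊗ S)).hom ≫ (α_ W S S).hom) ▷ P) ≫
    ((β_ W (S ⊗ S)).hom ≫ (α_ S S W).hom) ▷ P, ?_⟩
  rw [Preadditive.add_comp, Category.assoc y, ← comp_whiskerRight, e2, comp_whiskerRight,
    ← Category.assoc y, h5]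
  simp only [Preadditive.add_comp, Category.assoc, ← comp_whiskerRight, e3, e4, e1, add_assoc]

end PwC2

variable {F : SpaceFunctor T} (E : EP F) {H M : T} {o : 𝟙_ T ⟶ H} {j : 𝟙_ T ⟶ M}
  {δ : M ⟶ (𝟙_ T)⟦(1 : ℤ)⟧} {V S W : FCat} {i : S ⟶ W} {g : W ⟶ V} {d e : ℤ}

theorem onto (h : Setup o M d e (F.S.map i) (F.S.map g)) {P : T} (h₁ : Conn 4 P)
    (h₂ : ∀ x : (𝟙_ T)⟦(4 : ℤ)⟧ ⟶ P, ((3 : ℕ) : ℤ) • x = 0)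
    {s : t3 (F.S.obj S) ⊗ F.S.obj RRF ⟶ E.A S} (hs : s ≫ E.p S = 𝟙 _)
    (x : (𝟙_ T)⟦3 * d + 3 * e + 5⟧ ⟶ E.B W ⊗ P) :
    ∃ (y : (𝟙_ T)⟦3 * d + 3 * e + 5⟧ ⟶ (F.S.obj S ⊗ (F.S.obj S ⊗ F.S.obj W)) ⊗ P)
      (z : (𝟙_ T)⟦3 * d + 3 * e + 5⟧ ⟶ (t3 (F.S.obj S) ⊗ F.S.obj RRF) ⊗ P),
      x = y ≫ ((F.S.map i ⊗ₘ (F.S.map i ⊗ₘ 𝟙 _)) ≫ E.fb W ≫ E.j W) ▷ P +
        z ≫ (s ≫ E.a i ≫ E.j W) ▷ P := by
  obtain ⟨x₁, rfl⟩ := (distR (E.D₂ W) P).lift₂ x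
    ((h.ivW.t3.tensor (Iv.sph E.eO)).vanC h₁ (by omega) _)
  obtain ⟨z, hz⟩ := ((h.cof.f3 h.ivS h.ivW (k := 3 * (d + e) + 1) (l := 3 * (d + e) + 3)
    (by omega) (by omega)).right ivR).sur (fun c _ _ => h₁ c (by omega)) (x₁ ≫ E.p W ▷ P)
  obtain ⟨x₃, hx⟩ := (distR (E.D₁ W) P).lift₂ (x₁ - z ≫ (s ≫ E.a i) ▷ P) (by
    rw [Preadditive.sub_comp, ← hz, Category.assoc, ← comp_whiskerRight, Category.assoc, E.a_p,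
      reassoc_of% hs, sub_self])
  obtain ⟨_, D⟩ := h.moore
  obtain ⟨y, hy⟩ := PwC2.cube D h.sphS.some h₁ h₂ (E.cy_fb W) (by ring) x₃
  refine ⟨y, z, ?_⟩
  rw [eq_add_of_sub_eq (hx.symm.trans hy)]
  simp only [Preadditive.add_comp, Category.assoc, ← comp_whiskerRight]

end Vale.Agent.P236K
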