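import Vale.Agent.P236K.PwA

/-!
# P236K: the class on the extended cube of the cone; the cofibre of `M ⟶ H`
-/

open CategoryTheory MonoidalCategory Limits Pretriangulated

universe v u

namespace Vale.Agent.P236K

open Vale.Agent.P251 Vale.Agent.P251.T Vale.Agent.P251.M Vale.Agent.P251.I Vale.Agent.P251.H
  Vale.Agent.P236Z Vale.Agent.P236Z.Dt Ex

variable {T : Type u} [Category.{v} T] [Preadditive T] [HasZeroObject T] [HasShift T ℤ]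
  [∀ n : ℤ, (shiftFunctor T n).Additive] [Pretriangulated T] [IsTriangulated T]
  [MonoidalCategory T] [SymmetricCategory T] [TensorTriangulated T] {F : SpaceFunctor T}
  (E : EP F) {H M : T} {o : 𝟙_ T ⟶ H} {j : 𝟙_ T ⟶ M} {δ : M ⟶ (𝟙_ T)⟦(1 : ℤ)⟧} {V S W : FCat}
  {i : S ⟶ W} {g : W ⟶ V} {d e : ℤ}

namespace PwC3

omit [IsTriangulated T] [MonoidalCategory T] [SymmetricCategory T] [TensorTriangulated T] in
theorem desc₀ {X Y Z A : T} {f : X ⟶ Y} {g : Y ⟶ Z} {h : Z ⟶ X⟦(1 : ℤ)⟧} (D : Dist f g h)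
    (a : X ⟶ A) (ha : h ≫ a⟦(1 : ℤ)⟧' = 0) : ∃ b : Y ⟶ A, f ≫ b = a := by
  obtain ⟨b, hb⟩ := D.desc₁ _ ha
  obtain ⟨b, rfl⟩ := (shiftFunctor T (1 : ℤ)).map_surjective b
  exact ⟨b, (shiftFunctor T (1 : ℤ)).map_injective (by rw [Functor.map_comp, hb])⟩

end PwC3

theorem big_cone (hC : Cf o j δ) (he : 1 ≤ e) (h : Setup o M d e (F.S.map i) (F.S.map g)) :
    ∃ (U : E.B (coneF g) ⟶ t3 (F.S.obj V) ⊗ H)
      (y : (𝟙_ T)⟦3 * d + 3 * e + 6⟧ ⟶ t3 (F.S.obj (coneF g)) ⊗ H),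
      f3 (F.S.map (coneInrF g)) ≫ E.fb _ ≫ E.j _ ≫ U = red o _ ∧
        y ≫ (E.fb _ ≫ E.j _ ≫ U) ▷ H ≠ 0 := by
  obtain ⟨C, ι, π, D₁, hb⟩ := h.big
  have D₂ : Dist (F.S.map g) (F.S.map (coneInrF g)) (F.coneδ g) := F.cone_distinguished g
  obtain ⟨c, h₂, h₃⟩ := D₂.map₃ D₁ (𝟙 _) (𝟙 _) (by simp)
  rw [Category.id_comp] at h₂
  rw [CategoryTheory.Functor.map_id, Category.comp_id] at h₃
  have := D₂.iso₃ D₁ c h₂ h₃
  have h4 : PwT.Ar (F.S.map (coneInrF g)) ι :=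
    ⟨Iso.refl _, asIso c, by rw [asIso_hom, h₂, Iso.refl_hom, Category.id_comp]⟩
  obtain ⟨u, y, hu, hy⟩ := PwT.big_iso hb (h4.tensor (h4.tensor h4))
  have hc : Iv d (d + e + 2) (F.S.obj (coneF g)) :=
    Iv.cone D₂ (h.ivW.le (by omega) (by omega)) (h.ivV.le (by omega) (by omega))
  have hι : Cof (3 * d + 1) (3 * (d + e + 2)) (f3 (F.S.map (coneInrF g))) :=
    (Cof.of D₂.rot h.ivW.sh).f3 h.ivV hc (by omega) (by omega)
  have hv : ∀ k, 3 * d + 1 ≤ k → Van k (t3 (F.S.obj V) ⊗ H) := fun k _ =>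
    h.ivV.t3.vanH hC.isHF (by omega)
  have hcy : cy _ ≫ u = u := hι.ext (fun k hk _ => hv k hk) (by
    rw [cy_nat_assoc, cy_eq h.evV, Category.id_comp])
  obtain ⟨U₁, rfl⟩ := PwC3.desc₀ (E.D₁ _) u (E.inv _ u hcy)
  obtain ⟨U, rfl⟩ := PwC3.desc₀ (E.D₂ _) U₁ ((hc.t3.tensor (Iv.sph E.eO)).hom
    (fun k _ _ => (hv (k - 1) (by omega)).shift (by ring)) _)
  exact ⟨U, y, hu, hy⟩

omit [IsTriangulated T] in
theorem exists_P (F : SpaceFunctor T) (hC : Cf o j δ) :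
    ∃ (m : M ⟶ H) (P : T) (p : H ⟶ P) (b : P ⟶ M⟦(1 : ℤ)⟧), j ≫ m = o ∧ Dist m p b ∧ Conn 4 P ∧
      ∀ x : (𝟙_ T)⟦(4 : ℤ)⟧ ⟶ P, ((3 : ℕ) : ℤ) • x = 0 := by
  have h0 := unit_conn F
  let z : (𝟙_ T)⟦(0 : ℤ)⟧ ≅ 𝟙_ T := (shiftFunctorZero T ℤ).app (𝟙_ T)
  obtain ⟨m, hm⟩ := hC.dist.desc₂ o (by
    rw [Preadditive.zsmul_comp, Category.id_comp]
    exact (hC.isHF.ord _).2 dvd_rfl)
  have hM : Conn 0 M := hC.iv.conn h0 fun _ hk => hk.1
  have hM0 : ∀ w : 𝟙_ T ⟶ M, w ≫ m = 0 → w = 0 := fun w hw => by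
    obtain ⟨a, rfl⟩ := hC.dist.lift₃ w (by
      rw [← cancel_epi z.hom, comp_zero]
      exact h0.shift 1 1 (by norm_num) 0 (by norm_num) _)
    obtain ⟨n, rfl⟩ := exists_int_unit F a
    rw [Category.assoc, hm, Preadditive.zsmul_comp, Category.id_comp] at hw
    obtain ⟨n, rfl⟩ := (hC.isHF.ord n).1 hw
    rw [mul_comm, mul_smul, Preadditive.zsmul_comp, hC.dist.zero₁₂, smul_zero]
  obtain ⟨P, p, b, D⟩ := exists_cone m
  have key : ∀ (k : ℤ) (x : (𝟙_ T)⟦k⟧ ⟶ P), x ≫ b = 0 → x = 0 := fun k x hx => by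
    obtain ⟨y, rfl⟩ := D.lift₃ x hx
    obtain rfl | hk := eq_or_ne k 0
    · obtain ⟨n, hn⟩ := hC.isHF.gen (z.inv ≫ y)
      rw [← cancel_epi z.inv, reassoc_of% hn, ← hm, Preadditive.zsmul_comp, Category.assoc,
        D.zero₁₂, comp_zero, smul_zero, comp_zero]
    · rw [hC.isHF.conc k hk y, zero_comp]
  refine ⟨m, P, p, b, hm, D, fun k hk x => key k x ?_, fun x => key _ _ ?_⟩
  · obtain rfl | hk1 := eq_or_ne k 1
    · obtain ⟨w, hw⟩ := (shiftFunctor T (1 : ℤ)).map_surjective (x ≫ b)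
      rw [← hw, hM0 w ((shiftFunctor T (1 : ℤ)).map_injective (by
        rw [Functor.map_comp, hw, Category.assoc, D.zero₃₁, comp_zero, Functor.map_zero])),
        Functor.map_zero]
    · refine Van.shift (k := k - 1) (fun f => ?_) (by ring) _
      obtain hk0 | hk0 := lt_or_ge (k - 1) 0
      · exact hM _ hk0 f
      · obtain rfl | rfl : k = 2 ∨ k = 3 := by omega
        exacts [hC.one f, hC.two f]
  · rw [Preadditive.zsmul_comp, ← Category.comp_id (x ≫ b), ← Preadditive.comp_zsmul,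
      ← CategoryTheory.Functor.map_id, ← Functor.map_zsmul, hC.three, Functor.map_zero, comp_zero]

end Vale.Agent.P236K
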