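import Vale.Agent.P236K.PwA

/-!
# P236K: the top class of the extended cube
-/

open CategoryTheory MonoidalCategory Limits Pretriangulated

universe v u

namespace Vale.Agent.P236K

open Vale.Agent.P251 Vale.Agent.P251.T Vale.Agent.P251.M Vale.Agent.P251.I Vale.Agent.P251.H
  Vale.Agent.P236Z Vale.Agent.P236Z.Dt Ex

namespace PwC4

/-- An automorphism of order three of a subgroup of `ℤ / 3` has norm zero. -/
theorem norm_zero {G G' : Type*} [AddCommGroup G] [AddCommGroup G'] (φ : G →+ G')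
    (hφ : ∀ x, φ x = 0 → x = 0) {g : G'} (hg : ∀ y, ∃ m : ℤ, y = m • g) (h3 : (3 : ℤ) • g = 0)
    (ρ : G →+ G) (hρ : ∀ x, ρ (ρ (ρ x)) = x) (x : G) : x + ρ x + ρ (ρ x) = 0 := by
  obtain ⟨m, hm⟩ := hg (φ x)
  obtain ⟨n, hn⟩ := hg (φ (ρ x))
  have e : ∀ k : ℤ, 3 ∣ k → k • g = 0 := by
    rintro _ ⟨k, rfl⟩
    rw [mul_comm, mul_smul, h3, smul_zero]
  by_cases h : 3 ∣ m
  · simp [hφ x (hm.trans (e m h))]
  have h1 : (3 : ℤ) ∣ m * m - 1 := by
    obtain ⟨k, rfl | rfl⟩ : ∃ k, m = 3 * k + 1 ∨ m = 3 * k + 2 := ⟨m / 3, by omega⟩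
    exacts [⟨k * (3 * k + 2), by ring⟩, ⟨3 * k * k + 4 * k + 1, by ring⟩]
  have h2 : ρ x = (n * m) • x := by
    refine (sub_eq_zero.1 (hφ _ ?_)).symm
    rw [map_sub, map_zsmul, hm, hn, smul_smul, ← sub_smul]
    exact e _ (by rw [mul_assoc, ← mul_sub_one]; exact h1.mul_left n)
  generalize n * m = t at h2
  have h4 : ∀ k : ℤ, 3 ∣ k → k • x = 0 := fun k hk => hφ _ (by
    rw [map_zsmul, hm, smul_smul]; exact e _ (hk.mul_right m))
  have h5 := hρ x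
  simp only [h2, map_zsmul, smul_smul] at h5
  have h6 : (3 : ℤ) ∣ t * (t * t) - t := by
    obtain ⟨k, rfl | rfl | rfl⟩ : ∃ k, t = 3 * k ∨ t = 3 * k + 1 ∨ t = 3 * k - 1 :=
      ⟨(t + 1) / 3, by omega⟩
    exacts [⟨k * (9 * k * k - 1), by ring⟩, ⟨k * (3 * k + 1) * (3 * k + 2), by ring⟩,
      ⟨k * (3 * k - 1) * (3 * k - 2), by ring⟩]
  have h7 := h4 _ h6
  rw [sub_smul, sub_eq_zero, ← mul_assoc, h5, ← h2] at h7
  rw [← h7, ← h7, ← h4 3 dvd_rfl]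
  abel

end PwC4

variable {T : Type u} [Category.{v} T] [Preadditive T] [HasZeroObject T] [HasShift T ℤ]
  [∀ n : ℤ, (shiftFunctor T n).Additive] [Pretriangulated T] [IsTriangulated T]
  [MonoidalCategory T] [SymmetricCategory T] [TensorTriangulated T] {F : SpaceFunctor T}
  (E : EP F) {H M : T} {o : 𝟙_ T ⟶ H} {j : 𝟙_ T ⟶ M} {δ : M ⟶ (𝟙_ T)⟦(1 : ℤ)⟧} {V S W : FCat}
  {i : S ⟶ W} {g : W ⟶ V} {d e : ℤ}

theorem top_class (hC : Cf o j δ) (h : Setup o M d e (F.S.map i) (F.S.map g))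
    (x : (𝟙_ T)⟦3 * d + 3 * e + 6⟧ ⟶ ((t3 (F.S.obj W) ⊗ E.O) ⊗ F.S.obj RRF) ⊗ H) :
    ∃ c : (𝟙_ T)⟦3 * d + 3 * e + 6⟧ ⟶ (E.B W ⊗ F.S.obj RRF) ⊗ H,
      c ≫ (E.q W ▷ F.S.obj RRF) ▷ H = x := by
  obtain ⟨Γ, r, h1, h2⟩ := E.norm W
  obtain ⟨δW, D⟩ := h.moore
  obtain ⟨a⟩ := h.sphS
  let b := (shiftFunctor T (1 : ℤ)).mapIso a ≪≫ sus rfl
  let c := PwT.sph (PwT.sph (PwT.sph b (PwT.sph b b rfl) rfl) E.eO rfl) F.line
    (show _ = 3 * d + 3 * e + 6 by ring)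
  have hc : Cof _ _ ((f3 δW ▷ E.O) ▷ F.S.obj RRF) :=
    (((Cof.of D.rot.rot h.ivS.sh).f3 (k := 3 * d + 3 * e + 1) (l := 3 * d + 3 * e + 3) h.ivW
      h.ivS.sh (by omega) (by omega)).right (Iv.sph E.eO)).right ivR
  let z := (shiftFunctorZero T ℤ).app (𝟙_ T)
  have hz : ∀ {X A B : T} (m : ℤ) (f : A ⟶ B), X ◁ (m • f) = m • X ◁ f := fun m f =>
    (tensorLeft _).map_zsmul
  have key := PwC4.norm_zero (Preadditive.rightComp _ (((f3 δW ▷ E.O) ▷ F.S.obj RRF) ▷ H))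
    (fun y hy => hc.inj (fun c _ _ => hC.isHF.conc c (by omega)) y hy)
    (g := (PwT.sph c (Iso.refl _) (add_zero _)).inv ≫ _ ◁ (z.hom ≫ o))
    (fun y => by
      obtain ⟨y₀, rfl⟩ := PwT.exists_whisker c (add_zero _) y
      obtain ⟨m, hm⟩ := hC.isHF.gen (z.inv ≫ y₀)
      refine ⟨m, ?_⟩
      rw [← z.hom_inv_id_assoc y₀, hm, Preadditive.comp_zsmul, hz, Preadditive.comp_zsmul])
    (by
      rw [← Preadditive.comp_zsmul, ← hz, ← Preadditive.comp_zsmul, (hC.isHF.ord 3).2 dvd_rfl,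
        comp_zero, MonoidalPreadditive.whiskerLeft_zero, comp_zero])
    (Preadditive.rightComp _ ((r ▷ F.S.obj RRF) ▷ H))
    (fun y => by
      change ((y ≫ _) ≫ _) ≫ _ = y
      simp only [Category.assoc, ← comp_whiskerRight, h2, id_whiskerRight, Category.comp_id]) x
  refine (distR (distR (E.D₂ W).rot _) H).lift₂ x ?_
  obtain ⟨y, hy⟩ := (distR (distR (E.D₁ W).rot.rot.rot (F.S.obj RRF)) H).lift₂
    (x ≫ (E.d₂ W ▷ F.S.obj RRF) ▷ H) (by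
      rw [Category.assoc, ← comp_whiskerRight, ← comp_whiskerRight, Preadditive.comp_neg, h1,
        ← Preadditive.comp_neg, comp_whiskerRight, comp_whiskerRight, ← Category.assoc]
      simp only [MonoidalPreadditive.add_whiskerRight, comp_whiskerRight, id_whiskerRight,
        Preadditive.comp_add, Category.comp_id, ← Category.assoc]
      exact (congrArg (· ≫ _) key).trans zero_comp)
  rw [← hy, (h.ivW.t3.sh.tensor ivR).vanH hC.isHF (by omega) y, zero_comp]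

end Vale.Agent.P236K
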