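import Vale.Agent.P236K.PwA

/-!
# P236K: injectivity in the top degree

The four lemma applied twice to the cell structure of the extended cube.
-/

open CategoryTheory MonoidalCategory Limits Pretriangulated

universe v u

namespace Vale.Agent.P236K

open Vale.Agent.P251 Vale.Agent.P251.T Vale.Agent.P251.M Vale.Agent.P251.I Vale.Agent.P251.H
  Vale.Agent.P236Z Vale.Agent.P236Z.Dt Ex

variable {T : Type u} [Category.{v} T] [Preadditive T] [HasZeroObject T] [HasShift T ℤ]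
  [∀ n : ℤ, (shiftFunctor T n).Additive] [Pretriangulated T]

namespace PwC5

variable {X Y Z X' Y' Z' A P : T} {f : X ⟶ Y} {g : Y ⟶ Z} {h : Z ⟶ X⟦(1 : ℤ)⟧} {f' : X' ⟶ Y'}
  {g' : Y' ⟶ Z'} {h' : Z' ⟶ X'⟦(1 : ℤ)⟧} {a : X ⟶ X'} {b : Y ⟶ Y'} {c : Z ⟶ Z'}

/-- The four lemma. -/
theorem four (D : Dist f g h) (D' : Dist f' g' h') (s₁ : f ≫ b = a ≫ f') (s₂ : b ≫ g' = g ≫ c)
    (s₃ : c ≫ h' = h ≫ a⟦(1 : ℤ)⟧') (ia : ∀ x : A ⟶ X, x ≫ a = 0 → x = 0)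
    (ic : ∀ x : A ⟶ Z, x ≫ c = 0 → x = 0) (sc : ∀ z : A⟦(1 : ℤ)⟧ ⟶ Z', ∃ w, w ≫ c = z)
    (x : A ⟶ Y) (hx : x ≫ b = 0) : x = 0 := by
  obtain ⟨y, rfl⟩ := D.lift₂ x (ic _ (by rw [Category.assoc, ← s₂, reassoc_of% hx, zero_comp]))
  obtain ⟨z, hz⟩ := D'.lift₁ ((y ≫ a)⟦(1 : ℤ)⟧') (by
    rw [← Functor.map_comp, Category.assoc, ← s₁, ← Category.assoc, hx, Functor.map_zero])
  obtain ⟨w, rfl⟩ := sc z
  obtain ⟨t, ht⟩ := (shiftFunctor T (1 : ℤ)).map_surjective (w ≫ h)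
  have e : y - t = 0 := ia _ (by
    apply (shiftFunctor T (1 : ℤ)).map_injective
    rw [Preadditive.sub_comp, Functor.map_sub, ← hz, Functor.map_comp, ht, Category.assoc, s₃,
      Category.assoc, sub_self, Functor.map_zero])
  apply (shiftFunctor T (1 : ℤ)).map_injective
  rw [sub_eq_zero.1 e, Functor.map_comp, ht, Category.assoc, D.zero₃₁, comp_zero, Functor.map_zero]

variable [MonoidalCategory T] [SymmetricCategory T] [TensorTriangulated T] {k : ℤ}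

/-- The four lemma on homotopy groups of products with `P`. -/
theorem fourR (D : Dist f g h) (D' : Dist f' g' h') (s₁ : f ≫ b = a ≫ f') (s₂ : b ≫ g' = g ≫ c)
    (s₃ : c ≫ h' = h ≫ a⟦(1 : ℤ)⟧') (ia : ∀ x : (𝟙_ T)⟦k⟧ ⟶ X ⊗ P, x ≫ a ▷ P = 0 → x = 0)
    (ic : ∀ x : (𝟙_ T)⟦k⟧ ⟶ Z ⊗ P, x ≫ c ▷ P = 0 → x = 0)
    (sc : ∀ z : (𝟙_ T)⟦k + 1⟧ ⟶ Z' ⊗ P, ∃ w, w ≫ c ▷ P = z)
    (x : (𝟙_ T)⟦k⟧ ⟶ Y ⊗ P) (hx : x ≫ b ▷ P = 0) : x = 0 := by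
  refine four (distR D P) (distR D' P) ?_ ?_ ?_ ia ic (fun z => ?_) x hx
  · rw [← comp_whiskerRight, s₁, comp_whiskerRight]
  · rw [← comp_whiskerRight, s₂, comp_whiskerRight]
  · rw [← comp_whiskerRight_assoc, s₃, comp_whiskerRight_assoc, shR_nat, Category.assoc]
  · obtain ⟨w, hw⟩ := sc ((sus rfl).inv ≫ z)
    exact ⟨(sus rfl).hom ≫ w, by rw [Category.assoc, hw, Iso.hom_inv_id_assoc]⟩

end PwC5

variable [IsTriangulated T] [MonoidalCategory T] [SymmetricCategory T] [TensorTriangulated T]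
  {F : SpaceFunctor T} (E : EP F) {H M : T} {o : 𝟙_ T ⟶ H} {j : 𝟙_ T ⟶ M}
  {δ : M ⟶ (𝟙_ T)⟦(1 : ℤ)⟧} {V S W : FCat} {i : S ⟶ W} {g : W ⟶ V} {d e : ℤ}

theorem top_inj (hC : Cf o j δ) (he : 1 ≤ e) (h : Setup o M d e (F.S.map i) (F.S.map g))
    (x : (𝟙_ T)⟦3 * d + 3 * e + 6⟧ ⟶ E.B (coneF g) ⊗ H) (hx : x ≫ E.b (coneConnF g) ▷ H = 0) :
    x = 0 := by
  have D : Dist (F.S.map g) (F.S.map (coneInrF g)) (F.coneδ g) := F.cone_distinguished g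
  have hc : Iv d (d + e + 2) (F.S.obj (coneF g)) :=
    Iv.cone D (h.ivW.le (by omega) (by omega)) (h.ivV.le (by omega) (by omega))
  have hw : Iv (d + e + 1) (d + e + 2) (F.S.obj (W ⊗ RRF)) :=
    Iv.le (h.ivW.sh.iso (F.suspIso W).symm) (by omega) (by omega)
  have h₀ : Cof (d + 1) (d + 1) (F.S.map (coneConnF g)) := by
    have k := CofIn.comp_iso (Tr.Cell.extClosed _) (F.suspIso W).symm (Cof.of D.rot.rot h.ivV.sh)
    rwa [SpaceFunctor.coneδ, Category.assoc, Iso.symm_hom, Iso.hom_inv_id, Category.comp_id] at k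
  have h₁ : Cof (3 * d + 1) (3 * d + 2 * e + 5) (f3 (F.S.map (coneConnF g))) :=
    h₀.f3 hc hw (by omega) (by omega)
  have h₂ := h₁.right (ivR (F := F))
  have h₃ := h₁.right (Iv.sph E.eO)
  refine PwC5.fourR (E.D₂ _) (E.D₂ _) (E.j_b _) (E.b_q _) (E.d₂_nat _) ?_
    (h₃.inj fun c _ _ => hC.isHF.conc c (by omega))
    (h₃.sur fun c _ _ => hC.isHF.conc c (by omega)) x hx
  exact PwC5.fourR (E.D₁ _) (E.D₁ _) (E.fb_a _) (E.a_p _) (E.d₁_nat _)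
    (h₁.inj fun c _ _ => hC.isHF.conc c (by omega))
    (h₂.inj fun c _ _ => hC.isHF.conc c (by omega))
    (h₂.sur fun c _ _ => hC.isHF.conc c (by omega))

end Vale.Agent.P236K
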