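import Vale.Agent.P236K.PwB
import Vale.Agent.P236K.PwC1
import Vale.Agent.P236K.PwC2
import Vale.Agent.P236K.PwC3
import Vale.Agent.P236K.PwC4
import Vale.Agent.P236K.PwC5

/-!
# P236K: the power construction
-/

open CategoryTheory MonoidalCategory Limits Pretriangulated

universe v u

namespace Vale.Agent.P236K

open Vale.Agent.P251 Vale.Agent.P251.T Vale.Agent.P251.M Vale.Agent.P251.I Vale.Agent.P251.H
  Vale.Agent.P236Z Vale.Agent.P236Z.Dt Ex

variable {T : Type u} [Category.{v} T] [Preadditive T] [HasZeroObject T]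
    [HasShift T ℤ] [∀ n : ℤ, (shiftFunctor T n).Additive] [Pretriangulated T] [IsTriangulated T]
    [MonoidalCategory T] [SymmetricCategory T] [TensorTriangulated T]
    {F : SpaceFunctor T} (E : EP F) {H M : T} {o : 𝟙_ T ⟶ H} {j : 𝟙_ T ⟶ M}
    {δ : M ⟶ (𝟙_ T)⟦(1 : ℤ)⟧} {V S W : FCat} {i : S ⟶ W} {g : W ⟶ V} {d e : ℤ}

theorem big_diag (hC : Cf o j δ) (he : 1 ≤ e) (h : Setup o M d e (F.S.map i) (F.S.map g)) :
    ∃ (K : T) (ι : E.B V ⟶ K) (c : K ⟶ (E.B W)⟦(1 : ℤ)⟧), Dist (E.b g) ι c ∧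
      Big o (3 * d + 3 * e + 6) (E.fb V ≫ E.j V ≫ ι) := by
  obtain ⟨K, ι, c, D, κ, h₁, h₂, h₃⟩ := E.diag g
  obtain ⟨U, y, hU, hy⟩ := big_cone E hC he h
  obtain ⟨x, hx⟩ := top_class E hC h (y ≫ (f3 (F.S.map (coneConnF g)) ≫ κ.inv) ▷ H)
  obtain ⟨k, hk⟩ := (distR h₁.rot H).lift₃ (x ≫ (sR F _).hom ▷ H)
    (((ivB E h.ivV).vanH (k := 3 * d + 3 * e + 5) hC.isHF (by omega)).shift (by ring) _)
  rw [comp_whiskerRight, ← Category.assoc, cancel_mono] at hk
  have e₁ : k ≫ D ▷ H = y ≫ (E.fb _ ≫ E.j _) ▷ H := by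
    refine sub_eq_zero.1 (top_inj E hC he h _ ?_)
    rw [Preadditive.sub_comp, Category.assoc, Category.assoc, ← comp_whiskerRight,
      ← comp_whiskerRight, h₃, Category.assoc, E.j_b, reassoc_of% (E.fb_a (coneConnF g)),
      comp_whiskerRight, comp_whiskerRight, reassoc_of% hk, reassoc_of% hx, ← comp_whiskerRight,
      Category.assoc, Iso.inv_hom_id_assoc, sub_self]
  refine ⟨K, ι, _, h₁, D ≫ U, k, ?_, ?_⟩
  · rw [Category.assoc, Category.assoc, reassoc_of% h₂, reassoc_of% (E.j_b (coneInrF g)),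
      reassoc_of% (E.fb_a (coneInrF g)), hU]
  · rwa [comp_whiskerRight, reassoc_of% e₁, ← comp_whiskerRight, Category.assoc]

/-- **The power construction.** -/
theorem core (F : SpaceFunctor T) (hC : Cf o j δ) : Core F o M := by
  intro V S W i g d e he h
  obtain ⟨E⟩ := nonempty_ep F
  obtain ⟨s, r, ρ, h₁, h₂, h₃, h₄⟩ := exists_rho E hC h
  obtain ⟨K, ι, c, D, U, y, hU, hy⟩ := big_diag E hC he h
  obtain ⟨m, P, p, b, -, DP, c₁, c₂⟩ := exists_P F hC
  have hV := h.ivV.t3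
  have e₁ : E.j V ≫ ι ≫ U = r ≫ red o _ :=
    (Cof.of (E.D₁ V) (hV.tensor ivR)).ext (fun _ _ _ => hV.vanH hC.isHF (by omega))
      (by rw [reassoc_of% h₂, ← hU, Category.assoc, Category.assoc])
  refine shallow_of hC DP (s := 3 * d + 3 * e) (k₀ := 3 * d + 3 * e + 4)
    (k₁ := 3 * d + 3 * e + 6) (by ring) (by ring) (by omega) (by omega) hV (ivB E h.ivV)
    (Iv.biprod ((h.ivS.tensor (h.ivS.tensor h.ivW)).le (by omega) (by omega))
      ((h.ivS.t3.tensor ivR).le (by omega) (by omega))) D (U := U) (ρ := ρ)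
    ?_ (a := biprod.desc ((F.S.map i ⊗ₘ (F.S.map i ⊗ₘ 𝟙 _)) ≫ E.fb W ≫ E.j W)
      (s ≫ E.a i ≫ E.j W)) ?_ (fun x => ?_) hy
  · refine ((Cof.of (E.D₂ V) (hV.tensor (Iv.sph E.eO))).right hC.iv).ext
      (fun _ _ _ => hC.vanHM hV (by omega)) ?_
    rw [← comp_whiskerRight, ← comp_whiskerRight, e₁, comp_whiskerRight, reassoc_of% h₃]
  · obtain ⟨N, Γ, n, a₁, a₂, a₃⟩ := h.deep
    refine ⟨N, biprod.fst ▷ M ≫ Γ, n, ?_, a₂, fun β => by rw [← Category.assoc, a₃]⟩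
    rw [Category.assoc, a₁, biprod.desc_eq, Preadditive.add_comp,
      MonoidalPreadditive.add_whiskerRight, Preadditive.add_comp]
    simp only [Category.assoc, E.j_b, reassoc_of% (E.fb_a g), comp_whiskerRight, h₃]
    simp only [← comp_whiskerRight, h₂, Category.comp_id, tensorHom_comp_tensorHom, Category.id_comp]
    rw [comp_whiskerRight biprod.snd, h₄, comp_zero, add_zero]
  · obtain ⟨y, z, rfl⟩ := onto E h c₁ c₂ h₁ x
    refine ⟨y ≫ biprod.inl ▷ P + z ≫ biprod.inr ▷ P, ?_⟩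
    simp only [Preadditive.add_comp, Category.assoc, ← comp_whiskerRight, biprod.inl_desc,
      biprod.inr_desc]

end Vale.Agent.P236K
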