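import Vale.Agent.P236Z.Dt.Moore
import Vale.Agent.P236Z.Tr.Fac

/-!
# P236K: the statement of the power construction

`Setup`: a map `g : W ⟶ V` from a Moore object to an even sphere, whose mapping cone carries a
class with nonzero cube (`Big`), while the cube of `g` is deep in the Adams tower (`Deep`).
`Core`, `Pow`: then there is a homotopy class of Adams filtration less than two.
-/

open CategoryTheory MonoidalCategory Limits Pretriangulated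

universe v u

namespace Vale.Agent.P236K

open Vale.Agent.P251 Vale.Agent.P251.T Vale.Agent.P251.I Vale.Agent.P251.H Vale.Agent.P236Z
  Vale.Agent.P236Z.Dt

variable {T : Type u} [Category.{v} T] [Preadditive T] [HasZeroObject T]
    [HasShift T ℤ] [∀ n : ℤ, (shiftFunctor T n).Additive] [Pretriangulated T]
    [MonoidalCategory T] [SymmetricCategory T] [TensorTriangulated T] {H : T}

/-- `G` factors as `Γ ≫ n`, where `n` has filtration two and `Γ` kills `π_k`. -/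
def Deep (η : 𝟙_ T ⟶ H) (k : ℤ) {X Y : T} (G : X ⟶ Y) : Prop :=
  ∃ (N : T) (Γ : X ⟶ N) (n : N ⟶ Y), Γ ≫ n = G ∧ Tr.AF η 2 n ∧
    ∀ β : (𝟙_ T)⟦k⟧ ⟶ X, β ≫ Γ = 0

/-- The unit of `V ⊗ H` extends over `C`, and the extension is nonzero on `H_k`. -/
def Big (η : 𝟙_ T ⟶ H) (k : ℤ) {V C : T} (ι : V ⟶ C) : Prop :=
  ∃ (u : C ⟶ V ⊗ H) (y : (𝟙_ T)⟦k⟧ ⟶ C ⊗ H), ι ≫ u = red η V ∧ y ≫ u ▷ H ≠ 0

/-- Some element of `π_k Y` has filtration less than two. -/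
def Shallow (η : 𝟙_ T ⟶ H) (k : ℤ) (Y : T) : Prop := ∃ f : (𝟙_ T)⟦k⟧ ⟶ Y, ¬ Tr.AF η 2 f

/-- The input of the power construction. -/
structure Setup (η : 𝟙_ T ⟶ H) (M : T) (d e : ℤ) {V S W : T} (i : S ⟶ W) (g : W ⟶ V) : Prop where
  sphV : Nonempty (V ≅ (𝟙_ T)⟦d⟧)
  sphS : Nonempty (S ≅ (𝟙_ T)⟦d + e⟧)
  evV : (β_ V V).hom = 𝟙 _
  evS : (β_ S S).hom = 𝟙 _
  moore : ∃ δ, Dist (((3 : ℕ) : ℤ) • 𝟙 S) i δ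
  big : ∃ (C : T) (ι : V ⟶ C) (π : C ⟶ W⟦(1 : ℤ)⟧), Dist g ι π ∧
    Big η (3 * d + 3 * e + 6) (ι ⊗ₘ (ι ⊗ₘ ι))
  deep : Deep η (3 * d + 3 * e + 4) (((i ≫ g) ⊗ₘ ((i ≫ g) ⊗ₘ g)) ▷ M)

/-- The power construction for maps of spaces. -/
def Core (F : SpaceFunctor T) (η : 𝟙_ T ⟶ H) (M : T) : Prop :=
  ∀ (V S W : FCat) (i : S ⟶ W) (g : W ⟶ V) (d e : ℤ), 1 ≤ e →
    Setup η M d e (F.S.map i) (F.S.map g) →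
      Shallow η (3 * d + 3 * e + 5) ((F.S.obj V ⊗ (F.S.obj V ⊗ F.S.obj V)) ⊗ M)

/-- The power construction. -/
def Pow (η : 𝟙_ T ⟶ H) (M : T) : Prop :=
  ∀ (S W : T) (i : S ⟶ W) (g : W ⟶ 𝟙_ T) (e : ℤ), 1 ≤ e → Setup η M 0 e i g →
    Shallow η (3 * e + 5) M

/-- The coefficients: `M = S / 3` and `H = HF_3` with a unital product. -/
structure Cf (η : 𝟙_ T ⟶ H) {M : T} (i : 𝟙_ T ⟶ M) (δ : M ⟶ (𝟙_ T)⟦(1 : ℤ)⟧) : Prop where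
  dist : Dist (((3 : ℕ) : ℤ) • 𝟙 (𝟙_ T)) i δ
  one : ∀ f : (𝟙_ T)⟦(1 : ℤ)⟧ ⟶ M, f = 0
  two : ∀ f : (𝟙_ T)⟦(2 : ℤ)⟧ ⟶ M, f = 0
  isHF : Tr.IsHF 3 η
  mul : ∃ m : H ⊗ H ⟶ H, H ◁ η ≫ m = (ρ_ H).hom

/-- `g : A ⊗ M ⟶ 𝟙` is dual to `x : A ⊗ 𝟙⟦1⟧ ⟶ M`. -/
def Dual {M : T} (i : 𝟙_ T ⟶ M) (δ : M ⟶ (𝟙_ T)⟦(1 : ℤ)⟧) {A : T} (g : A ⊗ M ⟶ 𝟙_ T)
    (x : A ⊗ (𝟙_ T)⟦(1 : ℤ)⟧ ⟶ M) : Prop :=
  ∃ κ : (𝟙_ T)⟦(1 : ℤ)⟧ ⟶ M ⊗ M, κ ≫ δ ▷ M = red i _ ∧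
    A ◁ κ ≫ (α_ A M M).inv ≫ Tr.sc g M = x

end Vale.Agent.P236K
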