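import Vale.Agent.P236K.PwD
import Vale.Agent.P236T.Model2
import Vale.Agent.P236T.Geo

/-!
# P236K: the class in `π_107 (S / 3)` and the algebraic input for the power construction
-/

open CategoryTheory MonoidalCategory Limits Pretriangulated

universe v u

namespace Vale.Agent.P236K

open Vale.Agent.P251 Vale.Agent.P251.T Vale.Agent.P251.M Vale.Agent.P251.F Vale.Agent.P251.I
  Vale.Agent.P257.H314 Vale.Agent.P236T
open Vale.Agent.P251.S hiding IC

variable {T : Type u} [Category.{v} T] [Preadditive T] [HasZeroObject T]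
    [HasShift T ℤ] [∀ n : ℤ, (shiftFunctor T n).Additive] [Pretriangulated T]
    [MonoidalCategory T] [SymmetricCategory T] [TensorTriangulated T] [HasCoproducts.{0} T]
    {D : MUData T}

/-- The image in filtration zero of an element of the first stage of the tower. -/
noncomputable def bot (G : Geo D) (y : G.C.D 1 107) :
    (𝟙_ T)⟦(106 : ℤ)⟧ ⊗ (𝟙_ T)⟦(1 : ℤ)⟧ ⟶ G.M :=
  (tensorSph 1 _).hom ≫ (shiftFunctorAdd' T 106 1 107 rfl).inv.app (𝟙_ T) ≫
    G.eD (s := 0) (n := 107) (t := 107) rfl (G.C.i 0 107 y)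

/-- A cocycle modulo three which lifts a unit multiple of `t₁ ^ 27`, is killed by `δ` and
annihilates `HQ 4 108`. -/
def Start' (Δ : Delta) : Prop :=
  ∃ (h : Cob Laz 1) (hw : Cob.IsWt 54 h) (hd : Cob.d 1 h ∈ IC 3 1 2) (c : ℤ) (n : ℕ),
    ¬ 3 ∣ c ∧ h - c * t1 ^ 27 ∈ IC 3 n 1 ∧ Δ.δ (t := 6) (u := 56) rfl rfl (cl h hw hd) = 0 ∧
      ∀ u : HQ 4 108, H.cup (n := 5) (u := 162) rfl (by norm_num) (cl h hw hd) u = 0

/-- **The algebraic input**, without any class in the stem `323`. -/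
def AlgFacts' : Prop := ∃ S : ℕ, 24 ≤ S ∧ Per S ∧ ∀ Δ : Delta, Start' Δ ∧
  (∀ (s : ℕ) (w : ℤ), 10 ≤ s → s + 106 = 2 * w → 2 ∣ w → Δ.Ex s w) ∧ Δ.Col S

end Vale.Agent.P236K
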