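import Vale.Agent.P236K.PwD

/-!
# P236K: realization by spaces and twisting
-/

open CategoryTheory MonoidalCategory Limits Pretriangulated

universe v u

set_option linter.unusedSectionVars false

namespace Vale.Agent.P236K

open Vale.Agent.P251 Vale.Agent.P251.T Vale.Agent.P251.M Vale.Agent.P251.I Vale.Agent.P251.H
  Vale.Agent.P236Z Vale.Agent.P236Z.Dt

namespace PwT

section Ar

variable {T : Type u} [Category.{v} T] {A B A' B' A'' B'' C D C' D' : T}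

/-- The two arrows are isomorphic. -/
def Ar (f' : A' ⟶ B') (f : A ⟶ B) : Prop :=
  ∃ (a : A' ≅ A) (b : B' ≅ B), f' ≫ b.hom = a.hom ≫ f

theorem Ar.refl (f : A ⟶ B) : Ar f f := ⟨Iso.refl _, Iso.refl _, by simp⟩

theorem Ar.trans {f'' : A'' ⟶ B''} {f' : A' ⟶ B'} {f : A ⟶ B} (h : Ar f'' f') (h' : Ar f' f) :
    Ar f'' f := by
  obtain ⟨a, b, h⟩ := h
  obtain ⟨a', b', h'⟩ := h'
  exact ⟨a ≪≫ a', b ≪≫ b', by simp [reassoc_of% h, h']⟩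

variable [MonoidalCategory T]

theorem Ar.tensor {f' : A' ⟶ B'} {f : A ⟶ B} {g' : C' ⟶ D'} {g : C ⟶ D} (h : Ar f' f)
    (h' : Ar g' g) : Ar (f' ⊗ₘ g') (f ⊗ₘ g) := by
  obtain ⟨a, b, h⟩ := h
  obtain ⟨a', b', h'⟩ := h'
  exact ⟨a ⊗ᵢ a', b ⊗ᵢ b', by simp [h, h']⟩

theorem Ar.right {f' : A' ⟶ B'} {f : A ⟶ B} (h : Ar f' f) (M : T) : Ar (f' ▷ M) (f ▷ M) := by
  simpa using h.tensor (Ar.refl (𝟙 M))

theorem Ar.assoc (Y : T) (f : A ⟶ B) (M : T) : Ar ((Y ◁ f) ▷ M) (Y ◁ (f ▷ M)) :=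
  ⟨α_ _ _ _, α_ _ _ _, associator_naturality_middle _ _ _⟩

variable [SymmetricCategory T]

theorem Ar.swap (f : A ⟶ B) (X : T) : Ar (f ▷ X) (X ◁ f) :=
  ⟨β_ _ _, β_ _ _, BraidedCategory.braiding_naturality_left _ _⟩

/-- the shuffle -/
def mu4 (X A Y C : T) : (X ⊗ A) ⊗ (Y ⊗ C) ≅ (X ⊗ Y) ⊗ (A ⊗ C) :=
  ⟨tensorμ X A Y C, tensorδ X A Y C, tensorμ_tensorδ _ _ _ _, tensorδ_tensorμ _ _ _ _⟩

theorem Ar.shuffle (X Y : T) (f : A ⟶ B) (g : C ⟶ D) :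
    Ar (X ◁ f ⊗ₘ Y ◁ g) ((X ⊗ Y) ◁ (f ⊗ₘ g)) :=
  ⟨mu4 _ _ _ _, mu4 _ _ _ _, by
    have := tensorμ_natural (𝟙 X) f (𝟙 Y) g
    rwa [id_tensorHom_id, id_tensorHom, id_tensorHom, id_tensorHom] at this⟩

theorem Ar.cube (X : T) (f : A ⟶ B) (g : C ⟶ D) (h : A' ⟶ B') :
    Ar (f ▷ X ⊗ₘ (g ▷ X ⊗ₘ h ▷ X)) ((X ⊗ (X ⊗ X)) ◁ (f ⊗ₘ (g ⊗ₘ h))) :=
  ((Ar.swap f X).tensor (((Ar.swap g X).tensor (Ar.swap h X)).trans (Ar.shuffle X X g h))).trans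
    (Ar.shuffle X _ f _)

theorem ev_iso (e : A ≅ B) (h : (β_ B B).hom = 𝟙 _) : (β_ A A).hom = 𝟙 _ := by
  rw [← cancel_mono (e ⊗ᵢ e).hom, tensorIso_hom, ← BraidedCategory.braiding_naturality, h,
    Category.id_comp, Category.comp_id]

theorem ev_tensor (h : (β_ A A).hom ⊗ₘ (β_ B B).hom = 𝟙 _) : (β_ (A ⊗ B) (A ⊗ B)).hom = 𝟙 _ := by
  have := SymmetricCategory.tensorμ_braid_swap A B
  rw [h, Category.id_comp] at this
  rw [← cancel_epi (mu4 A A B B).hom, Category.comp_id]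
  exact this

end Ar

variable {T : Type u} [Category.{v} T] [Preadditive T] [HasZeroObject T]
    [HasShift T ℤ] [∀ n : ℤ, (shiftFunctor T n).Additive] [Pretriangulated T]
    [MonoidalCategory T] [SymmetricCategory T] [TensorTriangulated T] {H : T} {η : 𝟙_ T ⟶ H}
    {A B A' B' Y M : T} {k l n : ℤ}

/-- the product of two spheres -/
noncomputable def sph (a : A ≅ (𝟙_ T)⟦k⟧) (b : B ≅ (𝟙_ T)⟦n⟧) (h : k + n = l) :
    A ⊗ B ≅ (𝟙_ T)⟦l⟧ :=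
  whiskerRightIso a B ≪≫ Tr.tenOf _ b ≪≫ ((shiftFunctorAdd' T k n l h).app _).symm

theorem ev_add (hk : (β_ ((𝟙_ T)⟦k⟧) ((𝟙_ T)⟦k⟧)).hom = 𝟙 _)
    (hn : (β_ ((𝟙_ T)⟦n⟧) ((𝟙_ T)⟦n⟧)).hom = 𝟙 _) (h : k + n = l) :
    (β_ ((𝟙_ T)⟦l⟧) ((𝟙_ T)⟦l⟧)).hom = 𝟙 _ :=
  ev_iso (sph (Iso.refl _) (Iso.refl _) h).symm (ev_tensor (by rw [hk, hn, id_tensorHom_id]))

theorem ev_two : (β_ ((𝟙_ T)⟦(2 : ℤ)⟧) ((𝟙_ T)⟦(2 : ℤ)⟧)).hom = 𝟙 _ :=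
  ev_iso (sph (k := 1) (n := 1) (Iso.refl _) (Iso.refl _) rfl).symm
    (swap_double TensorTriangulated.sign)

theorem ev_even (hk : (β_ ((𝟙_ T)⟦k⟧) ((𝟙_ T)⟦k⟧)).hom = 𝟙 _) (m : ℕ) :
    (β_ ((𝟙_ T)⟦k + 2 * m⟧) ((𝟙_ T)⟦k + 2 * m⟧)).hom = 𝟙 _ := by
  induction m with
  | zero => rwa [Nat.cast_zero, mul_zero, add_zero]
  | succ m ih => exact ev_add ih ev_two (by push_cast; ring)

theorem whisker_eq (e : Y ≅ (𝟙_ T)⟦n⟧) (f : A ⟶ B) :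
    Y ◁ f = (whiskerRightIso e A ≪≫ S.sphTensor n A).hom ≫ f⟦n⟧' ≫
      (whiskerRightIso e B ≪≫ S.sphTensor n B).inv := by
  rw [← Category.assoc, Iso.eq_comp_inv, Iso.trans_hom, Iso.trans_hom, whiskerRightIso_hom,
    whiskerRightIso_hom, whisker_exchange_assoc, S.sphTensor_naturality, Category.assoc]

theorem eq_zero (e : Y ≅ (𝟙_ T)⟦n⟧) {f : A ⟶ B} (h : Y ◁ f = 0) : f = 0 := by
  rw [whisker_eq e, Preadditive.IsIso.comp_left_eq_zero, Preadditive.IsIso.comp_right_eq_zero] at h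
  exact (shiftFunctor T n).map_injective (h.trans (Functor.map_zero _ _ _).symm)

theorem exists_whisker (e : Y ≅ (𝟙_ T)⟦n⟧) (h : n + k = l) (f : (𝟙_ T)⟦l⟧ ⟶ Y ⊗ B) :
    ∃ f₀ : (𝟙_ T)⟦k⟧ ⟶ B, f = (sph e (Iso.refl _) h).inv ≫ Y ◁ f₀ := by
  obtain ⟨f₀, h0⟩ := (shiftFunctor T n).map_surjective
    ((whiskerRightIso e _ ≪≫ S.sphTensor n _).inv ≫ (sph e (Iso.refl _) h).hom ≫ f ≫
      (whiskerRightIso e B ≪≫ S.sphTensor n B).hom)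
  refine ⟨f₀, ?_⟩
  rw [whisker_eq e, h0]
  simp only [Category.assoc, Iso.hom_inv_id_assoc, Iso.inv_hom_id_assoc, Iso.hom_inv_id,
    Category.comp_id]

theorem big_iso {ι' : A' ⟶ B'} {ι : A ⟶ B} (h : Big η k ι) (e : Ar ι' ι) : Big η k ι' := by
  obtain ⟨a, b, e⟩ := e
  obtain ⟨u, y, h1, h2⟩ := h
  refine ⟨b.hom ≫ u ≫ a.inv ▷ H, y ≫ b.inv ▷ H, ?_, fun h => h2 ?_⟩
  · rw [reassoc_of% e, reassoc_of% h1, red, red, Category.assoc, whisker_exchange,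
      ← rightUnitor_inv_naturality_assoc, a.hom_inv_id_assoc]
  · rwa [comp_whiskerRight, comp_whiskerRight, Category.assoc, inv_hom_whiskerRight_assoc,
      ← Category.assoc, Preadditive.IsIso.comp_right_eq_zero] at h

theorem big_whisker {ι : A ⟶ B} (h : Big η k ι) (e : Y ≅ (𝟙_ T)⟦n⟧) (hl : n + k = l) :
    Big η l (Y ◁ ι) := by
  obtain ⟨u, y, h1, h2⟩ := h
  refine ⟨Y ◁ u ≫ (α_ Y A H).inv, (sph e (Iso.refl _) hl).inv ≫ Y ◁ y ≫ (α_ Y B H).inv, ?_,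
    fun h => h2 (eq_zero e ?_)⟩
  · rw [← whiskerLeft_comp_assoc, h1, red, red]
    monoidal
  · rwa [Category.assoc, Preadditive.IsIso.comp_left_eq_zero, comp_whiskerRight, Category.assoc,
      ← associator_inv_naturality_middle_assoc, ← whiskerLeft_comp_assoc,
      Preadditive.IsIso.comp_right_eq_zero] at h

theorem deep_iso {G' : A' ⟶ B'} {G : A ⟶ B} (h : Deep η k G) (e : Ar G' G) : Deep η k G' := by
  obtain ⟨a, b, e⟩ := e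
  obtain ⟨N, Γ, m, h1, h2, h3⟩ := h
  refine ⟨N, a.hom ≫ Γ, m ≫ b.inv, ?_, h2.post _, fun β => by rw [← Category.assoc, h3]⟩
  rw [Category.assoc, reassoc_of% h1, ← reassoc_of% e, b.hom_inv_id, Category.comp_id]

theorem deep_whisker {G : A ⟶ B} (h : Deep η k G) (e : Y ≅ (𝟙_ T)⟦n⟧) (hl : n + k = l) :
    Deep η l (Y ◁ G) := by
  obtain ⟨N, Γ, m, h1, h2, h3⟩ := h
  refine ⟨_, Y ◁ Γ, Y ◁ m, by rw [← MonoidalCategory.whiskerLeft_comp, h1], h2.whiskerLeft Y,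
    fun β => ?_⟩
  obtain ⟨β₀, rfl⟩ := exists_whisker e hl β
  rw [Category.assoc, ← MonoidalCategory.whiskerLeft_comp, h3, MonoidalPreadditive.whiskerLeft_zero,
    comp_zero]

theorem shallow (h : Shallow η l (Y ⊗ M)) (e : Y ≅ (𝟙_ T)⟦n⟧) (hl : n + k = l) :
    Shallow η k M := by
  obtain ⟨f, hf⟩ := h
  obtain ⟨f₀, rfl⟩ := exists_whisker e hl f
  exact ⟨f₀, fun h => hf ((h.whiskerLeft Y).pre _)⟩

/-- `Setup` without the conditions on the braidings. -/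
structure Pre (η : 𝟙_ T ⟶ H) (M : T) (d e : ℤ) {V S W : T} (i : S ⟶ W) (g : W ⟶ V) : Prop where
  sphV : Nonempty (V ≅ (𝟙_ T)⟦d⟧)
  sphS : Nonempty (S ≅ (𝟙_ T)⟦d + e⟧)
  moore : ∃ δ, Dist (((3 : ℕ) : ℤ) • 𝟙 S) i δ
  big : ∃ (C : T) (ι : V ⟶ C) (π : C ⟶ W⟦(1 : ℤ)⟧), Dist g ι π ∧
    Big η (3 * d + 3 * e + 6) (ι ⊗ₘ (ι ⊗ₘ ι))
  deep : Deep η (3 * d + 3 * e + 4) (((i ≫ g) ⊗ₘ ((i ≫ g) ⊗ₘ g)) ▷ M)

variable {d e : ℤ} {V S W V' S' W' : T} {i : S ⟶ W} {g : W ⟶ V} {i' : S' ⟶ W'} {g' : W' ⟶ V'}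

theorem Pre.iso (h : Pre η M d e i g) (a : S' ≅ S) (b : W' ≅ W) (c : V' ≅ V)
    (hi : i' ≫ b.hom = a.hom ≫ i) (hg : g' ≫ c.hom = b.hom ≫ g) : Pre η M d e i' g' := by
  obtain ⟨δ, h1⟩ := h.moore
  obtain ⟨C, ι, π, h2, h3⟩ := h.big
  have h4 : Ar (c.hom ≫ ι) ι := ⟨c, Iso.refl _, by simp⟩
  have h5 : Ar (i' ≫ g') (i ≫ g) := ⟨a, c, by rw [Category.assoc, hg, reassoc_of% hi]⟩
  exact ⟨h.sphV.map c.trans, h.sphS.map a.trans, ⟨_, Tr.dist_iso h1 a a b (by simp) hi⟩,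
    ⟨C, c.hom ≫ ι, _, Tr.dist_iso h2 b c (Iso.refl _) hg (by simp),
      big_iso h3 (h4.tensor (h4.tensor h4))⟩,
    deep_iso h.deep ((h5.tensor (h5.tensor ⟨b, c, hg⟩)).right M)⟩

theorem Pre.twist (h : Pre η M d e i g) (y : Y ≅ (𝟙_ T)⟦n⟧) :
    Pre η M (d + n) e (i ▷ Y) (g ▷ Y) := by
  obtain ⟨δ, h1⟩ := h.moore
  obtain ⟨C, ι, π, h2, h3⟩ := h.big
  have h4 := Tr.dist_tensR h1 Y
  rw [Tr.zsmul_whiskerRight, id_whiskerRight] at h4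
  obtain ⟨π', h5⟩ := Tr.dist_tensR h2 Y
  have y3 := sph y (sph y y rfl) rfl
  refine ⟨h.sphV.map fun a => sph a y rfl, h.sphS.map fun a => sph a y (by ring), h4,
    ⟨_, _, _, h5, big_iso (big_whisker h3 y3 (by ring)) (Ar.cube Y ι ι ι)⟩,
    deep_iso (deep_whisker h.deep y3 (by ring)) ?_⟩
  rw [← comp_whiskerRight]
  exact ((Ar.cube Y _ _ _).right M).trans (Ar.assoc _ _ _)

theorem Pre.space (F : SpaceFunctor T) {V S W : FCat} {i : S ⟶ W} {g : F.S.obj W ⟶ F.S.obj V}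
    (h : Pre η M d e (F.S.map i) g) (m : ℕ) {γ : W ⊗ SphF m ⟶ V ⊗ SphF m}
    (hγ : F.S.map γ = (Tr.mu F W (SphF m)).inv ≫ g ▷ F.S.obj (SphF m) ≫ (Tr.mu F V (SphF m)).hom) :
    Pre η M (d + m) e (F.S.map (i ▷ SphF m)) (F.S.map γ) :=
  (h.twist (sphIso F m)).iso (Tr.mu F _ _).symm (Tr.mu F _ _).symm (Tr.mu F _ _).symm
    (by rw [S_whiskerRight]; simp) (by rw [hγ]; simp)

end PwT

open PwT

variable {T : Type u} [Category.{v} T] [Preadditive T] [HasZeroObject T]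
    [HasShift T ℤ] [∀ n : ℤ, (shiftFunctor T n).Additive] [Pretriangulated T]
    [MonoidalCategory T] [SymmetricCategory T] [TensorTriangulated T]

/-- **realization and twisting** -/
theorem pow_of_core (F : SpaceFunctor T) {H : T} {o : 𝟙_ T ⟶ H} {M : T} (h : Core F o M) :
    Pow o M := by
  intro S W i g e he s
  obtain ⟨a⟩ := s.sphS
  obtain ⟨v⟩ := s.sphV
  obtain ⟨δ, D⟩ := s.moore
  obtain ⟨k, rfl⟩ := Int.eq_ofNat_of_zero_le (show 0 ≤ e by omega)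
  rw [zero_add] at a
  let a' := sphIso F k ≪≫ a.symm
  obtain ⟨m, φ, c, hc⟩ := Tr.exists_cone_space F (Tr.dist_iso D a' a' (Iso.refl W)
    (f' := ((3 : ℕ) : ℤ) • 𝟙 _) (g' := a'.hom ≫ i) (by simp) (by simp))
  have p0 : Pre o M 0 k i g := ⟨s.sphV, s.sphS, s.moore, s.big, s.deep⟩
  have p1 : Pre o M (0 + m) k (F.S.map (coneInrF φ))
      (c.inv ≫ g ▷ F.S.obj (SphF m) ≫ (λ_ _).hom) :=
    (p0.twist (sphIso F m)).iso ((Tr.mu F _ _).symm ≪≫ whiskerRightIso a' _) c.symm (λ_ _).symm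
      (by rw [Iso.symm_hom, Iso.comp_inv_eq, Iso.trans_hom, Category.assoc, Category.assoc,
        whiskerRightIso_hom, ← comp_whiskerRight_assoc, hc, Iso.symm_hom, Iso.inv_hom_id_assoc])
      (by rw [Iso.symm_hom, Iso.symm_hom, Category.assoc, Category.assoc, Iso.hom_inv_id,
        Category.comp_id])
  obtain ⟨n, γ, hγ⟩ := F.full (c.inv ≫ g ▷ F.S.obj (SphF m) ≫ (λ_ _).hom)
  have p3 := (p1.space F n hγ).space F (m + n) (S_whiskerRight F γ _)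
  obtain ⟨v'⟩ := p3.sphV
  obtain ⟨a''⟩ := p3.sphS
  have e1 := ev_even (ev_iso v.symm s.evV) (m + n)
  have e2 := ev_even (ev_iso a.symm s.evS) (m + n)
  rw [show (0 : ℤ) + 2 * (m + n : ℕ) = 0 + m + n + (m + n : ℕ) by push_cast; ring] at e1
  rw [show (k : ℤ) + 2 * (m + n : ℕ) = 0 + m + n + (m + n : ℕ) + k by push_cast; ring] at e2
  exact shallow (h _ _ _ _ _ _ _ he ⟨⟨v'⟩, ⟨a''⟩, ev_iso v' e1, ev_iso a'' e2, p3.moore, p3.big,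
    p3.deep⟩) (sph v' (sph v' v' rfl) rfl) (by ring)

end Vale.Agent.P236K
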