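import Vale.Agent.P236K.PwG
import Vale.Agent.P236T.BockT

/-!
# P236K: the Moore spectrum is self dual

`exists_dual`: every map `A ⊗ 𝟙⟦1⟧ ⟶ M` is dual to a map `A ⊗ M ⟶ 𝟙`.
-/

open CategoryTheory MonoidalCategory MonObj Limits Pretriangulated

set_option linter.unusedSectionVars false

universe v u

namespace Vale.Agent.P236K

open Vale.Agent.P251 Vale.Agent.P251.T Vale.Agent.P251.M Vale.Agent.P251.F Vale.Agent.P251.I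
  Vale.Agent.P251.H Vale.Agent.P257.H314 Vale.Agent.P236T Vale.Agent.P236Z Vale.Agent.P236Z.Dt
open Vale.Agent.P251.S hiding IC

variable {T : Type u} [Category.{v} T] [Preadditive T] [HasZeroObject T]
    [HasShift T ℤ] [∀ n : ℤ, (shiftFunctor T n).Additive] [Pretriangulated T]
    [MonoidalCategory T] [SymmetricCategory T] [TensorTriangulated T]

namespace PwW0

theorem whiskerRight_sph (k : ℤ) {X Y : T} (f : X ⟶ Y) :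
    f ▷ (𝟙_ T)⟦k⟧ = (tensorSph k X).hom ≫ f⟦k⟧' ≫ (tensorSph k Y).inv := by
  rw [← tensorSph_naturality_assoc, Iso.hom_inv_id, Category.comp_id]

theorem whiskerLeft_sph (k : ℤ) {X Y : T} (f : X ⟶ Y) :
    (𝟙_ T)⟦k⟧ ◁ f = (sphTensor k X).hom ≫ f⟦k⟧' ≫ (sphTensor k Y).inv := by
  rw [← sphTensor_naturality_assoc, Iso.hom_inv_id, Category.comp_id]

/-- The tensor product with a sphere is full. -/
theorem full_R (k : ℤ) {X Y : T} (f : X ⊗ (𝟙_ T)⟦k⟧ ⟶ Y ⊗ (𝟙_ T)⟦k⟧) :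
    ∃ g : X ⟶ Y, g ▷ (𝟙_ T)⟦k⟧ = f := by
  obtain ⟨g, hg⟩ := (shiftFunctor T k).map_surjective
    ((tensorSph k X).inv ≫ f ≫ (tensorSph k Y).hom)
  exact ⟨g, by rw [whiskerRight_sph, hg]; simp⟩

theorem full_L (k : ℤ) {X Y : T} (f : (𝟙_ T)⟦k⟧ ⊗ X ⟶ (𝟙_ T)⟦k⟧ ⊗ Y) :
    ∃ g : X ⟶ Y, (𝟙_ T)⟦k⟧ ◁ g = f := by
  obtain ⟨g, hg⟩ := (shiftFunctor T k).map_surjective
    ((sphTensor k X).inv ≫ f ≫ (sphTensor k Y).hom)
  exact ⟨g, by rw [whiskerLeft_sph, hg]; simp⟩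

theorem faithful_R (k : ℤ) {X Y : T} {f : X ⟶ Y} (h : f ▷ (𝟙_ T)⟦k⟧ = 0) : f = 0 := by
  rw [whiskerRight_sph, Preadditive.IsIso.comp_left_eq_zero,
    Preadditive.IsIso.comp_right_eq_zero] at h
  exact (shiftFunctor T k).map_injective (h.trans (Functor.map_zero _ _ _).symm)

theorem zsmul_R {X Y : T} (m : ℤ) (f : X ⟶ Y) (W : T) : (m • f) ▷ W = m • f ▷ W :=
  (tensorRight W).map_zsmul (r := m) (f := f)

theorem zsmul_L (W : T) {X Y : T} (m : ℤ) (f : X ⟶ Y) : W ◁ (m • f) = m • W ◁ f :=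
  (tensorLeft W).map_zsmul (r := m) (f := f)

theorem sc_zsmul {X : T} (m : ℤ) (j : X ⟶ 𝟙_ T) (W : T) : Tr.sc (m • j) W = m • Tr.sc j W := by
  rw [Tr.sc, Tr.sc, zsmul_R, Preadditive.zsmul_comp]

theorem sc_add {X : T} (j j' : X ⟶ 𝟙_ T) (W : T) :
    Tr.sc (j + j') W = Tr.sc j W + Tr.sc j' W := by
  rw [Tr.sc, Tr.sc, Tr.sc, MonoidalPreadditive.add_whiskerRight, Preadditive.add_comp]

variable {M : T} {i : 𝟙_ T ⟶ M} {δ : M ⟶ (𝟙_ T)⟦(1 : ℤ)⟧} {n : ℤ}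

theorem red_sc {X : T} (a : X ⟶ 𝟙_ T) : red i X ≫ Tr.sc a M = a ≫ i := by
  rw [red, Category.assoc, ← Tr.sc_naturality, Tr.sc_unit]
  simp

theorem zsmul_δ (hC : Dist (n • 𝟙 (𝟙_ T)) i δ) : n • δ = 0 := by
  have h := hC.zero₃₁
  rwa [Functor.map_zsmul, CategoryTheory.Functor.map_id, Preadditive.comp_zsmul,
    Category.comp_id] at h

theorem sq_id (hC : Dist (n • 𝟙 (𝟙_ T)) i δ) (h1 : ∀ f : (𝟙_ T)⟦(1 : ℤ)⟧ ⟶ M, f = 0) {c : ℤ}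
    (h : c • i = i) : c • 𝟙 M = 𝟙 M := by
  obtain ⟨b, hb⟩ := hC.desc₃ (c • 𝟙 M - 𝟙 M) (by
    rw [Preadditive.comp_sub, Preadditive.comp_zsmul, Category.comp_id, h, sub_self])
  rw [← sub_eq_zero, ← hb, h1 b, comp_zero]

/-- The duality, for any object `A`. -/
theorem dual_of [HasCoproducts.{0} T] (hC : Dist (n • 𝟙 (𝟙_ T)) i δ)
    (h1 : ∀ f : (𝟙_ T)⟦(1 : ℤ)⟧ ⟶ M, f = 0) {c : ℤ} (K : BockT.Kap i δ c) {A : T} (x : A ⊗ (𝟙_ T)⟦(1 : ℤ)⟧ ⟶ M) : ∃ g, Dual i δ g x := by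
  obtain ⟨θ, hθ⟩ := full_R 1 (x ≫ δ ≫ (λ_ _).inv)
  have h2 : Tr.sc θ _ = x ≫ δ := by rw [Tr.sc, hθ]; simp
  have h3 : n • θ = 0 := faithful_R 1 (by
    rw [zsmul_R, hθ, ← Preadditive.comp_zsmul, ← Preadditive.zsmul_comp, zsmul_δ hC, zero_comp,
      comp_zero])
  obtain ⟨g₀, hg₀⟩ := (dist_red hC A).desc₂ (c • θ) (by
    rw [Preadditive.zsmul_comp, Category.id_comp, smul_comm, h3, smul_zero])
  have h4 : (A ◁ K.κ ≫ (α_ A M M).inv ≫ Tr.sc g₀ M) ≫ δ = x ≫ δ := by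
    have e1 : A ◁ ((λ_ ((𝟙_ T)⟦(1 : ℤ)⟧)).inv ≫ i ▷ (𝟙_ T)⟦(1 : ℤ)⟧) ≫ (α_ A M _).inv =
        red i A ▷ (𝟙_ T)⟦(1 : ℤ)⟧ := by
      rw [red]
      simp
    rw [Category.assoc, Category.assoc, Tr.sc_naturality,
      ← associator_inv_naturality_right_assoc, ← MonoidalCategory.whiskerLeft_comp_assoc,
      K.right, zsmul_L, Preadditive.zsmul_comp, reassoc_of% e1, ← Tr.sc_comp, hg₀, sc_zsmul,
      smul_smul, h2, ← Preadditive.comp_zsmul, ← Category.id_comp δ, ← Preadditive.zsmul_comp,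
      sq_id hC h1 K.sq]
  obtain ⟨a, ha⟩ := hC.lift₃ (x - A ◁ K.κ ≫ (α_ A M M).inv ≫ Tr.sc g₀ M) (by
    rw [Preadditive.sub_comp, h4, sub_self])
  refine ⟨g₀ + A ◁ δ ≫ a, K.κ, K.left, ?_⟩
  have e2 : A ◁ red i ((𝟙_ T)⟦(1 : ℤ)⟧) ≫ (α_ A _ M).inv = red i (A ⊗ (𝟙_ T)⟦(1 : ℤ)⟧) := by
    rw [red, red]
    simp
  have e3 : K.κ ≫ δ ▷ M = red i ((𝟙_ T)⟦(1 : ℤ)⟧) := K.left
  rw [sc_add, Preadditive.comp_add, Preadditive.comp_add, Tr.sc_comp,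
    ← associator_inv_naturality_middle_assoc, ← MonoidalCategory.whiskerLeft_comp_assoc, e3,
    reassoc_of% e2, red_sc, ha, add_sub_cancel]

end PwW0

variable [IsTriangulated T] [MonoidalClosed T] [HasCoproducts.{0} T] [HasProducts.{0} T]
  [StableCat T]

/-- **The Moore spectrum is self dual.** -/
theorem exists_dual (F : SpaceFunctor T) {D : MUData T} (G : Geo D) {k : ℤ}
    (x : (𝟙_ T)⟦k⟧ ⊗ (𝟙_ T)⟦(1 : ℤ)⟧ ⟶ G.M) : ∃ g, Dual G.i G.δ g x := by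
  obtain ⟨c, ⟨K⟩⟩ := BockT.exists_kap G.dist G.pi_one (BockT.pi_zero G F)
  exact PwW0.dual_of G.dist G.pi_one K x

end Vale.Agent.P236K
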