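import Vale.Agent.P257.H80.Idem
import Vale.Agent.P257.H80.HomTyp
import Vale.Agent.P257.H80.HazVV
import Vale.Agent.P251.X.PDSucc
import Vale.Agent.P257.H762.MCell

/-!
# P236K: the monoid `BP / (p, v_1, …, v_{n-1})`

It is a retract of `MU / (p, v_1, …, v_{n-1})`; its homotopy vanishes in the degrees
`k ≠ 0`, `k < 2 (p ^ n - 1)`.
-/

open CategoryTheory MonoidalCategory MonObj Limits Pretriangulated

set_option linter.unusedSectionVars false

universe u

namespace Vale.Agent.P236K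

open Vale.Agent.P251 Vale.Agent.P251.S Vale.Agent.P251.T Vale.Agent.P251.M Vale.Agent.P251.F
  Vale.Agent.P251.I EvenSpheres Vale.Agent.P257.H80 Vale.Agent.P251.H

variable {T : Type u} [Category.{0} T] [Preadditive T] [HasZeroObject T]
    [HasShift T ℤ] [∀ n : ℤ, (shiftFunctor T n).Additive] [Pretriangulated T] [IsTriangulated T]
    [MonoidalCategory T] [SymmetricCategory T] [TensorTriangulated T] [MonoidalClosed T]
    [HasCoproducts.{0} T] [HasProducts.{0} T] [StableCat T]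
  {F : SpaceFunctor T} {e : F.S.obj CCF ≅ (stdEven T).L} {D : MUData T}
  {p : ℕ} [hp : Fact p.Prime]

theorem locO_of_char {K : T} [MonObj K] (h : (p : ℤ) • η[K] = 0) : LocO p K := by
  intro m hm
  have h1 := X.zsmul_id_eq_zero h
  obtain ⟨x, y, hxy⟩ := ((Nat.prime_iff_prime_int.1 hp.out).irreducible.coprime_iff_not_dvd.2 hm :
    IsCoprime (p : ℤ) m)
  have h2 : (y * m) • 𝟙 K = 𝟙 K := by
    rw [eq_sub_of_add_eq' hxy, sub_smul, mul_smul, h1, smul_zero, sub_zero, one_smul]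
  refine ⟨y • 𝟙 K, ?_, ?_⟩
  · rw [Preadditive.zsmul_comp, Category.id_comp, smul_smul, mul_comm, h2]
  · rw [Preadditive.zsmul_comp, Category.id_comp, smul_smul, h2]

section sparse

variable {K : T} [MonObj K] [IsCommMonObj K]

/-- the elements of degree at least `m` -/
noncomputable def high (K : T) (m : ℤ) : AddSubgroup (HRing (stdEven T) K) :=
  AddSubgroup.closure {x | ∃ k a, m ≤ k ∧ x = HRing.of (stdEven T) K k a}

omit [MonObj K] [IsCommMonObj K] in
theorem high_apply {m : ℤ} {x : HRing (stdEven T) K} (hx : x ∈ high K m) {k : ℤ} (hk : k < m) :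
    x k = 0 := by
  induction hx using AddSubgroup.closure_induction with
  | mem x hx =>
    obtain ⟨l, a, hl, rfl⟩ := hx
    exact DirectSum.of_eq_of_ne (β := (stdEven T).Gr K) l k a (by omega)
  | zero => rfl
  | add x y _ _ hx hy => rw [DirectSum.add_apply, hx, hy, add_zero]
  | neg x _ hx =>
    have h : (-x) k = -(x k) := rfl
    rw [h, hx, neg_zero]

theorem high_mul {m l : ℤ} (hl : 0 ≤ l) {x : HRing (stdEven T) K} (hx : x ∈ high K m)
    (b : (stdEven T).S l ⟶ K) : x * HRing.of (stdEven T) K l b ∈ high K m := by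
  induction hx using AddSubgroup.closure_induction with
  | mem x hx =>
    obtain ⟨k, a, hk, rfl⟩ := hx
    exact AddSubgroup.subset_closure ⟨k + l, _, by omega, of_mul_of rfl a b⟩
  | zero => rw [zero_mul]; exact zero_mem _
  | add x y _ _ hx hy => rw [add_mul]; exact add_mem hx hy
  | neg x _ hx => rw [neg_mul]; exact neg_mem hx

theorem exists_high {m : ℤ} (hm : 0 ≤ m) (φ : MvPolynomial ℕ ℤ →+* HRing (stdEven T) K)
    (hφ : ∀ i, φ (MvPolynomial.X i) = 0 ∨
      ∃ k a, m ≤ k ∧ φ (MvPolynomial.X i) = HRing.of (stdEven T) K k a)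
    (y : MvPolynomial ℕ ℤ) : ∃ n : ℤ, φ y - n ∈ high K m := by
  induction y using MvPolynomial.induction_on with
  | C a =>
    refine ⟨a, ?_⟩
    have h : φ (MvPolynomial.C a) = a := eq_intCast (φ.comp MvPolynomial.C) a
    rw [h, sub_self]
    exact zero_mem _
  | add x y hx hy =>
    obtain ⟨a, ha⟩ := hx
    obtain ⟨b, hb⟩ := hy
    refine ⟨a + b, ?_⟩
    have h := add_mem ha hb
    rwa [show φ x - a + (φ y - b) = φ (x + y) - ((a + b : ℤ) : HRing (stdEven T) K) by
      rw [map_add]; push_cast; ring] at h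
  | mul_X x i hx =>
    obtain ⟨a, ha⟩ := hx
    refine ⟨0, ?_⟩
    rw [Int.cast_zero, sub_zero, map_mul]
    rcases hφ i with h | ⟨k, b, hk, h⟩
    · rw [h, mul_zero]
      exact zero_mem _
    · rw [h, show φ x = (φ x - a) + a by ring, add_mul, ← zsmul_eq_mul]
      have h1 : HRing.of (stdEven T) K k b ∈ high K m := AddSubgroup.subset_closure ⟨k, b, hk, rfl⟩
      exact add_mem (high_mul (hm.trans hk) ha b) (zsmul_mem h1 _)

theorem intCast_eq (n : ℤ) : (n : HRing (stdEven T) K) =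
    HRing.of (stdEven T) K 0 (n • ((stdEven T).zero.inv ≫ η[K])) := by
  rw [← zsmul_one, ← of_one]
  exact (map_zsmul (DirectSum.of ((stdEven T).Gr K) 0) _ _).symm

end sparse

/-- `B = BP / (p, v_1, …, v_{n-1})`, as a retract of `P = MU / (p, v_1, …, v_{n-1})`. -/
structure BD {p n : ℕ} [Fact p.Prime] (Q : X.PD D p n) where
  /-- the spectrum -/
  B : T
  [mon : MonObj B]
  [comm : IsCommMonObj B]
  /-- the projection -/
  r : Q.P ⟶ B
  /-- the section -/
  s : B ⟶ Q.P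
  [hom : IsMonHom r]
  [hom' : IsMonHom s]
  s_r : s ≫ r = 𝟙 B
  sparse (k : ℤ) (h0 : k ≠ 0) (hk : k < (p : ℤ) ^ n - 1) (f : (stdEven T).S k ⟶ B) : f = 0
  gen (f : (stdEven T).S 0 ⟶ B) : ∃ a : ℤ, f = a • ((stdEven T).zero.inv ≫ η[B])
  desc (N : T) [MonObj N] [IsCommMonObj N] (g : D.R ⟶ N) [IsMonHom g] (hN : X.Odd0 N)
    (hg : ∀ i < n, vv p i (lawOf g) = 0) (φ : MvPolynomial ℕ ℤ →+* HRing (stdEven T) N)
    (hφ : lawOf g = (haz p).map φ) : ∃ f : B ⟶ N, IsMonHom f ∧ (Q.u ≫ r) ≫ f = g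

attribute [instance] BD.mon BD.comm BD.hom BD.hom'

theorem char_of_vv {N : T} [MonObj N] [IsCommMonObj N] (g : D.R ⟶ N) [IsMonHom g]
    (h : vv p 0 (lawOf g) = 0) : (p : ℤ) • η[N] = 0 := (X.vv_zero_lawOf_iff g).1 h

theorem exists_BD (hD : MUUniv e D) {n : ℕ} (hn : n ≠ 0) (Q : X.PD D p n) : Nonempty (BD Q) := by
  have hc : (p : ℤ) • η[Q.P] = 0 := char_of_vv Q.u (Q.vv_zero_of_lt (Nat.pos_of_ne_zero hn))
  have hP : LocO p Q.P := locO_of_char hc
  have hv : ∀ i < n, vv p i (lawOf (typM hD hP Q.u)) = 0 := fun i hi =>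
    X.vv_lawOf_lt Q.u (typM hD hP Q.u) (fun _ hi => Q.vv_zero_of_lt hi) hi
  obtain ⟨ε, hε, hl⟩ := Q.desc Q.P (typM hD hP Q.u) Q.odd hv
  have hidem : ε ≫ ε = ε := by
    refine Q.uniq Q.P _ _ inferInstance hε Q.odd ?_
    rw [← Category.assoc, hl, ← typM_comp hD hP Q.u hP ε]
    exact (typM_congr hD hP hl).trans (typM_eq hD hP _ (lawOf_typM hD hP Q.u))
  obtain ⟨B, s, r, hsr, hrs⟩ := X.exists_split ε hidem
  have hret : X.IsRetMon s r := ⟨hsr, by rw [hrs]; exact hε⟩
  let i1 : MonObj B := hret.monObj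
  have i2 : IsCommMonObj B := hret.isCommMonObj
  have i3 : IsMonHom s := hret.isMonHom_s
  have i4 : IsMonHom r := hret.isMonHom_r
  have h1 : typM hD hP Q.u ≫ r = Q.u ≫ r := by
    rw [← hl, Category.assoc, ← hrs, Category.assoc, hsr, Category.comp_id]
  set φ := vS p (typ p (pLoc_of_locO hP) (lawOf Q.u)) with hφ
  have h2 : lawOf (typM hD hP Q.u) = (haz p).map φ := lawOf_typM hD hP Q.u
  have h3 : ∀ i, i + 1 < n → φ (MvPolynomial.X i) = 0 := fun i hi => by
    obtain ⟨k, rfl⟩ := Nat.exists_eq_succ_of_ne_zero hn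
    have h4 : φ (MvPolynomial.X i) ∈ Ih p (k + 1) ((haz p).map φ) := by
      rw [Ih_haz]
      exact mem_HI p (by omega)
    have h5 : Ih p (k + 1) ((haz p).map φ) = ⊥ := by
      rw [Ih, Ideal.span_eq_bot]
      rintro _ ⟨j, hj, rfl⟩
      rw [← h2]
      exact hv j hj
    rwa [h5, Ideal.mem_bot] at h4
  have hm : (0 : ℤ) < (p : ℤ) ^ n - 1 := by
    have h5 : 1 < p ^ n := Nat.one_lt_pow hn hp.out.one_lt
    have h6 : (1 : ℤ) < (p : ℤ) ^ n := by exact_mod_cast h5
    omega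
  have key : ∀ (k : ℤ) (f : (stdEven T).S k ⟶ B), ∃ a : ℤ,
      HRing.of (stdEven T) B k f - a ∈ high B ((p : ℤ) ^ n - 1) := fun k f => by
    obtain ⟨z, hz⟩ := Q.surj (HRing.of (stdEven T) Q.P k (f ≫ s))
    have h4 : HRing.of (stdEven T) B k f = ((HRing.map r).comp φ) (hazHom p z) := by
      have h5 : Laz.lift (lawOf (Q.u ≫ r)) = ((HRing.map r).comp φ).comp (hazHom p) := by
        rw [← lawOf_congr h1, lawOf_comp, h2, haz, Law.map_map, Law.map_map, Laz.lift_map_univ,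
          RingHom.comp_assoc]
      have h6 := X.lift_lawOf_comp Q.u r z
      rw [hz, HRing.map_of, Category.assoc, hsr, Category.comp_id] at h6
      exact h6.symm.trans (RingHom.congr_fun h5 z)
    rw [h4]
    refine exists_high hm.le _ (fun i => ?_) _
    by_cases hi : i + 1 < n
    · left
      rw [RingHom.comp_apply, h3 i hi, map_zero]
    · right
      obtain ⟨a, ha⟩ := isHomog_typ (p := p) (pLoc_of_locO hP) Q.u (p ^ (i + 1) - 2)
      refine ⟨_, a ≫ r, ?_, by rw [RingHom.comp_apply, hφ, vS_X, ha, HRing.map_of]⟩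
      have h5 : p ^ n ≤ p ^ (i + 1) := Nat.pow_le_pow_right hp.out.pos (by omega)
      have h6 : 2 ≤ p ^ (i + 1) := two_le_pow hp.out (Nat.succ_ne_zero i)
      have h7 : ((p ^ n : ℕ) : ℤ) = (p : ℤ) ^ n := by push_cast; rfl
      omega
  refine ⟨{ B := B, r := r, s := s, s_r := hsr, sparse := ?_, gen := ?_, desc := ?_ }⟩
  · intro k h0 hk f
    obtain ⟨a, ha⟩ := key k f
    have h4 := high_apply ha hk
    rw [intCast_eq, DirectSum.sub_apply, DirectSum.of_eq_same,
      DirectSum.of_eq_of_ne 0 k _ h0, sub_zero] at h4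
    exact h4
  · intro f
    obtain ⟨a, ha⟩ := key 0 f
    have h4 := high_apply ha hm
    rw [intCast_eq, DirectSum.sub_apply, DirectSum.of_eq_same, DirectSum.of_eq_same,
      sub_eq_zero] at h4
    exact ⟨a, h4⟩
  · intro N _ _ g _ hN hg ψ hψ
    obtain ⟨f, hf, huf⟩ := Q.desc N g hN hg
    have hN' : LocO p N := locO_of_char (char_of_vv g (hg 0 (Nat.pos_of_ne_zero hn)))
    refine ⟨s ≫ f, inferInstance, ?_⟩
    rw [Category.assoc, ← Category.assoc r, hrs, ← Category.assoc, hl,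
      ← typM_comp hD hP Q.u hN' f]
    exact (typM_congr hD hN' huf).trans (typM_eq hD hN' g hψ)

namespace BD

variable {n : ℕ} {Q : X.PD D p n} (W : BD Q)

/-- the orientation -/
noncomputable abbrev b : D.R ⟶ W.B := Q.u ≫ W.r

theorem odd : X.Odd0 W.B := fun l f => by
  rw [← Category.comp_id f, ← W.s_r, ← Category.assoc, Q.odd l (f ≫ W.s), zero_comp]

theorem uniq {N : T} [MonObj N] (hN : X.Odd0 N) {f f' : W.B ⟶ N} [IsMonHom f] [IsMonHom f']
    (h : W.b ≫ f = W.b ≫ f') : f = f' := by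
  have h1 : W.r ≫ f = W.r ≫ f' := Q.uniq N _ _ inferInstance inferInstance hN
    (by simpa only [Category.assoc] using h)
  rw [← Category.id_comp f, ← Category.id_comp f', ← W.s_r, Category.assoc, Category.assoc, h1]

theorem vv_b {i : ℕ} (hi : i < n) : vv p i (lawOf W.b) = 0 := by
  rw [lawOf_comp, vv_map]
  exact (congrArg _ (Q.vv_zero_of_lt hi)).trans (map_zero _)

theorem pi_zero {k : ℤ} (h0 : k ≠ 0) (hk : k < 2 * ((p : ℤ) ^ n - 1)) (f : (𝟙_ T)⟦k⟧ ⟶ W.B) :
    f = 0 := by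
  obtain ⟨l, rfl | rfl⟩ := Int.even_or_odd' k
  · rw [← cancel_epi ((stdEven T).sphIso (Iso.refl _) l).hom, comp_zero]
    exact W.sparse l (by omega) (by omega) _
  · exact W.odd l f

end BD

end Vale.Agent.P236K
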