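import Vale.Agent.P236Z.Dt.Moore
import Vale.Agent.P257.H163.Toda
import Vale.Agent.P257.H712.Toda
import Vale.Agent.P257.H545.StepPre

/-!
# P236K: the Toda differential in the `MU`-tower of the Moore spectrum `S / 3`

`todaY`: an element of filtration seven with class `h_0 b_0^3` which is zero in `π_33 (S / 3)`.
`exists_src`: some cocycle of filtration two in the stem `34` is not a permanent cycle.
-/

open CategoryTheory MonoidalCategory Limits Pretriangulated MonObj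

set_option linter.unusedSectionVars false

universe v u

namespace Vale.Agent.P236K

open Vale.Agent.P251 Vale.Agent.P251.T Vale.Agent.P251.F Vale.Agent.P251.I
  Vale.Agent.P251.M Vale.Agent.P257.H314 Vale.Agent.P257.H712 Vale.Agent.P257 Vale.Agent.P251.H
  Vale.Agent.P236Z.Dt
open Vale.Agent.P251.S hiding IC
open Vale.Agent.P251.B (sphE)

/-- An element which dies in filtration zero has a boundary as its class, if no longer
differential can hit. -/
theorem isCobdy_of_k {C : Couple.{u, v}} {t : ℕ} {m : ℤ} (c : C.D (t + 1) m)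
    (hc : C.proj m (Nat.zero_le _) c = 0)
    (hk : ∀ a < t, ∀ z : C.E a (m + 1), C.IsCocycle z → C.k a (m + 1) m rfl z = 0) :
    C.IsCobdy (C.j (t + 1) m c) := by
  have key : ∀ a (hat : a ≤ t), C.proj m (show a ≤ t + 1 by omega) c = 0 := by
    intro a
    induction a with
    | zero => exact fun _ => hc
    | succ a ih =>
      intro hat
      have h1 : C.i a m (C.proj m (show a + 1 ≤ t + 1 by omega) c) = 0 := by
        rw [C.i_proj m (show a + 1 ≤ t + 1 by omega) c]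
        exact ih (by omega)
      obtain ⟨z, hz⟩ := C.exact_i a (m + 1) m rfl _ h1
      rw [← hz]
      refine hk a (by omega) z fun l hl => ?_
      obtain rfl : l = m := by linarith
      rw [C.d_apply, hz, ← C.i_proj _ (show a + 1 + 1 ≤ t + 1 by omega) c, C.j_i]
  have h2 : C.i t m c = 0 := by
    have := key t le_rfl
    rwa [C.proj_succ m (le_refl t), C.proj_self] at this
  obtain ⟨z, hz⟩ := C.exact_i t (m + 1) m rfl _ h2
  exact ⟨z, by rw [C.d_apply, hz]⟩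

variable {T : Type u} [Category.{v} T] [Preadditive T] [HasZeroObject T]
    [HasShift T ℤ] [∀ n : ℤ, (shiftFunctor T n).Additive] [Pretriangulated T]
    [MonoidalCategory T] [SymmetricCategory T] [TensorTriangulated T]

theorem tensor_zero_of_shift {A B X Y : T} (g : A ⟶ B) (f : X ⟶ Y)
    (h : g ⊗ₘ f⟦(1 : ℤ)⟧' = 0) : g ⊗ₘ f = 0 := by
  apply (shiftFunctor T (1 : ℤ)).map_injective
  rw [Functor.map_zero, ← cancel_epi (csh A 1 X).hom, comp_zero,
    MonoidalCategory.tensorHom_def, Functor.map_comp, csh_tlMap_assoc, ← csh_nat, ← Category.assoc,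
    ← MonoidalCategory.tensorHom_def, h, zero_comp]

variable [HasCoproducts.{0} T] [MonoidalClosed T] [IsTriangulated T] [HasProducts.{0} T]
  [StableCat T]

/-- `h_0 b_0^3` is not a coboundary modulo three. -/
def A1 : Prop := ∀ t : Cob Laz 1, IsT1 3 t → ∀ g : Cob Laz 6,
  cupN t (bcls 3 t) 3 - Cob.d 6 g ∉ IC 3 1 7

variable (F : SpaceFunctor T) (D : MUData T) (U : UnitCof D.R) {M : T} {i : 𝟙_ T ⟶ M}
  {δ : M ⟶ (𝟙_ T)⟦(1 : ℤ)⟧} (hM : Dist (((3 : ℕ) : ℤ) • 𝟙 (𝟙_ T)) i δ)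

include F hM in
/-- The element `α_1 β_1^3` of filtration seven. -/
theorem todaY (hA : A1) : ∃ (m : ℤ) (Y : (CV U M).D 7 m), m = 33 ∧
    (CV U M).proj m (Nat.zero_le _) Y = 0 ∧ ¬ (CV U M).IsCobdy ((CV U M).j 7 m Y) := by
  have : Fact (Nat.Prime 3) := ⟨by norm_num⟩
  have H := cyc_modP D (p := 3) (by norm_num) hM
  obtain ⟨t, ht⟩ := P251.F.T1 3
  obtain ⟨ht1, hdt, hb1, hdb, -⟩ := BCocycle 3 (by omega) t ht
  have htw : Cob.IsWt 2 t := ht1
  have hb : Cob.IsWt 6 (bcls 3 t) := hb1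
  obtain ⟨a, ha⟩ := H762.exists_alpha_one D U (p := 3) (by omega) ht (v := 2) rfl htw
  obtain ⟨x, hx⟩ := B.exists_beta_one D U (p := 3) (by omega) ht (w := 6) rfl hb
  obtain ⟨g, hg⟩ : ∃ g, ((3 : ℕ) : ℤ) • g =
      H762.tSm (𝟙 (𝟙_ T)) (bet U x) 3 ⊗ₘ (a ≫ U.bd 0 (𝟙_ T)) :=
    H163.todaRel F D U (p := 3) (by omega) hM t ht htw hb a ha x hx
  have hk : (2 * 6 : ℤ) = 10 + 2 := rfl
  have hξ := fun s => U.ξ_comm_of_even (k := 2 * 6) 6 rfl x s
  have h1 : (3 : ℤ) + ((1 : ℕ) : ℤ) = 2 * 2 := rfl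
  let X := (U.tow (𝟙_ T)).map (tensorRight M)
  let y : (CV U M).D 1 3 :=
    (X.eD (𝟙_ T) h1).symm (a ≫ (redC i).app (U.cobar.B 1 (𝟙_ T)))
  refine ⟨_, powD (M₂ U (𝟙_ T) (tensorRight M) hk x hξ) 3 y, rfl, ?_, ?_⟩
  · refine (proj_zero_powD 3 y).trans ?_
    have h0 : (3 : ℤ) + ((0 : ℕ) : ℤ) = 3 := rfl
    refine (powB_eq_zero_iff U hk x hξ h0 3 _).2 (tensor_zero_of_shift _ _ ?_)
    have h2 := X.eD_i (𝟙_ T) h0 h1 rfl y
    rw [AddEquiv.apply_symm_apply] at h2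
    have h3 : H762.AI ((zet U h0 ((CV U M).proj 3 (Nat.zero_le 1) y))⟦(1 : ℤ)⟧')
        ((a ≫ U.bd 0 (𝟙_ T)) ≫ red i _) := by
      rw [proj_one, zet, Functor.map_comp]
      refine (H762.AI.of_comp_iso _ ((shiftFunctor T (1 : ℤ)).mapIso (λ_ M))).trans
        ((H762.AI.of_iso_comp ((shiftFunctorAdd' T 3 1 (2 * 2) rfl).app (𝟙_ T)) _).symm.trans ?_)
      have h4 : (a ≫ (redC i).app (U.cobar.B 1 (𝟙_ T))) ≫ X.c 0 =
          ((a ≫ U.bd 0 (𝟙_ T)) ≫ red i _) ≫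
            (((tensorRight M).commShiftIso (1 : ℤ)).app (𝟙_ T)).hom := by
        rw [Category.assoc _ _ (red i _), red_nat, Category.assoc, Category.assoc]
        exact Category.assoc _ _ _
      exact ⟨Iso.refl _, (((tensorRight M).commShiftIso (1 : ℤ)).app (𝟙_ T)).symm,
        (Iso.comp_inv_eq _).2 ((h2.trans h4).trans (by rw [Iso.refl_hom, Category.id_comp]))⟩
    refine ((AI_tpow _ 3).tensor h3).eq_zero ?_
    have h5 : H762.tSm (𝟙 (𝟙_ T)) (bet U x) 3 ⊗ₘ ((a ≫ U.bd 0 (𝟙_ T)) ≫ red i _) =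
        (H762.tSm (𝟙 (𝟙_ T)) (bet U x) 3 ⊗ₘ (a ≫ U.bd 0 (𝟙_ T))) ≫ (_ ◁ red i _) := by
      rw [← id_tensorHom, tensorHom_comp_tensorHom, Category.comp_id]
    rw [h5, ← hg, Preadditive.zsmul_comp, ← Preadditive.comp_zsmul,
      ← H762.whiskerLeft_zsmul', ← Category.id_comp (red i _), ← Preadditive.zsmul_comp,
      zsmul_red' hM, MonoidalPreadditive.whiskerLeft_zero, comp_zero]
  · intro hcob
    let f : (𝟙_ T)⟦(2 * 2 : ℤ)⟧ ⟶ U.cobar.Q 2 (𝟙_ T) := (sphE T 2).inv ≫ D.phi U 1 _ ⟨t, htw⟩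
    let z : (𝟙_ T)⟦(2 * 6 : ℤ)⟧ ⟶ U.cobar.Q 3 (𝟙_ T) :=
      (sphE T 6).inv ≫ D.phi U 2 _ ⟨bcls 3 t, hb⟩
    have hy : (CV U M).j 1 3 y = qE U (𝟙_ T) (redC i) h1 f := by
      apply (X.eE (𝟙_ T) h1).injective
      refine (X.eE_j (𝟙_ T) h1 y).trans (Eq.trans ?_ (eE_qE U (𝟙_ T) (redC i) h1 f).symm)
      rw [AddEquiv.apply_symm_apply]
      refine Eq.trans ?_ (congrArg (· ≫ _) ha).symm
      exact (Category.assoc _ _ _).trans ((congrArg (a ≫ ·) ((redC i).naturality _).symm).trans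
        (Category.assoc _ _ _).symm)
    have h6 := (ME₂ U (𝟙_ T) (tensorRight M) hk x hξ).j_powD 3 y
    rw [hy, powE_qE U (𝟙_ T) (redC i) hk x hξ z hx h1 f 3, qE_eq] at h6
    have hR := cupK_realizes (D := D) (U := U) ((realizes_iff (sphE T _) ⟨t, htw⟩ f).2 rfl)
      ((realizes_iff (sphE T _) ⟨bcls 3 t, hb⟩ z).2 rfl) 3
    have hw := cupN_isWt htw hb 3
    rw [H545.realizes_redC hR hw] at h6
    have hd : Cob.d 7 (cupN t (bcls 3 t) 3) ∈ IC 3 1 8 :=
      H545.d_cupN_mem (by rw [hdb]; exact zero_mem _) (by rw [hdt]; exact zero_mem _) 3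
    obtain ⟨c', hc'⟩ := U.exists_of_isCobdy (𝟙_ T) (tensorRight M) (𝟙_ T) (s := 6)
      (deg_add' hk h1 3) _ (by
        rw [Category.assoc, ← phiV_d, (Cyc.phiV_ker H 8 _ _).2 hd, comp_zero]) (h6 ▸ hcob)
    obtain ⟨zB, hzB⟩ := H.phi_surj U 6 _ ((αK (sphE T 2) (sphE T 6) 3).hom ≫ c')
    refine hA t ht zB.1 ((Cyc.phiV_ker H (U := U) 7 _ (⟨_, hw⟩ - Cob.dwt Laz 6 _ zB)).1 ?_)
    rw [map_sub, phiV_d, phiV_apply D U i 6, ← hzB, Category.assoc, hc', Iso.hom_inv_id_assoc,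
      sub_self]

include F hM in
/-- Some cocycle of filtration two in the stem `34` is not a permanent cycle. -/
theorem exists_src (hA : A1) : ∃ (m : ℤ) (z : (CV U M).E 2 (m + 1)), m = 33 ∧
    (CV U M).IsCocycle z ∧ (CV U M).k 2 (m + 1) m rfl z ≠ 0 := by
  have : Fact (Nat.Prime 3) := ⟨by norm_num⟩
  have H := cyc_modP D (p := 3) (by norm_num) hM
  obtain ⟨m, Y, hm, h0, hY⟩ := todaY F D U hM hA
  by_contra hn
  refine hY (isCobdy_of_k Y h0 fun a ha z hz => ?_)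
  have hv : ∀ (s : ℕ) (w : ℤ), 2 * w = m + 1 + s → s ≠ 2 → s < 6 → AlgVan 3 1 s w :=
    fun s w hw h2 h6 => H545.algVan_of_not_dvd (by norm_num) le_rfl (by push_cast; omega)
  by_cases h2 : a = 2
  · subst h2
    by_contra h
    exact hn ⟨m, z, hm, hz, h⟩
  · cases a with
    | zero => rw [H.cocycle_zero U (fun w hw => hv 0 w (by simpa using hw) h2 ha) z hz, map_zero]
    | succ a => exact (H.van U rfl (fun w hw => hv _ w hw h2 ha) z hz).k_eq_zero _ _

end Vale.Agent.P236K
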