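import Vale.Agent.P236K.Four
import Vale.Agent.P236Z.Dt.HF

/-!
# P236K: the first two stages of an Adams tower, and the Thom reduction
-/

open CategoryTheory MonoidalCategory MonObj Limits Pretriangulated

set_option linter.unusedSectionVars false

universe u

namespace Vale.Agent.P236K

open Vale.Agent.P251 Vale.Agent.P251.S Vale.Agent.P251.T Vale.Agent.P251.M Vale.Agent.P251.F
  Vale.Agent.P251.I EvenSpheres Vale.Agent.P257.H80 Vale.Agent.P251.H Vale.Agent.P236Z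

variable {T : Type u} [Category.{0} T] [Preadditive T] [HasZeroObject T]
    [HasShift T ℤ] [∀ n : ℤ, (shiftFunctor T n).Additive] [Pretriangulated T] [IsTriangulated T]
    [MonoidalCategory T] [SymmetricCategory T] [TensorTriangulated T] [MonoidalClosed T]
    [HasCoproducts.{0} T] [HasProducts.{0} T] [StableCat T]
  {F : SpaceFunctor T} {e : F.S.obj CCF ≅ (stdEven T).L} {D : MUData T}

/-- The first two stages of the Adams tower of `R`, in cofibre form. -/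
structure Tw (R : T) [MonObj R] where
  /-- the first stage -/
  B1 : T
  /-- the second stage -/
  B2 : T
  /-- the first projection -/
  k0 : R ⟶ B1
  /-- the first boundary map -/
  b0 : B1 ⟶ (𝟙_ T)⟦(1 : ℤ)⟧
  D0 : Dist η[R] k0 b0
  /-- the second projection -/
  k1 : R ⊗ B1 ⟶ B2
  /-- the second boundary map -/
  b1 : B2 ⟶ B1⟦(1 : ℤ)⟧
  D1 : Dist (unitMap R B1) k1 b1

namespace Tw

variable {R : T} [MonObj R] (U : Tw R) {P : T}

/-- the map from the cobar complex to the second stage -/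
noncomputable def kk : R ⊗ R ⟶ U.B2 := R ◁ U.k0 ≫ U.k1

/-- the projection from the cobar complex to the `E_1`-term -/
noncomputable def q : R ⊗ (R ⊗ R) ⟶ R ⊗ U.B2 := R ◁ U.kk

/-- the map to the sphere -/
noncomputable def bd : U.B2 ⟶ ((𝟙_ T)⟦(1 : ℤ)⟧)⟦(1 : ℤ)⟧ := U.b1 ≫ U.b0⟦(1 : ℤ)⟧'

theorem exists_lift (y : P ⟶ R ⊗ U.B1) : ∃ z : P ⟶ R ⊗ R, z ≫ R ◁ U.k0 = y := by
  obtain ⟨d, E⟩ := Tr.dist_tensL U.D0 R
  refine E.lift₃ y ?_
  have h : d = 0 := by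
    rw [← Category.comp_id d, ← CategoryTheory.Functor.map_id, ← (ρ_ R).hom_inv_id,
      ← MonObj.mul_one, Category.assoc, Functor.map_comp, ← Category.assoc, E.zero₃₁, zero_comp]
  rw [h, comp_zero]

@[reassoc]
theorem kk_un : U.kk ≫ unitMap R U.B2 = e12 R ≫ U.q := unitMap_nat _

@[reassoc]
theorem kk_bd : U.kk ≫ U.bd = 0 := by
  rw [kk, bd, Category.assoc, reassoc_of% U.D1.zero₂₃, zero_comp, comp_zero]

theorem e01_q : e01 R ≫ U.q = 0 := by
  rw [q, kk, ← MonoidalCategory.whiskerLeft_comp, inlM, Category.assoc,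
    ← MonoidalCategory.whiskerLeft_comp_assoc, U.D0.zero₁₂, MonoidalPreadditive.whiskerLeft_zero,
    zero_comp, comp_zero, MonoidalPreadditive.whiskerLeft_zero]

theorem e02_q : e02 R ≫ U.q = 0 := by
  have h : inrM R R ≫ R ◁ U.k0 = U.k0 ≫ unitMap R U.B1 := (unitMap_nat _).symm
  rw [q, kk, ← MonoidalCategory.whiskerLeft_comp, reassoc_of% h, U.D1.zero₁₂, comp_zero,
    MonoidalPreadditive.whiskerLeft_zero]

/-- the kernel of the projection -/
theorem ker_q (W : P ⟶ R ⊗ (R ⊗ R)) (h : W ≫ U.q = 0) :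
    ∃ z₁ z₂ : P ⟶ R ⊗ R, W = z₁ ≫ e02 R + z₂ ≫ e01 R := by
  obtain ⟨d1, E1⟩ := Tr.dist_tensL U.D1 R
  obtain ⟨d0, E0⟩ := Tr.dist_tensL U.D0 R
  obtain ⟨d0', E0'⟩ := Tr.dist_tensL E0 R
  obtain ⟨a, ha⟩ := E1.lift₂ (W ≫ R ◁ R ◁ U.k0) (by
    rw [Category.assoc, ← MonoidalCategory.whiskerLeft_comp]
    exact h)
  obtain ⟨z₁, rfl⟩ := U.exists_lift a
  obtain ⟨a', ha'⟩ := E0'.lift₂ (W - z₁ ≫ e02 R) (by
    have h : inrM R R ≫ R ◁ U.k0 = U.k0 ≫ unitMap R U.B1 := (unitMap_nat _).symm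
    rw [Preadditive.sub_comp, ← ha, Category.assoc, Category.assoc,
      ← MonoidalCategory.whiskerLeft_comp, ← MonoidalCategory.whiskerLeft_comp, h, sub_self])
  refine ⟨z₁, a' ≫ R ◁ (ρ_ R).hom, ?_⟩
  rw [Category.assoc, ← MonoidalCategory.whiskerLeft_comp, inlM, Iso.hom_inv_id_assoc, ha',
    add_sub_cancel]

/-- An element of the second stage which dies in the sphere comes from the cobar complex. -/
theorem exists_of_bd (hR : X.Odd0 R) {w : ℤ} (t : (stdEven T).S w ⟶ U.B2) (h : t ≫ U.bd = 0) :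
    ∃ z, z ≫ U.kk = t := by
  obtain ⟨a, ha⟩ := U.D0.rot.rot.rot.lift₃ (t ≫ U.b1) (by
    rw [Preadditive.comp_neg, Category.assoc]
    exact neg_eq_zero.2 h)
  obtain ⟨y, rfl⟩ := U.D1.lift₃ t (by rw [← ha, odd_shift hR a, zero_comp])
  obtain ⟨z, rfl⟩ := U.exists_lift y
  exact ⟨z, (Category.assoc _ _ _).symm⟩

/-- comparison of towers -/
theorem exists_map {H : T} [MonObj H] (V : Tw H) (u : R ⟶ H) [IsMonHom u] :
    ∃ φ : U.B2 ⟶ V.B2, φ ≫ V.bd = U.bd ∧ U.kk ≫ φ = (u ⊗ₘ u) ≫ V.kk := by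
  obtain ⟨φ₁, h1, h2⟩ := U.D0.map₃ V.D0 (𝟙 _) u (by rw [IsMonHom.one_hom, Category.id_comp])
  obtain ⟨φ₂, h3, h4⟩ := U.D1.map₃ V.D1 φ₁ (u ⊗ₘ φ₁) (by
    rw [unitMap_nat, MonoidalCategory.tensorHom_def, unitMap, unitMap, Category.assoc,
      Category.assoc, ← comp_whiskerRight_assoc, IsMonHom.one_hom])
  rw [CategoryTheory.Functor.map_id, Category.comp_id] at h2
  refine ⟨φ₂, ?_, ?_⟩
  · rw [bd, bd, ← reassoc_of% h4, ← Functor.map_comp, h2]
  · rw [kk, kk, Category.assoc, h3, ← id_tensorHom, ← id_tensorHom,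
      tensorHom_comp_tensorHom_assoc, tensorHom_comp_tensorHom_assoc, h1, Category.id_comp,
      Category.comp_id]

end Tw

variable {H : T} [MonObj H] [IsCommMonObj H] (hH : Tr.IsHF 3 η[H]) (u : D.R ⟶ H) [IsMonHom u]
  (V : Tw H)

include hH in
/-- **The class `b_j` is not a boundary.** -/
theorem not_bd (hD : MUUniv e D) (j : ℕ) {κ : ℤ} (hκ : ¬ 3 ∣ κ) {w : ℤ}
    (hw : w = 2 * 3 ^ (j + 1)) (W : (stdEven T).S w ⟶ H ⊗ (H ⊗ H))
    (hW : HRing.of (stdEven T) _ w W = κ • bel u (3 ^ j)) (t : (stdEven T).S w ⟶ V.B2)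
    (ht : t ≫ unitMap H V.B2 = W ≫ V.q) : t ≫ V.bd ≠ 0 := by
  intro h
  obtain ⟨z₀, rfl⟩ := V.exists_of_bd (odd_HF hH) t h
  obtain ⟨z₁, z₂, hz⟩ := V.ker_q (W - z₀ ≫ e12 H) (by
    rw [Preadditive.sub_comp, ← ht, Category.assoc, Category.assoc, V.kk_un, sub_self])
  refine not_cob hD hH u j hκ hw z₀ z₁ z₂ ?_
  rw [← hW, add_assoc, ← hz, add_sub_cancel]

end Vale.Agent.P236K
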